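import Crest.Agent.QG.Defs

/-!
# Iterated form of the forrelation sum; basic facts on `had`
-/

set_option autoImplicit false

namespace Crest.Agent.QG

open Finset

/-- iterated evaluation of the chain sum -/
def iter {I : Type} [Fintype I] (H : Matrix I I ℝ) (g : ℕ → I → ℝ) : ℕ → I → ℝ
  | 0 => g 0
  | s + 1 => fun i => g (s + 1) i * ∑ j, H j i * iter H g s j

theorem chain_succ {I : Type} (H : Matrix I I ℝ) (n : ℕ) (i : Fin (n + 1) → I) (j : I) :
    chain H (Fin.snoc i j : Fin (n + 2) → I) = chain H i * H (i (Fin.last n)) j := by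
  show (∏ s : Fin (n + 1), H ((Fin.snoc i j : Fin (n + 2) → I) s.castSucc)
      ((Fin.snoc i j : Fin (n + 2) → I) s.succ)) =
    (∏ s : Fin n, H (i s.castSucc) (i s.succ)) * H (i (Fin.last n)) j
  rw [Fin.prod_univ_castSucc]
  congr 1
  · apply Finset.prod_congr rfl
    intro s _
    rw [Fin.succ_castSucc, Fin.snoc_castSucc, Fin.snoc_castSucc]
  · rw [Fin.snoc_castSucc, Fin.succ_last, Fin.snoc_last]

/-- chain sums with prescribed last index -/
theorem sum_chain_last {I : Type} [Fintype I] [DecidableEq I] (H : Matrix I I ℝ) (g : ℕ → I → ℝ)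
    (n : ℕ) (φ : I → ℝ) :
    ∑ i : Fin (n + 1) → I, chain H i * (∏ s, g s.1 (i s)) * φ (i (Fin.last n)) =
      ∑ j, iter H g n j * φ j := by
  induction n generalizing φ with
  | zero =>
    rw [← (Equiv.funUnique (Fin 1) I).symm.sum_comp]
    apply Finset.sum_congr rfl
    intro j _
    simp [chain, iter]
  | succ n ih =>
    rw [← (Fin.snocEquiv (fun _ : Fin (n + 2) => I)).sum_comp, Fintype.sum_prod_type]
    apply Finset.sum_congr rfl
    intro j _
    have h1 : ∀ i : Fin (n + 1) → I,
        chain H ((Fin.snocEquiv (fun _ : Fin (n + 2) => I)) (j, i)) *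
          (∏ s : Fin (n + 2), g s.1 ((Fin.snocEquiv (fun _ : Fin (n + 2) => I)) (j, i) s)) *
          φ ((Fin.snocEquiv (fun _ : Fin (n + 2) => I)) (j, i) (Fin.last (n + 1))) =
        (chain H i * (∏ s : Fin (n + 1), g s.1 (i s)) * H (i (Fin.last n)) j) *
          (g (n + 1) j * φ j) := by
      intro i
      have e : ((Fin.snocEquiv (fun _ : Fin (n + 2) => I)) (j, i)) = (Fin.snoc i j : Fin (n + 2) → I) := rfl
      rw [e, chain_succ, Fin.prod_univ_castSucc]
      simp only [Fin.snoc_castSucc, Fin.snoc_last, Fin.val_castSucc, Fin.val_last]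
      ring
    rw [Finset.sum_congr rfl (fun i _ => h1 i), ← Finset.sum_mul, ih (fun i => H i j)]
    simp only [iter]
    rw [Finset.sum_congr rfl (fun i _ => mul_comm (iter H g n i) (H i j))]
    ring

theorem sum_chain {I : Type} [Fintype I] [DecidableEq I] (H : Matrix I I ℝ) (g : ℕ → I → ℝ)
    (n : ℕ) :
    ∑ i : Fin (n + 1) → I, chain H i * (∏ s, g s.1 (i s)) = ∑ j, iter H g n j := by
  have := sum_chain_last H g n (fun _ => 1)
  simpa using this

/-! ### the Walsh-Hadamard matrix -/

theorem had_isSymm (a : ℕ) : (had a).IsSymm := by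
  ext i j
  simp only [Matrix.transpose_apply, had]
  congr 1
  apply Finset.prod_congr rfl
  intro l _
  rw [Bool.and_comm]

theorem had_mul_had (a : ℕ) : had a * had a = 1 := by
  ext i k
  rw [Matrix.mul_apply]
  have h2 : (0 : ℝ) ≤ 2 ^ a := by positivity
  have h1 : ∀ j : Fin a → Bool, had a i j * had a j k =
      (∏ l, ((if i l && j l then (-1 : ℝ) else 1) * (if j l && k l then (-1 : ℝ) else 1))) / 2 ^ a := by
    intro j
    unfold had
    rw [div_mul_div_comm, Real.mul_self_sqrt h2, Finset.prod_mul_distrib]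
  rw [Finset.sum_congr rfl (fun j _ => h1 j), ← Finset.sum_div]
  have h3 := Finset.prod_univ_sum (fun _ : Fin a => (Finset.univ : Finset Bool))
    (fun l b => ((if i l && b then (-1 : ℝ) else 1) * (if b && k l then (-1 : ℝ) else 1)))
  rw [Fintype.piFinset_univ] at h3
  rw [← h3]
  have h4 : ∀ l, (∑ b : Bool, ((if i l && b then (-1 : ℝ) else 1) *
      (if b && k l then (-1 : ℝ) else 1))) = if i l = k l then 2 else 0 := by
    intro l
    rw [Fintype.sum_bool]
    cases i l <;> cases k l <;> norm_num
  rw [Finset.prod_congr rfl (fun l _ => h4 l)]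
  by_cases hik : i = k
  · subst hik
    simp
  · rw [Matrix.one_apply_ne hik]
    obtain ⟨l, hl⟩ := Function.ne_iff.mp hik
    rw [Finset.prod_eq_zero (Finset.mem_univ l)]
    · simp
    · simp [hl]

theorem had_abs (a : ℕ) (i j : Fin a → Bool) : |had a i j| = 1 / Real.sqrt (2 ^ a) := by
  unfold had
  rw [abs_div, abs_of_nonneg (Real.sqrt_nonneg _), Finset.abs_prod]
  congr 1
  apply Finset.prod_eq_one
  intro l _
  split <;> simp

/-- `l²` norm of the iterated vectors -/
theorem iter_norm {I : Type} [Fintype I] [DecidableEq I] (H : Matrix I I ℝ) (hsym : H.IsSymm)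
    (horth : H * H = 1) (g : ℕ → I → ℝ) (hg : ∀ s i, |g s i| ≤ 1) (n : ℕ) :
    ∑ j, iter H g n j ^ 2 ≤ Fintype.card I := by
  induction n with
  | zero =>
    calc ∑ j, iter H g 0 j ^ 2 ≤ ∑ _j : I, (1 : ℝ) := by
          apply Finset.sum_le_sum
          intro j _
          simp only [iter]
          rw [← sq_abs]
          have := hg 0 j
          have h0 := abs_nonneg (g 0 j)
          nlinarith
      _ = Fintype.card I := by simp
  | succ n ih =>
    have key : ∑ i, (∑ j, H j i * iter H g n j) ^ 2 = ∑ j, iter H g n j ^ 2 := by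
      have h1 : ∀ i, (∑ j, H j i * iter H g n j) ^ 2 =
          ∑ j, ∑ k, (H j i * H i k) * (iter H g n j * iter H g n k) := by
        intro i
        rw [sq, Finset.sum_mul_sum]
        apply Finset.sum_congr rfl
        intro j _
        apply Finset.sum_congr rfl
        intro k _
        rw [hsym.apply k i]
        ring
      rw [Finset.sum_congr rfl (fun i _ => h1 i), Finset.sum_comm]
      apply Finset.sum_congr rfl
      intro j _
      rw [Finset.sum_comm]
      have h2 : ∀ k, ∑ i, (H j i * H i k) * (iter H g n j * iter H g n k) =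
          (if j = k then 1 else 0) * (iter H g n j * iter H g n k) := by
        intro k
        rw [← Finset.sum_mul, ← Matrix.mul_apply, horth, Matrix.one_apply]
      rw [Finset.sum_congr rfl (fun k _ => h2 k)]
      simp [sq]
    calc ∑ i, iter H g (n + 1) i ^ 2 ≤ ∑ i, (∑ j, H j i * iter H g n j) ^ 2 := by
          apply Finset.sum_le_sum
          intro i _
          simp only [iter]
          rw [mul_pow]
          have h1 : (g (n + 1) i) ^ 2 ≤ 1 := by
            rw [← sq_abs]
            have := hg (n + 1) i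
            have h0 := abs_nonneg (g (n + 1) i)
            nlinarith
          have h2 := sq_nonneg (∑ j, H j i * iter H g n j)
          nlinarith
      _ = ∑ j, iter H g n j ^ 2 := key
      _ ≤ Fintype.card I := ih

theorem abs_sg (b : Bool) : |sg b| = 1 := by
  cases b <;> simp [sg]

/-- the forrelation in iterated form; `g s i = sg (x (s, i))` -/
theorem forr_eq_iter {I : Type} [Fintype I] [DecidableEq I] (H : Matrix I I ℝ) (n : ℕ)
    (x : Fin (n + 1) × I → Bool) :
    forr H x = (1 / (Fintype.card I : ℝ)) *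
      ∑ j, iter H (fun s i => if h : s < n + 1 then sg (x (⟨s, h⟩, i)) else 1) n j := by
  unfold forr
  rw [← sum_chain]
  congr 1
  apply Finset.sum_congr rfl
  intro i _
  congr 1
  apply Finset.prod_congr rfl
  intro s _
  simp [s.2]

theorem abs_forr_le_one {I : Type} [Fintype I] [DecidableEq I] [Nonempty I] {k : ℕ} (hk : 1 ≤ k)
    (H : Matrix I I ℝ) (hsym : H.IsSymm) (horth : H * H = 1) (x : Fin k × I → Bool) :
    |forr H x| ≤ 1 := by
  obtain ⟨n, rfl⟩ : ∃ n, k = n + 1 := ⟨k - 1, by omega⟩
  rw [forr_eq_iter]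
  set g : ℕ → I → ℝ := fun s i => if h : s < n + 1 then sg (x (⟨s, h⟩, i)) else 1 with hgdef
  have hg : ∀ s i, |g s i| ≤ 1 := by
    intro s i
    simp only [hgdef]
    split
    · rw [abs_sg]
    · simp
  have hN : (0 : ℝ) < Fintype.card I := by exact_mod_cast Fintype.card_pos
  have h1 : (∑ j, iter H g n j) ^ 2 ≤ (Fintype.card I : ℝ) ^ 2 := by
    have h2 := Finset.sum_mul_sq_le_sq_mul_sq (Finset.univ : Finset I) (fun _ => (1 : ℝ))
      (fun j => iter H g n j)
    simp only [one_mul, one_pow, Finset.sum_const, Finset.card_univ, nsmul_eq_mul, mul_one] at h2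
    have h3 := iter_norm H hsym horth g hg n
    nlinarith
  have h4 : |∑ j, iter H g n j| ≤ Fintype.card I := by
    exact abs_le_of_sq_le_sq h1 hN.le
  rw [abs_mul, abs_of_nonneg (by positivity : (0 : ℝ) ≤ 1 / (Fintype.card I : ℝ)), one_div,
    inv_mul_le_iff₀ hN, mul_one]
  exact h4

end Crest.Agent.QG
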