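import Crest.Agent.QG.Hint
import Crest.Agent.QG.Forr

/-!
# Chunk F2: quantum extraction of the address from the hint
-/

set_option autoImplicit false

namespace Crest.Agent.QG

open Finset Matrix
open scoped Kronecker

/-- complex Walsh-Hadamard matrix -/
noncomputable def hadC (a : ℕ) : Matrix (Fin a → Bool) (Fin a → Bool) ℂ :=
  (had a).map (fun r : ℝ => (r : ℂ))

theorem hadC_mul_hadC (a : ℕ) : hadC a * hadC a = 1 := by
  have h := congrArg (fun M : Matrix (Fin a → Bool) (Fin a → Bool) ℝ =>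
    M.map (Complex.ofRealHom : ℝ → ℂ)) (had_mul_had a)
  simp only [Matrix.map_mul] at h
  rw [Matrix.map_one _ (map_zero _) (map_one _)] at h
  exact h

theorem hadC_conjTranspose (a : ℕ) : (hadC a)ᴴ = hadC a := by
  ext i j
  rw [Matrix.conjTranspose_apply, hadC, Matrix.map_apply, Matrix.map_apply,
    (had_isSymm a).apply]
  exact Complex.conj_ofReal _

theorem hadC_zero (a : ℕ) (i : Fin a → Bool) :
    hadC a i (fun _ => false) = ((1 / Real.sqrt (2 ^ a) : ℝ) : ℂ) := by
  rw [hadC, Matrix.map_apply]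
  congr 1
  unfold had
  simp

theorem hadC_zero' (a : ℕ) (i : Fin a → Bool) :
    hadC a (fun _ => false) i = ((1 / Real.sqrt (2 ^ a) : ℝ) : ℂ) := by
  rw [hadC, Matrix.map_apply]
  congr 1
  unfold had
  simp

/-- Hadamard transform on both registers -/
noncomputable def hF (ρ a : ℕ) :
    Matrix ((Fin ρ → Bool) × (Fin a → Bool)) ((Fin ρ → Bool) × (Fin a → Bool)) ℂ :=
  hadC ρ ⊗ₖ hadC a

/-- Hadamard transform on the second register -/
noncomputable def hB (ρ a : ℕ) :
    Matrix ((Fin ρ → Bool) × (Fin a → Bool)) ((Fin ρ → Bool) × (Fin a → Bool)) ℂ :=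
  (1 : Matrix (Fin ρ → Bool) (Fin ρ → Bool) ℂ) ⊗ₖ hadC a

theorem mem_unitary_of_sq {J : Type} [Fintype J] [DecidableEq J] (M : Matrix J J ℂ)
    (h1 : Mᴴ = M) (h2 : M * M = 1) : M ∈ Matrix.unitaryGroup J ℂ := by
  rw [Matrix.mem_unitaryGroup_iff, Matrix.star_eq_conjTranspose, h1, h2]

theorem hF_conjTranspose (ρ a : ℕ) : (hF ρ a)ᴴ = hF ρ a := by
  rw [hF, Matrix.conjTranspose_kronecker, hadC_conjTranspose, hadC_conjTranspose]

theorem hF_mem (ρ a : ℕ) : hF ρ a ∈ Matrix.unitaryGroup _ ℂ := by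
  refine mem_unitary_of_sq _ (hF_conjTranspose ρ a) ?_
  rw [hF, ← Matrix.mul_kronecker_mul, hadC_mul_hadC, hadC_mul_hadC, Matrix.one_kronecker_one]

theorem hB_mem (ρ a : ℕ) : hB ρ a ∈ Matrix.unitaryGroup _ ℂ := by
  refine mem_unitary_of_sq _ ?_ ?_
  · rw [hB, Matrix.conjTranspose_kronecker, hadC_conjTranspose, Matrix.conjTranspose_one]
  · rw [hB, ← Matrix.mul_kronecker_mul, hadC_mul_hadC, Matrix.one_mul, Matrix.one_kronecker_one]

section

variable {c n ρ a : ℕ}

/-- the query map of layer `s` -/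
def qMap (β : Fin c) (s : ℕ) :
    (Fin ρ → Bool) × (Fin a → Bool) → Option ((Fin c × (Fin ρ → Bool)) × (Fin (n + 1) × (Fin a → Bool))) :=
  fun j => if h : s < n + 1 then some ((β, j.1), (⟨s, h⟩, j.2)) else none

/-- the families after `s` layers -/
noncomputable def fam (β : Fin c) :
    ℕ → ((Fin c × (Fin ρ → Bool)) × (Fin (n + 1) × (Fin a → Bool)) → Bool) →
      Matrix ((Fin ρ → Bool) × (Fin a → Bool)) ((Fin ρ → Bool) × (Fin a → Bool)) ℂ
  | 0 => fun _ => hF ρ a
  | s + 1 => fun x => hB ρ a * phaseOracle x (qMap β s) * fam β s x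

theorem fam_qfam (β : Fin c) (s : ℕ) : QFam s (fam (n := n) (ρ := ρ) (a := a) β s) := by
  induction s with
  | zero => exact QFam.const _ (hF_mem ρ a)
  | succ s ih => exact QFam.step ih _ _ (hB_mem ρ a)

/-- the signs of layer `s` -/
noncomputable def gS (β : Fin c) (x : (Fin c × (Fin ρ → Bool)) × (Fin (n + 1) × (Fin a → Bool)) → Bool)
    (r : Fin ρ → Bool) (s : ℕ) (i : Fin a → Bool) : ℝ :=
  if h : s < n + 1 then sg (x ((β, r), (⟨s, h⟩, i))) else 1

theorem phaseOracle_mul_apply {ι J : Type} [Fintype J] [DecidableEq J] (x : ι → Bool)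
    (q : J → Option ι) (M : Matrix J J ℂ) (j k : J) :
    (phaseOracle x q * M) j k = phaseOracle x q j j * M j k := by
  rw [phaseOracle, Matrix.diagonal_mul, Matrix.diagonal_apply_eq]

theorem phase_apply (β : Fin c)
    (x : (Fin c × (Fin ρ → Bool)) × (Fin (n + 1) × (Fin a → Bool)) → Bool) (s : ℕ)
    (j : (Fin ρ → Bool) × (Fin a → Bool)) :
    phaseOracle x (qMap (n := n) β s) j j = ((gS β x j.1 s j.2 : ℝ) : ℂ) := by
  unfold phaseOracle
  rw [Matrix.diagonal_apply_eq]
  unfold qMap gS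
  by_cases h : s < n + 1
  · simp only [h, dite_true]
    unfold sg
    split_ifs <;> simp
  · simp only [h, dite_false]
    simp

theorem phase_mul_apply (β : Fin c)
    (x : (Fin c × (Fin ρ → Bool)) × (Fin (n + 1) × (Fin a → Bool)) → Bool) (s : ℕ)
    (M : Matrix ((Fin ρ → Bool) × (Fin a → Bool)) ((Fin ρ → Bool) × (Fin a → Bool)) ℂ)
    (j k : (Fin ρ → Bool) × (Fin a → Bool)) :
    (phaseOracle x (qMap β s) * M) j k = ((gS β x j.1 s j.2 : ℝ) : ℂ) * M j k := by
  rw [phaseOracle_mul_apply, phase_apply]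

theorem fam_apply (β : Fin c)
    (x : (Fin c × (Fin ρ → Bool)) × (Fin (n + 1) × (Fin a → Bool)) → Bool) (s : ℕ)
    (j : (Fin ρ → Bool) × (Fin a → Bool)) :
    (phaseOracle x (qMap β s) * fam β s x) j (fun _ => false, fun _ => false) =
      ((iter (had a) (gS β x j.1) s j.2 / (Real.sqrt (2 ^ ρ) * Real.sqrt (2 ^ a)) : ℝ) : ℂ) := by
  induction s generalizing j with
  | zero =>
    rw [phase_mul_apply, fam, iter]
    show _ * (hadC ρ j.1 (fun _ => false) * hadC a j.2 (fun _ => false)) = _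
    rw [hadC_zero, hadC_zero]
    push_cast
    ring
  | succ s ih =>
    rw [phase_mul_apply]
    show ((gS β x j.1 (s + 1) j.2 : ℝ) : ℂ) *
      ((hB ρ a * phaseOracle x (qMap β s) * fam β s x) j (fun _ => false, fun _ => false)) = _
    rw [Matrix.mul_assoc, Matrix.mul_apply]
    simp only [ih]
    rw [iter]
    have h1 : ∀ j' : (Fin ρ → Bool) × (Fin a → Bool),
        hB ρ a j j' * ((iter (had a) (gS β x j'.1) s j'.2 / (Real.sqrt (2 ^ ρ) * Real.sqrt (2 ^ a)) : ℝ) : ℂ) =
        if j.1 = j'.1 then ((had a j'.2 j.2 * iter (had a) (gS β x j.1) s j'.2 /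
          (Real.sqrt (2 ^ ρ) * Real.sqrt (2 ^ a)) : ℝ) : ℂ) else 0 := by
      intro j'
      show (1 : Matrix (Fin ρ → Bool) (Fin ρ → Bool) ℂ) j.1 j'.1 * hadC a j.2 j'.2 * _ = _
      by_cases h : j.1 = j'.1
      · rw [h, Matrix.one_apply_eq, if_pos rfl, hadC, Matrix.map_apply, (had_isSymm a).apply]
        push_cast
        ring
      · rw [Matrix.one_apply_ne h, if_neg h, zero_mul, zero_mul]
    rw [Finset.sum_congr rfl fun j' _ => h1 j', Fintype.sum_prod_type]
    simp only [Finset.sum_ite_irrel, Finset.sum_const_zero, Finset.sum_ite_eq, Finset.mem_univ,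
      if_true]
    rw [← Complex.ofReal_sum, ← Complex.ofReal_mul]
    congr 1
    rw [← Finset.sum_div]
    ring

theorem final_apply (β : Fin c)
    (x : (Fin c × (Fin ρ → Bool)) × (Fin (n + 1) × (Fin a → Bool)) → Bool) :
    (hF ρ a * phaseOracle x (qMap β n) * fam β n x) (fun _ => false, fun _ => false)
      (fun _ => false, fun _ => false) = (meanForr x β : ℂ) := by
  rw [Matrix.mul_assoc, Matrix.mul_apply]
  simp only [fam_apply]
  have h1 : ∀ j : (Fin ρ → Bool) × (Fin a → Bool), hF ρ a (fun _ => false, fun _ => false) j =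
      ((1 / (Real.sqrt (2 ^ ρ) * Real.sqrt (2 ^ a)) : ℝ) : ℂ) := by
    intro j
    show hadC ρ (fun _ => false) j.1 * hadC a (fun _ => false) j.2 = _
    rw [hadC_zero', hadC_zero']
    push_cast
    field_simp
  simp only [h1]
  have h2 : ∀ j : (Fin ρ → Bool) × (Fin a → Bool),
      (((1 / (Real.sqrt (2 ^ ρ) * Real.sqrt (2 ^ a)) : ℝ) : ℂ)) *
      ((iter (had a) (gS β x j.1) n j.2 / (Real.sqrt (2 ^ ρ) * Real.sqrt (2 ^ a)) : ℝ) : ℂ) =
      ((1 / 2 ^ ρ * (1 / 2 ^ a * iter (had a) (gS β x j.1) n j.2) : ℝ) : ℂ) := by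
    intro j
    rw [← Complex.ofReal_mul]
    congr 1
    have e1 : Real.sqrt (2 ^ ρ) * Real.sqrt (2 ^ ρ) = 2 ^ ρ := Real.mul_self_sqrt (by positivity)
    have e2 : Real.sqrt (2 ^ a) * Real.sqrt (2 ^ a) = 2 ^ a := Real.mul_self_sqrt (by positivity)
    have e3 : 0 < Real.sqrt (2 ^ ρ) := Real.sqrt_pos.2 (by positivity)
    have e4 : 0 < Real.sqrt (2 ^ a) := Real.sqrt_pos.2 (by positivity)
    generalize Real.sqrt (2 ^ ρ) = A at e1 e3 ⊢
    generalize Real.sqrt (2 ^ a) = B at e2 e4 ⊢
    rw [← e1, ← e2]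
    field_simp
  rw [Finset.sum_congr rfl fun j _ => h2 j, ← Complex.ofReal_sum]
  congr 1
  rw [meanForr, Fintype.sum_prod_type, Finset.mul_sum]
  refine Finset.sum_congr rfl fun r _ => ?_
  rw [← Finset.mul_sum, ← Finset.mul_sum, forr_eq_iter]
  congr 2
  simp

end

/-- the mean Forrelation of the bit `β` is the real diagonal entry of a `κ`-query unitary -/
theorem forr_qfam (c κ ρ a : ℕ) (hκ : 1 ≤ κ) (β : Fin c) :
    ∃ (J : Type) (_ : Fintype J) (_ : DecidableEq J)
      (A : ((Fin c × (Fin ρ → Bool)) × (Fin κ × (Fin a → Bool)) → Bool) → Matrix J J ℂ) (j₀ : J),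
      QFam κ A ∧ ∀ x, A x j₀ j₀ = (meanForr x β : ℂ) := by
  obtain ⟨n, rfl⟩ : ∃ n, κ = n + 1 := ⟨κ - 1, by omega⟩
  refine ⟨(Fin ρ → Bool) × (Fin a → Bool), inferInstance, inferInstance,
    fun x => hF ρ a * phaseOracle x (qMap β n) * fam β n x, (fun _ => false, fun _ => false),
    QFam.step (fam_qfam β n) _ _ (hF_mem ρ a), fun x => final_apply β x⟩

/-- product of independent procedures -/
theorem Proc.pi {ι O : Type} [Fintype O] [DecidableEq O] {T : ℕ} (c : ℕ)
    (p : Fin c → (ι → Bool) → O → ℝ) (hp : ∀ β, Proc T (p β)) :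
    Proc (c * T) (fun x (v : Fin c → O) => ∏ β, p β x (v β)) := by
  induction c with
  | zero =>
    have h := Proc.pure (ι := ι) (fun _ : Fin 0 → O => (1 : ℝ)) (fun _ => zero_le_one) (by simp)
    rw [Nat.zero_mul]
    convert h using 1
    funext x v
    simp
  | succ c ih =>
    have h1 := ih (fun β => p β.succ) (fun β => hp β.succ)
    have h2 : ∀ o : O, Proc (c * T) (fun (x : ι → Bool) (w : Fin (c + 1) → O) =>
        ∑ v : Fin c → O, if (Fin.cons o v : Fin (c + 1) → O) = w then ∏ β, p β.succ x (v β) else 0) :=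
      fun o => h1.map (fun v => (Fin.cons o v : Fin (c + 1) → O))
    have h3 := Proc.bind (hp 0) h2
    have e : (c + 1) * T = T + c * T := by ring
    rw [e]
    convert h3 using 1
    funext x w
    have h4 : ∀ (o : O), (∑ v : Fin c → O, if (Fin.cons o v : Fin (c + 1) → O) = w then
        ∏ β, p β.succ x (v β) else 0) = if o = w 0 then ∏ β : Fin c, p β.succ x (w β.succ) else 0 := by
      intro o
      by_cases ho : o = w 0
      · rw [if_pos ho, Finset.sum_eq_single (fun β => w β.succ)]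
        · rw [if_pos]
          rw [ho]
          exact Fin.cons_self_tail w
        · intro v _ hv
          rw [if_neg]
          intro hc
          apply hv
          rw [← hc]
          funext β
          simp
        · simp
      · rw [if_neg ho]
        refine Finset.sum_eq_zero fun v _ => ?_
        rw [if_neg]
        intro hc
        apply ho
        rw [← hc]
        simp
    simp only [h4, mul_ite, mul_zero, Finset.sum_ite_eq', Finset.mem_univ, if_true]
    rw [Fin.prod_univ_succ]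

theorem one_sub_sum_le_prod {I : Type} [DecidableEq I] (S : Finset I) (f : I → ℝ) (h0 : ∀ i ∈ S, 0 ≤ f i)
    (h1 : ∀ i ∈ S, f i ≤ 1) : 1 - ∑ i ∈ S, (1 - f i) ≤ ∏ i ∈ S, f i := by
  induction S using Finset.induction_on with
  | empty => simp
  | insert a S ha ih =>
    rw [Finset.sum_insert ha, Finset.prod_insert ha]
    have h2 := ih (fun i hi => h0 i (Finset.mem_insert_of_mem hi))
      (fun i hi => h1 i (Finset.mem_insert_of_mem hi))
    have h3 := h0 a (Finset.mem_insert_self _ _)
    have h4 := h1 a (Finset.mem_insert_self _ _)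
    have h5 : ∏ i ∈ S, f i ≤ 1 := Finset.prod_le_one (fun i hi => h0 i (Finset.mem_insert_of_mem hi))
      (fun i hi => h1 i (Finset.mem_insert_of_mem hi))
    nlinarith

/-- second moment of the sum of `n` independent signs -/
theorem second_moment (n : ℕ) (w : Bool → ℝ) (h1 : w true + w false = 1) (h0 : ∀ b, 0 ≤ w b) :
    ∑ v : Fin n → Bool, (∏ i, w (v i)) = 1 ∧ ∑ v : Fin n → Bool, (∏ i, w (v i)) *
      (∑ i, (sg (v i) - (w false - w true))) ^ 2 ≤ n := by
  induction n with
  | zero => simp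
  | succ n ih =>
    obtain ⟨ih1, ih2⟩ := ih
    constructor
    · rw [← (Fin.consEquiv (fun _ : Fin (n + 1) => Bool)).sum_comp, Fintype.sum_prod_type]
      simp only [Fin.consEquiv_apply, Fin.prod_univ_succ, Fin.cons_zero, Fin.cons_succ,
        ← Finset.mul_sum, ih1, mul_one, Fintype.sum_bool]
      exact h1
    · rw [← (Fin.consEquiv (fun _ : Fin (n + 1) => Bool)).sum_comp, Fintype.sum_prod_type]
      simp only [Fin.consEquiv_apply, Fin.prod_univ_succ, Fin.sum_univ_succ, Fin.cons_zero,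
        Fin.cons_succ]
      have e : ∀ (b : Bool) (v : Fin n → Bool), w b * (∏ i, w (v i)) *
          (sg b - (w false - w true) + ∑ i, (sg (v i) - (w false - w true))) ^ 2 =
          w b * (sg b - (w false - w true)) ^ 2 * (∏ i, w (v i)) +
          2 * (w b * (sg b - (w false - w true))) * ((∏ i, w (v i)) *
            ∑ i, (sg (v i) - (w false - w true))) +
          w b * ((∏ i, w (v i)) * (∑ i, (sg (v i) - (w false - w true))) ^ 2) := by
        intro b v; ring
      simp only [e, Finset.sum_add_distrib, ← Finset.mul_sum, Fintype.sum_bool, ih1]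
      generalize ∑ v : Fin n → Bool, (∏ i, w (v i)) * ∑ i, (sg (v i) - (w false - w true)) = A
      generalize ∑ v : Fin n → Bool, (∏ i, w (v i)) *
        (∑ i, (sg (v i) - (w false - w true))) ^ 2 = B at ih2 ⊢
      simp only [sg, if_true, Bool.false_eq_true, if_false]
      push_cast
      have hf := h0 false
      have ht := h0 true
      have e1 : w true = 1 - w false := by linarith
      rw [e1] at ht ⊢
      generalize w false = f at hf ht ⊢
      have e2 : (1 - f) * (-1 - (f - (1 - f))) ^ 2 * 1 + f * (1 - (f - (1 - f))) ^ 2 * 1 +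
          (2 * ((1 - f) * (-1 - (f - (1 - f)))) * A + 2 * (f * (1 - (f - (1 - f)))) * A) +
          ((1 - f) * B + f * B) = 4 * f * (1 - f) + B := by ring
      rw [e2]
      nlinarith [sq_nonneg (2 * f - 1)]

theorem bit_bound (n : ℕ) (hn : 1 ≤ n) (w : Bool → ℝ) (h0 : ∀ b, 0 ≤ w b)
    (h1 : w true + w false = 1) (o : Bool) (θ : ℝ) (hθ : 0 < θ)
    (ho1 : o = true → θ ≤ w false - w true) (ho2 : o = false → w false - w true ≤ -θ)
    (g : (Fin n → Bool) → Bool) (hg : ∀ v, g v = true ↔ 0 < ∑ i, sg (v i)) :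
    1 - 1 / (n * θ ^ 2) ≤ ∑ v : Fin n → Bool, if g v = o then ∏ i, w (v i) else 0 := by
  obtain ⟨hs1, hs2⟩ := second_moment n w h1 h0
  have hW : ∀ v : Fin n → Bool, 0 ≤ ∏ i, w (v i) := fun v => Finset.prod_nonneg fun i _ => h0 _
  have hn0 : (0 : ℝ) < n := by exact_mod_cast hn
  have hsplit : (∑ v : Fin n → Bool, if g v = o then ∏ i, w (v i) else 0) =
      1 - ∑ v : Fin n → Bool, if g v = o then 0 else ∏ i, w (v i) := by
    rw [← hs1, ← Finset.sum_sub_distrib]
    refine Finset.sum_congr rfl fun v _ => ?_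
    split_ifs <;> ring
  rw [hsplit]
  have hbad : ∀ v : Fin n → Bool, g v ≠ o → (n * θ) ^ 2 ≤
      (∑ i, (sg (v i) - (w false - w true))) ^ 2 := by
    intro v hv
    rw [Finset.sum_sub_distrib, Finset.sum_const, Finset.card_univ, Fintype.card_fin,
      nsmul_eq_mul]
    have hnθ : 0 < n * θ := by positivity
    cases o with
    | true =>
      have h2 : ¬ (0 < ∑ i, sg (v i)) := fun h => hv ((hg v).2 h)
      have h3 := ho1 rfl
      have h4 : n * θ ≤ n * (w false - w true) := mul_le_mul_of_nonneg_left h3 hn0.le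
      push Not at h2
      have h5 : ∑ i, sg (v i) - n * (w false - w true) ≤ -(n * θ) := by linarith
      nlinarith
    | false =>
      have h2 : 0 < ∑ i, sg (v i) := by
        rw [← hg]
        cases h : g v with
        | true => rfl
        | false => exact absurd h hv
      have h3 := ho2 rfl
      have h4 : n * (w false - w true) ≤ n * (-θ) := mul_le_mul_of_nonneg_left h3 hn0.le
      have h5 : n * θ ≤ ∑ i, sg (v i) - n * (w false - w true) := by linarith
      nlinarith
  have hmain : (∑ v : Fin n → Bool, if g v = o then 0 else ∏ i, w (v i)) * (n * θ) ^ 2 ≤ n := by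
    refine le_trans ?_ hs2
    rw [Finset.sum_mul]
    refine Finset.sum_le_sum fun v _ => ?_
    by_cases hv : g v = o
    · rw [if_pos hv, zero_mul]
      exact mul_nonneg (hW v) (sq_nonneg _)
    · rw [if_neg hv]
      exact mul_le_mul_of_nonneg_left (hbad v hv) (hW v)
  have h3 : (∑ v : Fin n → Bool, if g v = o then 0 else ∏ i, w (v i)) ≤ 1 / (n * θ ^ 2) := by
    rw [le_div_iff₀ (by positivity)]
    have h4 : ((∑ v : Fin n → Bool, if g v = o then 0 else ∏ i, w (v i)) * (n * θ ^ 2)) * (n : ℝ) ≤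
        1 * (n : ℝ) := by
      rw [one_mul]
      calc ((∑ v : Fin n → Bool, if g v = o then 0 else ∏ i, w (v i)) * (n * θ ^ 2)) * (n : ℝ)
          = (∑ v : Fin n → Bool, if g v = o then 0 else ∏ i, w (v i)) * (n * θ) ^ 2 := by ring
        _ ≤ (n : ℝ) := hmain
    exact le_of_mul_le_mul_right h4 hn0
  linarith

/-- address extraction by `n` Hadamard tests per address bit -/
theorem address_extraction (c κ ρ a n : ℕ) (hκ : 1 ≤ κ) (hn : 1 ≤ n) :
    ∃ pa : ((Fin c × (Fin ρ → Bool)) × (Fin κ × (Fin a → Bool)) → Bool) → (Fin c → Bool) → ℝ,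
      Proc (c * (n * κ)) pa ∧
      ∀ θ : ℝ, 0 < θ → ∀ x lam, Encodes θ x lam → 1 - c / (n * θ ^ 2) ≤ pa x lam := by
  classical
  -- one Hadamard test
  have htst : ∀ β : Fin c, Proc κ (fun
      (x : (Fin c × (Fin ρ → Bool)) × (Fin κ × (Fin a → Bool)) → Bool) (b : Bool) =>
      if b then (1 - meanForr x β) / 2 else (1 + meanForr x β) / 2) := by
    intro β
    obtain ⟨J, i1, i2, A, j₀, hA, hx⟩ := forr_qfam c κ ρ a hκ β
    have h := Proc.hadamardTest hA j₀
    simp only [hx, Complex.ofReal_re] at h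
    exact h
  set g : (Fin n → Bool) → Bool := fun v => decide (0 < ∑ i, sg (v i)) with hg
  have hgd : ∀ v, g v = true ↔ 0 < ∑ i, sg (v i) := by
    intro v; simp [hg]
  have hbit : ∀ β : Fin c, Proc (n * κ) (fun
      (x : (Fin c × (Fin ρ → Bool)) × (Fin κ × (Fin a → Bool)) → Bool) (o : Bool) =>
      ∑ v : Fin n → Bool, if g v = o then ∏ i, (if v i then (1 - meanForr x β) / 2 else
        (1 + meanForr x β) / 2) else 0) := fun β =>
    (Proc.pi n (fun _ => _) (fun _ => htst β)).map g
  have hall := Proc.pi c _ hbit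
  refine ⟨_, hall, ?_⟩
  intro θ hθ x lam henc
  have hb : ∀ β : Fin c, 1 - 1 / (n * θ ^ 2) ≤ ∑ v : Fin n → Bool, if g v = lam β then
      ∏ i, (if v i then (1 - meanForr x β) / 2 else (1 + meanForr x β) / 2) else 0 := by
    intro β
    refine bit_bound n hn (fun b => if b then (1 - meanForr x β) / 2 else (1 + meanForr x β) / 2)
      (fun b => (htst β).nonneg x b) ?_ (lam β) θ hθ ?_ ?_ g hgd
    · simp; ring
    · intro h
      have := (henc β).1 h
      simp; linarith
    · intro h
      have := (henc β).2 h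
      simp; linarith
  refine le_trans ?_ (one_sub_sum_le_prod univ _ (fun β _ => (hbit β).nonneg x (lam β))
    (fun β _ => ?_))
  · have h3 : ∑ β : Fin c, (1 - ∑ v : Fin n → Bool, if g v = lam β then
      ∏ i, (if v i then (1 - meanForr x β) / 2 else (1 + meanForr x β) / 2) else 0) ≤
        ∑ _β : Fin c, 1 / (n * θ ^ 2) := Finset.sum_le_sum fun β _ => by linarith [hb β]
    rw [Finset.sum_const, Finset.card_univ, Fintype.card_fin, nsmul_eq_mul, mul_one_div] at h3
    linarith
  · have h4 := (hbit β).sum_one x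
    exact (Finset.single_le_sum (fun o _ => (hbit β).nonneg x o)
      (Finset.mem_univ (lam β))).trans_eq h4

end Crest.Agent.QG
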