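import Crest.Agent.QG.QFam

/-!
# Chunk A2: amplitude amplification
-/

set_option autoImplicit false

namespace Crest.Agent.QG

open Finset Crest.MathPhysics.Query

namespace Amp

/-! ### trigonometry -/

lemma sum_sin_sq (L : ℕ) (θ : ℝ) :
    4 * Real.sin (2 * θ) * ∑ l ∈ range L, Real.sin ((2 * l + 1) * θ) ^ 2 =
      2 * L * Real.sin (2 * θ) - Real.sin (4 * L * θ) := by
  induction L with
  | zero => simp
  | succ L ih =>
    rw [sum_range_succ, mul_add, ih]
    have h1 : Real.sin (4 * ((L + 1 : ℕ) : ℝ) * θ) =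
        Real.sin (2 * ((2 * L + 1) * θ)) * Real.cos (2 * θ) +
          Real.cos (2 * ((2 * L + 1) * θ)) * Real.sin (2 * θ) := by
      rw [← Real.sin_add]
      congr 1
      push_cast
      ring
    have h2 : Real.sin (4 * (L : ℝ) * θ) =
        Real.sin (2 * ((2 * L + 1) * θ)) * Real.cos (2 * θ) -
          Real.cos (2 * ((2 * L + 1) * θ)) * Real.sin (2 * θ) := by
      rw [← Real.sin_sub]
      congr 1
      ring
    have h3 : Real.sin ((2 * L + 1) * θ) ^ 2 = (1 - Real.cos (2 * ((2 * L + 1) * θ))) / 2 := by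
      rw [Real.sin_sq_eq_half_sub]
      ring
    rw [h1, h2, h3]
    push_cast
    ring

lemma sum_odd_sq (L : ℕ) (hL : 0 < L) : (L : ℝ) ^ 3 ≤ ∑ l ∈ range L, (2 * (l : ℝ) + 1) ^ 2 := by
  have h1 : ∀ n : ℕ, 3 * ∑ l ∈ range n, (2 * (l : ℝ) + 1) ^ 2 = (n : ℝ) * (4 * (n : ℝ) ^ 2 - 1) := by
    intro n
    induction n with
    | zero => simp
    | succ n ih =>
      rw [sum_range_succ, mul_add, ih]
      push_cast
      ring
  have h2 := h1 L
  have h3 : (1 : ℝ) ≤ L := by exact_mod_cast hL
  have h4 : 0 ≤ (L : ℝ) * ((L : ℝ) - 1) * ((L : ℝ) + 1) := by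
    have : 0 ≤ (L : ℝ) - 1 := by linarith
    positivity
  nlinarith

lemma avg_sin_ge (L : ℕ) (hL : 0 < L) {θ : ℝ} (h0 : 0 ≤ θ) (h1 : θ ≤ Real.pi / 2) :
    (1 / 4) * min ((L : ℝ) ^ 2 * Real.sin θ ^ 2) 1 ≤
      (1 / L) * ∑ l ∈ range L, Real.sin ((2 * l + 1) * θ) ^ 2 := by
  have hLp : (0 : ℝ) < L := by exact_mod_cast hL
  have hpi := Real.pi_pos
  by_cases hA : 2 * L * θ ≤ Real.pi / 2
  · -- small angle
    have h2 : ∀ l ∈ range L, (2 / Real.pi * ((2 * (l : ℝ) + 1) * θ)) ^ 2 ≤
        Real.sin ((2 * l + 1) * θ) ^ 2 := by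
      intro l hl
      have hl' : (l : ℝ) + 1 ≤ L := by exact_mod_cast (mem_range.1 hl)
      have h3 : 0 ≤ (2 * (l : ℝ) + 1) * θ := by positivity
      have h4 : (2 * (l : ℝ) + 1) * θ ≤ Real.pi / 2 := by
        have : (2 * (l : ℝ) + 1) * θ ≤ 2 * L * θ := by
          apply mul_le_mul_of_nonneg_right _ h0
          linarith
        linarith
      exact pow_le_pow_left₀ (by positivity) (Real.mul_le_sin h3 h4) 2
    have h3 := Finset.sum_le_sum h2
    have h4 : ∑ l ∈ range L, (2 / Real.pi * ((2 * (l : ℝ) + 1) * θ)) ^ 2 =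
        (2 / Real.pi * θ) ^ 2 * ∑ l ∈ range L, (2 * (l : ℝ) + 1) ^ 2 := by
      rw [Finset.mul_sum]
      apply Finset.sum_congr rfl
      intro l _
      ring
    have h5 := sum_odd_sq L hL
    have h6 : Real.sin θ ^ 2 ≤ θ ^ 2 :=
      pow_le_pow_left₀ (Real.sin_nonneg_of_nonneg_of_le_pi h0 (by linarith)) (Real.sin_le h0) 2
    have h7 : (1 : ℝ) / 4 ≤ (2 / Real.pi) ^ 2 := by
      have h8 : (1 : ℝ) / 2 ≤ 2 / Real.pi := by
        rw [div_le_div_iff₀ (by norm_num) hpi]
        have := Real.pi_le_four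
        linarith
      nlinarith
    calc (1 / 4) * min ((L : ℝ) ^ 2 * Real.sin θ ^ 2) 1 ≤ (1 / 4) * ((L : ℝ) ^ 2 * Real.sin θ ^ 2) := by
          gcongr
          exact min_le_left _ _
      _ ≤ (2 / Real.pi) ^ 2 * ((L : ℝ) ^ 2 * θ ^ 2) := by gcongr
      _ = (1 / L) * ((2 / Real.pi * θ) ^ 2 * (L : ℝ) ^ 3) := by field_simp
      _ ≤ (1 / L) * ((2 / Real.pi * θ) ^ 2 * ∑ l ∈ range L, (2 * (l : ℝ) + 1) ^ 2) := by gcongr
      _ ≤ (1 / L) * ∑ l ∈ range L, Real.sin ((2 * l + 1) * θ) ^ 2 := by
          rw [← h4]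
          gcongr
  · push Not at hA
    have hgoal : (1 / 4 : ℝ) ≤ (1 / L) * ∑ l ∈ range L, Real.sin ((2 * l + 1) * θ) ^ 2 := by
      set S := ∑ l ∈ range L, Real.sin ((2 * l + 1) * θ) ^ 2 with hS
      have hid := sum_sin_sq L θ
      rw [← hS] at hid
      rw [one_div_mul_eq_div, le_div_iff₀ hLp]
      by_cases hB : θ ≤ Real.pi / 4
      · have h2 : 1 ≤ L * Real.sin (2 * θ) := by
          have h3 := Real.mul_le_sin (x := 2 * θ) (by linarith) (by linarith)
          have h4 : 1 ≤ L * (2 / Real.pi * (2 * θ)) := by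
            have : L * (2 / Real.pi * (2 * θ)) = (2 * L * θ) * 2 / Real.pi := by ring
            rw [this, le_div_iff₀ hpi]
            linarith
          have h5 : (L : ℝ) * (2 / Real.pi * (2 * θ)) ≤ L * Real.sin (2 * θ) := by gcongr
          linarith
        have h3 := Real.sin_le_one (4 * L * θ)
        have h6 : 0 < Real.sin (2 * θ) := by
          by_contra hcon
          push Not at hcon
          have : (L : ℝ) * Real.sin (2 * θ) ≤ 0 := mul_nonpos_of_nonneg_of_nonpos hLp.le hcon
          linarith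
        -- 4 s S = 2 L s - sin ≥ 2 L s - L s = L s
        have h7 : L * Real.sin (2 * θ) ≤ 4 * Real.sin (2 * θ) * S := by rw [hid]; linarith
        have h8 : Real.sin (2 * θ) * (L - 4 * S) ≤ 0 := by linarith
        have h9 : (L : ℝ) - 4 * S ≤ 0 := by
          by_contra hcon
          push Not at hcon
          have := mul_pos h6 hcon
          linarith
        linarith
      · push Not at hB
        set φ := Real.pi / 2 - θ with hφ
        have hφ0 : 0 ≤ φ := by linarith
        have hφ1 : φ < Real.pi / 4 := by linarith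
        have hs2 : Real.sin (2 * θ) = Real.sin (2 * φ) := by
          rw [hφ, show 2 * (Real.pi / 2 - θ) = Real.pi - 2 * θ by ring, Real.sin_pi_sub]
        have hs4 : Real.sin (4 * L * θ) = -Real.sin (4 * L * φ) := by
          have h2 : 4 * L * θ = -(4 * L * φ) + L * (2 * Real.pi) := by rw [hφ]; ring
          rw [h2, Real.sin_add_nat_mul_two_pi, Real.sin_neg]
        rw [hs2, hs4] at hid
        rcases hφ0.eq_or_lt with h2 | h2
        · -- θ = π/2
          have hθ : θ = Real.pi / 2 := by linarith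
          have h3 : ∀ l ∈ range L, Real.sin ((2 * (l : ℝ) + 1) * θ) ^ 2 = 1 := by
            intro l _
            rw [hθ, show (2 * (l : ℝ) + 1) * (Real.pi / 2) = Real.pi / 2 + l * Real.pi by ring,
              Real.sin_add_nat_mul_pi]
            rw [mul_pow, Real.sin_pi_div_two, ← pow_mul, mul_comm l 2, pow_mul]
            norm_num
          rw [hS, Finset.sum_congr rfl h3]
          simp
          linarith
        · have h6 : 0 < Real.sin (2 * φ) := Real.sin_pos_of_pos_of_lt_pi (by linarith) (by linarith)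
          have h7 : L * Real.sin (2 * φ) ≤ 4 * Real.sin (2 * φ) * S := by
            rw [hid]
            by_cases hC : 4 * L * φ ≤ Real.pi
            · have h8 : 0 ≤ Real.sin (4 * L * φ) := Real.sin_nonneg_of_nonneg_of_le_pi (by positivity) hC
              nlinarith
            · push Not at hC
              have h8 := Real.neg_one_le_sin (4 * L * φ)
              have h3 := Real.mul_le_sin (x := 2 * φ) (by linarith) (by linarith)
              have h4 : 1 ≤ L * (2 / Real.pi * (2 * φ)) := by
                have : L * (2 / Real.pi * (2 * φ)) = (4 * L * φ) / Real.pi := by ring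
                rw [this, le_div_iff₀ hpi]
                linarith
              have h5 : (L : ℝ) * (2 / Real.pi * (2 * φ)) ≤ L * Real.sin (2 * φ) := by gcongr
              linarith
          have h8 : Real.sin (2 * φ) * (L - 4 * S) ≤ 0 := by linarith
          have h9 : (L : ℝ) - 4 * S ≤ 0 := by
            by_contra hcon
            push Not at hcon
            have := mul_pos h6 hcon
            linarith
          linarith
    calc (1 / 4) * min ((L : ℝ) ^ 2 * Real.sin θ ^ 2) 1 ≤ (1 / 4) * 1 := by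
          gcongr
          exact min_le_right _ _
      _ ≤ _ := by linarith

/-! ### the two-dimensional recursion -/

/-- multipliers of the good and bad part after `l` Grover iterations. -/
noncomputable def uw (P : ℝ) : ℕ → ℝ × ℝ
  | 0 => (1, 1)
  | (l + 1) => ((1 - 2 * P) * (uw P l).1 + 2 * (1 - P) * (uw P l).2,
      -2 * P * (uw P l).1 + (1 - 2 * P) * (uw P l).2)

lemma uw_trig (θ : ℝ) (l : ℕ) :
    (uw (Real.sin θ ^ 2) l).1 * Real.sin θ = Real.sin ((2 * l + 1) * θ) ∧
    (uw (Real.sin θ ^ 2) l).2 * Real.cos θ = Real.cos ((2 * l + 1) * θ) := by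
  induction l with
  | zero => simp [uw]
  | succ l ih =>
    obtain ⟨h1, h2⟩ := ih
    have e : (2 * ((l + 1 : ℕ) : ℝ) + 1) * θ = (2 * l + 1) * θ + 2 * θ := by push_cast; ring
    have hs : Real.sin θ ^ 2 = 1 - Real.cos θ ^ 2 := by
      have := Real.sin_sq_add_cos_sq θ
      linarith
    rw [e, Real.sin_add, Real.cos_add, ← h1, ← h2, Real.sin_two_mul, Real.cos_two_mul]
    simp only [uw]
    set u := (uw (Real.sin θ ^ 2) l).1
    set w := (uw (Real.sin θ ^ 2) l).2
    rw [hs]
    constructor
    · ring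
    · have h3 : Real.sin θ ^ 2 = 1 - Real.cos θ ^ 2 := hs
      linear_combination (2 * u * Real.cos θ) * h3

/-! ### Grover iterations -/

section Grover

variable {ι J : Type} [Fintype J] [DecidableEq J]

/-- sign matrix of the good states -/
noncomputable def Sgood (gd : J → Bool) : Matrix J J ℂ :=
  Matrix.diagonal fun j => if gd j then -1 else 1

/-- reflection `2 |j₀⟩⟨j₀| - 1` -/
noncomputable def Szero (j₀ : J) : Matrix J J ℂ := Matrix.diagonal fun j => if j = j₀ then 1 else -1

lemma diag_unitary (d : J → ℂ) (hd : ∀ j, d j * star (d j) = 1) :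
    Matrix.diagonal d ∈ Matrix.unitaryGroup J ℂ := by
  rw [Matrix.mem_unitaryGroup_iff, Matrix.star_eq_conjTranspose, Matrix.diagonal_conjTranspose,
    Matrix.diagonal_mul_diagonal]
  rw [← Matrix.diagonal_one]
  congr 1
  funext j
  exact hd j

lemma Sgood_unitary (gd : J → Bool) : Sgood gd ∈ Matrix.unitaryGroup J ℂ := by
  apply diag_unitary
  intro j
  split_ifs <;> simp

lemma Szero_unitary (j₀ : J) : Szero j₀ ∈ Matrix.unitaryGroup J ℂ := by
  apply diag_unitary
  intro j
  split_ifs <;> simp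

/-- `l` Grover iterations. -/
noncomputable def GG (A : (ι → Bool) → Matrix J J ℂ) (gd : J → Bool) (j₀ : J) :
    ℕ → (ι → Bool) → Matrix J J ℂ
  | 0 => A
  | (l + 1) => fun x => A x * (Szero j₀ * ((A x).conjTranspose * (Sgood gd * GG A gd j₀ l x)))

lemma GG_qfam {T : ℕ} {A : (ι → Bool) → Matrix J J ℂ} (hA : QFam T A) (gd : J → Bool) (j₀ : J)
    (l : ℕ) : QFam ((2 * l + 1) * T) (GG A gd j₀ l) := by
  induction l with
  | zero => simpa [GG] using hA
  | succ l ih =>
    have h1 := QFam.mul (QFam.const (ι := ι) (Sgood gd) (Sgood_unitary gd)) ih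
    have h2 := QFam.mul hA.adjoint h1
    have h3 := QFam.mul (QFam.const (ι := ι) (Szero j₀) (Szero_unitary j₀)) h2
    have h4 := QFam.mul hA h3
    have e : T + (0 + (T + (0 + (2 * l + 1) * T))) = (2 * (l + 1) + 1) * T := by ring
    rw [e] at h4
    exact h4

lemma col_norm {U : Matrix J J ℂ} (hU : U ∈ Matrix.unitaryGroup J ℂ) (j₀ : J) :
    ∑ j, ‖U j j₀‖ ^ 2 = 1 := by
  have h1 : (U.conjTranspose * U) j₀ j₀ = 1 := by
    have := Matrix.mem_unitaryGroup_iff'.1 hU
    rw [Matrix.star_eq_conjTranspose] at this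
    rw [this, Matrix.one_apply_eq]
  rw [Matrix.mul_apply] at h1
  have h2 : ∀ j, U.conjTranspose j₀ j * U j j₀ = ((‖U j j₀‖ ^ 2 : ℝ) : ℂ) := by
    intro j
    rw [Matrix.conjTranspose_apply]
    have := Complex.conj_mul' (U j j₀)
    rw [Complex.star_def, this]
    push_cast
    rfl
  simp_rw [h2] at h1
  exact_mod_cast h1

lemma GG_col (A : (ι → Bool) → Matrix J J ℂ) (gd : J → Bool) (j₀ : J) (x : ι → Bool)
    (hU : A x ∈ Matrix.unitaryGroup J ℂ) (l : ℕ) (j : J) :
    GG A gd j₀ l x j j₀ =
      (if gd j then ((uw (∑ j, if gd j then ‖A x j j₀‖ ^ 2 else 0) l).1 : ℂ)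
        else ((uw (∑ j, if gd j then ‖A x j j₀‖ ^ 2 else 0) l).2 : ℂ)) * A x j j₀ := by
  set P : ℝ := ∑ j, if gd j then ‖A x j j₀‖ ^ 2 else 0 with hP
  induction l generalizing j with
  | zero => simp [GG, uw]
  | succ l ih =>
    set u := (uw P l).1 with hu
    set w := (uw P l).2 with hw
    -- the vector v = Sgood * column
    let v : J → ℂ := fun j => (if gd j then (-(u : ℂ)) else (w : ℂ)) * A x j j₀
    have hv : ∀ j, (Sgood gd * GG A gd j₀ l x) j j₀ = v j := by
      intro j
      rw [Sgood, Matrix.diagonal_mul, ih j]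
      simp only [v]
      split_ifs <;> ring
    have hcolv : ∀ i, ((A x).conjTranspose * (Sgood gd * GG A gd j₀ l x)) i j₀ =
        ∑ k, (A x).conjTranspose i k * v k := by
      intro i
      rw [Matrix.mul_apply]
      exact Finset.sum_congr rfl (fun k _ => by rw [hv k])
    set m : J → ℂ := fun i => ∑ k, (A x).conjTranspose i k * v k with hm
    have h1 : GG A gd j₀ (l + 1) x j j₀ = ∑ i, A x j i * ((if i = j₀ then 1 else -1) * m i) := by
      simp only [GG]
      rw [Matrix.mul_apply]
      apply Finset.sum_congr rfl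
      intro i _
      rw [Szero, Matrix.diagonal_mul, hcolv i]
    have h2 : ∑ i, A x j i * ((if i = j₀ then 1 else -1) * m i) =
        2 * (A x j j₀ * m j₀) - ∑ i, A x j i * m i := by
      have h3 : ∀ i, A x j i * ((if i = j₀ then 1 else -1) * m i) =
          (if i = j₀ then 2 * (A x j j₀ * m j₀) else 0) - A x j i * m i := by
        intro i
        split_ifs with h
        · subst h; ring
        · ring
      simp_rw [h3]
      rw [Finset.sum_sub_distrib, Finset.sum_ite_eq' Finset.univ j₀, if_pos (Finset.mem_univ _)]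
    have h3 : ∑ i, A x j i * m i = v j := by
      have h4 : ∑ i, A x j i * m i = ∑ k, (A x * (A x).conjTranspose) j k * v k := by
        simp only [hm, Matrix.mul_apply, Finset.sum_mul, Finset.mul_sum]
        rw [Finset.sum_comm]
        apply Finset.sum_congr rfl
        intro k _
        apply Finset.sum_congr rfl
        intro i _
        ring
      have h5 : A x * (A x).conjTranspose = 1 := by
        have := Matrix.mem_unitaryGroup_iff.1 hU
        rwa [Matrix.star_eq_conjTranspose] at this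
      rw [h4, h5]
      simp [Matrix.one_apply]
    have h4 : m j₀ = ((-(u * P) + w * (1 - P) : ℝ) : ℂ) := by
      have h5 : ∀ k, (A x).conjTranspose j₀ k * v k =
          (((if gd k then -u * ‖A x k j₀‖ ^ 2 else w * ‖A x k j₀‖ ^ 2 : ℝ)) : ℂ) := by
        intro k
        have h6 := Complex.conj_mul' (A x k j₀)
        simp only [v, Matrix.conjTranspose_apply, Complex.star_def]
        split_ifs
        · push_cast
          rw [← h6]
          ring
        · push_cast
          rw [← h6]
          ring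
      simp only [hm]
      rw [Finset.sum_congr rfl (fun k _ => h5 k), ← Complex.ofReal_sum]
      congr 1
      have h7 : ∀ k, (if gd k then -u * ‖A x k j₀‖ ^ 2 else w * ‖A x k j₀‖ ^ 2) =
          (-u - w) * (if gd k then ‖A x k j₀‖ ^ 2 else 0) + w * ‖A x k j₀‖ ^ 2 := by
        intro k
        split_ifs <;> ring
      simp_rw [h7]
      rw [Finset.sum_add_distrib, ← Finset.mul_sum, ← Finset.mul_sum, col_norm hU, ← hP]
      ring
    rw [h1, h2, h3, h4]
    simp only [uw, ← hu, ← hw, v]
    split_ifs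
    · push_cast
      ring
    · push_cast
      ring

end Grover

end Amp

open Amp

variable {ι O O' J K : Type}

/-- Amplitude amplification with a random number `l < L` of Grover iterations. -/
theorem Proc.amplify [Fintype O] [DecidableEq O] {T : ℕ} {p : (ι → Bool) → O → ℝ}
    (hp : Proc T p) (good : O → Bool) (L : ℕ) (hL : 0 < L) :
    ∃ (p' : (ι → Bool) → O → ℝ) (c : (ι → Bool) → ℝ), Proc (2 * L * T) p' ∧ ∀ x,
      0 ≤ c x ∧ (∀ o, good o = true → p' x o = c x * p x o) ∧
      c x * (∑ o, if good o then p x o else 0) ≤ 1 ∧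
      (0 < (∑ o, if good o then p x o else 0) →
        (1 / 4) * min ((L : ℝ) ^ 2) (1 / (∑ o, if good o then p x o else 0)) ≤ c x) := by
  obtain ⟨J, hJ1, hJ2, A, j₀, out, hA, hpA⟩ := hp
  have hLp : (0 : ℝ) < L := by exact_mod_cast hL
  let gd : J → Bool := fun j => good (out j)
  let PP : (ι → Bool) → ℝ := fun x => ∑ j, if gd j then ‖A x j j₀‖ ^ 2 else 0
  -- the procedures
  let pl : Fin L → (ι → Bool) → O → ℝ := fun l x o =>
    ∑ j, if out j = o then ‖GG A gd j₀ l x j j₀‖ ^ 2 else 0
  have hpl : ∀ l : Fin L, Proc (2 * L * T) (pl l) := by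
    intro l
    refine ⟨J, hJ1, hJ2, GG A gd j₀ l, j₀, out, ?_, fun x o => rfl⟩
    apply (GG_qfam hA gd j₀ l).mono
    apply Nat.mul_le_mul_right
    have := l.2
    omega
  have hunif : Proc (ι := ι) 0 (fun _ (_ : Fin L) => (1 / (L : ℝ))) := by
    apply Proc.pure
    · intro _
      positivity
    · simp
      field_simp
  have hbind := Proc.bind hunif hpl
  rw [zero_add] at hbind
  refine ⟨_, fun x => (1 / (L : ℝ)) * ∑ l ∈ range L, (uw (PP x) l).1 ^ 2, hbind, ?_⟩
  intro x
  have hU := hA.unitary x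
  have hsum : (∑ o, if good o then p x o else 0) = PP x := by
    have h1 : ∀ o, (if good o then p x o else 0) =
        ∑ j, if out j = o then (if gd j then ‖A x j j₀‖ ^ 2 else 0) else 0 := by
      intro o
      split_ifs with ho
      · rw [hpA]
        apply Finset.sum_congr rfl
        intro j _
        by_cases h : out j = o
        · have : gd j = true := by simp only [gd]; rw [h]; exact ho
          rw [if_pos h, if_pos h, if_pos this]
        · rw [if_neg h, if_neg h]
      · symm
        apply Finset.sum_eq_zero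
        intro j _
        by_cases h : out j = o
        · have : ¬ gd j = true := by simp only [gd]; rw [h]; exact ho
          rw [if_pos h, if_neg this]
        · rw [if_neg h]
    simp_rw [h1]
    rw [Finset.sum_comm]
    apply Finset.sum_congr rfl
    intro j _
    rw [Finset.sum_ite_eq, if_pos (Finset.mem_univ _)]
  rw [hsum]
  have hP0 : 0 ≤ PP x := Finset.sum_nonneg (fun j _ => by split_ifs <;> positivity)
  have hP1 : PP x ≤ 1 := by
    rw [← col_norm hU j₀]
    apply Finset.sum_le_sum
    intro j _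
    split_ifs
    · exact le_rfl
    · positivity
  -- the angle
  set θ := Real.arcsin (Real.sqrt (PP x)) with hθ
  have hsq0 := Real.sqrt_nonneg (PP x)
  have hsq1 : Real.sqrt (PP x) ≤ 1 := Real.sqrt_le_one.2 hP1
  have hθ0 : 0 ≤ θ := Real.arcsin_nonneg.2 hsq0
  have hθ1 : θ ≤ Real.pi / 2 := Real.arcsin_le_pi_div_two _
  have hsin : Real.sin θ ^ 2 = PP x := by
    rw [hθ, Real.sin_arcsin (by linarith) hsq1, Real.sq_sqrt hP0]
  have havg : (1 / (L : ℝ)) * ∑ l ∈ range L, (uw (PP x) l).1 ^ 2 * PP x =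
      (1 / L) * ∑ l ∈ range L, Real.sin ((2 * l + 1) * θ) ^ 2 := by
    congr 1
    apply Finset.sum_congr rfl
    intro l _
    have h1 := (uw_trig θ l).1
    rw [hsin] at h1
    rw [← h1, mul_pow, hsin]
  have hcP : (1 / (L : ℝ)) * (∑ l ∈ range L, (uw (PP x) l).1 ^ 2) * PP x =
      (1 / L) * ∑ l ∈ range L, Real.sin ((2 * l + 1) * θ) ^ 2 := by
    rw [← havg, mul_assoc, Finset.sum_mul]
  refine ⟨?_, ?_, ?_, ?_⟩
  · apply mul_nonneg (by positivity)
    exact Finset.sum_nonneg (fun l _ => sq_nonneg _)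
  · intro o ho
    have h1 : ∀ l : Fin L, pl l x o = (uw (PP x) l).1 ^ 2 * p x o := by
      intro l
      rw [hpA, Finset.mul_sum]
      apply Finset.sum_congr rfl
      intro j _
      split_ifs with h
      · rw [GG_col A gd j₀ x hU l j]
        have : gd j = true := by simp only [gd]; rw [h]; exact ho
        rw [if_pos this, norm_mul, mul_pow, Complex.norm_real, Real.norm_eq_abs, sq_abs]
      · rw [mul_zero]
    simp only
    simp_rw [h1]
    rw [Finset.sum_range (f := fun l => (uw (PP x) l).1 ^ 2), Finset.mul_sum, Finset.sum_mul]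
    apply Finset.sum_congr rfl
    intro l _
    ring
  · rw [hcP]
    have h1 : ∑ l ∈ range L, Real.sin ((2 * l + 1) * θ) ^ 2 ≤ ∑ l ∈ range L, (1 : ℝ) := by
      apply Finset.sum_le_sum
      intro l _
      exact Real.sin_sq_le_one _
    rw [Finset.sum_const, card_range, nsmul_eq_mul, mul_one] at h1
    rw [one_div_mul_eq_div, div_le_one hLp]
    exact h1
  · intro hPpos
    have h1 := avg_sin_ge L hL hθ0 hθ1
    rw [← hcP, hsin] at h1
    have h2 : (1 / 4) * min ((L : ℝ) ^ 2) (1 / PP x) * PP x = (1 / 4) * min ((L : ℝ) ^ 2 * PP x) 1 := by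
      rw [mul_assoc, min_mul_of_nonneg _ _ hP0, one_div_mul_cancel hPpos.ne']
    rw [← h2] at h1
    exact le_of_mul_le_mul_right h1 hPpos

end Crest.Agent.QG
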