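import Crest.Agent.QG.QFam

/-!
# Chunk A4: conversion to the query model of the statement
-/

set_option autoImplicit false

namespace Crest.Agent.QG

open Finset Crest.MathPhysics.Query

namespace Conv

section Conv

/-- unitary with prescribed column -/
lemma exists_unitary_col {K : Type} [Fintype K] [DecidableEq K] (k₀ : K) (v : K → ℂ)
    (hv : ∑ k, ‖v k‖ ^ 2 = 1) :
    ∃ M ∈ Matrix.unitaryGroup K ℂ, ∀ k, M k k₀ = v k := by
  let E := EuclideanSpace ℂ K
  let v' : E := WithLp.toLp 2 v
  have hnorm : ‖v'‖ = 1 := by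
    rw [EuclideanSpace.norm_eq]
    show Real.sqrt (∑ i, ‖v i‖ ^ 2) = 1
    rw [hv, Real.sqrt_one]
  have hon : Orthonormal ℂ (Set.domRestrict ({k₀} : Set K) (fun _ : K => v')) := by
    constructor
    · rintro ⟨k, hk⟩
      exact hnorm
    · rintro ⟨k, hk⟩ ⟨k', hk'⟩ hne
      exfalso
      apply hne
      rw [Set.mem_singleton_iff] at hk hk'
      subst hk
      subst hk'
      rfl
  obtain ⟨b, hb⟩ := Orthonormal.exists_orthonormalBasis_extension_of_card_eq (ι := K) (𝕜 := ℂ) (E := E)
    (by simp [E]) hon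
  refine ⟨(EuclideanSpace.basisFun K ℂ).toBasis.toMatrix b,
    OrthonormalBasis.toMatrix_orthonormalBasis_mem_unitary _ _, ?_⟩
  intro k
  rw [Module.Basis.toMatrix_apply]
  rw [hb k₀ rfl]
  simp [v']

variable {α β γ : Type} [Fintype α] [Fintype β] [Fintype γ] [DecidableEq α] [DecidableEq β]
  [DecidableEq γ]

/-- block matrix reindexed -/
noncomputable def blk (f : γ ≃ α × β) (M : β → Matrix α α ℂ) : Matrix γ γ ℂ :=
  (Matrix.blockDiagonal M).submatrix f f

lemma blk_unitary (f : γ ≃ α × β) (M : β → Matrix α α ℂ)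
    (hM : ∀ b, M b ∈ Matrix.unitaryGroup α ℂ) : blk f M ∈ Matrix.unitaryGroup γ ℂ := by
  rw [Matrix.mem_unitaryGroup_iff, Matrix.star_eq_conjTranspose]
  unfold blk
  rw [Matrix.conjTranspose_submatrix, Matrix.submatrix_mul_equiv, Matrix.blockDiagonal_conjTranspose,
    ← Matrix.blockDiagonal_mul]
  have h1 : (fun k => M k * (M k).conjTranspose) = fun _ => (1 : Matrix α α ℂ) := by
    funext k
    have := Matrix.mem_unitaryGroup_iff.1 (hM k)
    rwa [Matrix.star_eq_conjTranspose] at this
  rw [h1]
  have h2 : Matrix.blockDiagonal (fun _ : β => (1 : Matrix α α ℂ)) = 1 := Matrix.blockDiagonal_one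
  rw [h2, Matrix.submatrix_one_equiv]

lemma blk_mulVec (f : γ ≃ α × β) (M : β → Matrix α α ℂ) (φ : γ → ℂ) (c : γ) :
    (blk f M).mulVec φ c = ∑ a, M (f c).2 (f c).1 a * φ (f.symm (a, (f c).2)) := by
  unfold blk
  rw [Matrix.mulVec, dotProduct]
  rw [← Equiv.sum_comp f.symm]
  rw [Fintype.sum_prod_type]
  apply Finset.sum_congr rfl
  intro a _
  rw [Finset.sum_eq_single (f c).2]
  · rw [Matrix.submatrix_apply, Equiv.apply_symm_apply, Matrix.blockDiagonal_apply, if_pos rfl]
  · intro b _ hb
    rw [Matrix.submatrix_apply, Equiv.apply_symm_apply, Matrix.blockDiagonal_apply,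
      if_neg (fun h => hb h.symm), zero_mul]
  · intro h
    exact absurd (Finset.mem_univ _) h

end Conv

section Main

variable {n w : ℕ} {J : Type} [Fintype J] [DecidableEq J]

/-- embedding of state vectors. -/
noncomputable def Eb (i₀ : Fin n) (e : J ≃ Fin w) (φ : J → ℂ) : QIdx n w → ℂ :=
  fun s => if s.1 = i₀ ∧ s.2.1 = false then φ (e.symm s.2.2) else 0

/-- the query vector of a state -/
noncomputable def chi (i₀ : Fin n) (q : Option (Fin n)) (s : Fin n × Bool) : ℂ :=
  match q with
  | none => if s.1 = i₀ then 1 / Real.sqrt 2 else 0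
  | some i => if s.1 = i then (if s.2 then -1 / Real.sqrt 2 else 1 / Real.sqrt 2) else 0

/-- embedding adapted to a query. -/
noncomputable def Eq' (i₀ : Fin n) (e : J ≃ Fin w) (q : J → Option (Fin n)) (φ : J → ℂ) :
    QIdx n w → ℂ :=
  fun s => chi i₀ (q (e.symm s.2.2)) (s.1, s.2.1) * φ (e.symm s.2.2)

lemma chi_norm (i₀ : Fin n) (q : Option (Fin n)) : ∑ s, ‖chi i₀ q s‖ ^ 2 = 1 := by
  have h2 : (Real.sqrt 2) ^ 2 = 2 := Real.sq_sqrt (by norm_num)
  have h3 : Real.sqrt 2 ≠ 0 := by positivity
  have hk : ‖(1 / Real.sqrt 2 : ℂ)‖ ^ 2 = 1 / 2 := by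
    rw [norm_div, div_pow, norm_one, Complex.norm_real, Real.norm_eq_abs, sq_abs, h2]
    norm_num
  have hk' : ‖(-1 / Real.sqrt 2 : ℂ)‖ ^ 2 = 1 / 2 := by
    rw [norm_div, div_pow, norm_neg, norm_one, Complex.norm_real, Real.norm_eq_abs, sq_abs, h2]
    norm_num
  rw [Fintype.sum_prod_type]
  cases q with
  | none =>
    rw [Finset.sum_eq_single i₀]
    · simp only [chi, if_true, Fintype.sum_bool, hk]
      norm_num
    · intro i _ hi
      simp [chi, hi]
    · intro h; exact absurd (Finset.mem_univ _) h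
  | some i =>
    rw [Finset.sum_eq_single i]
    · simp only [chi, if_true, Fintype.sum_bool, hk']
      norm_num [hk]
    · intro i' _ hi
      simp [chi, hi]
    · intro h; exact absurd (Finset.mem_univ _) h

/-- the oracle on the adapted embedding. -/
lemma oracle_Eq' (i₀ : Fin n) (e : J ≃ Fin w) (q : J → Option (Fin n)) (φ : J → ℂ)
    (x : Fin n → Bool) :
    oracle x (Eq' i₀ e q φ) = Eq' i₀ e q ((phaseOracle x q).mulVec φ) := by
  funext s
  obtain ⟨i, b, z⟩ := s
  unfold oracle Eq'
  simp only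
  rw [phaseOracle, Matrix.mulVec_diagonal]
  cases hq : q (e.symm z) with
  | none =>
    simp [chi]
  | some i' =>
    simp only [chi]
    by_cases hi : i = i'
    · subst hi
      simp only [if_true]
      cases hx : x i <;> cases b <;> simp
      · ring
      · ring
    · simp [hi]

lemma stateAfter_congr {U U' : ℕ → Matrix (QIdx n w) (QIdx n w) ℂ} (x : Fin n → Bool)
    (ψ : QIdx n w → ℂ) (t : ℕ) (h : ∀ s ≤ t, U s = U' s) :
    stateAfter U x ψ t = stateAfter U' x ψ t := by
  induction t with
  | zero => simp only [stateAfter]; rw [h 0 le_rfl]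
  | succ t ih =>
    simp only [stateAfter]
    rw [h (t + 1) le_rfl, ih (fun s hs => h s (by omega))]

lemma stateAfter_last {U U' : ℕ → Matrix (QIdx n w) (QIdx n w) ℂ}
    (W : Matrix (QIdx n w) (QIdx n w) ℂ) (x : Fin n → Bool)
    (ψ : QIdx n w → ℂ) (t : ℕ) (h : ∀ s < t, U' s = U s) (ht : U' t = W * U t) :
    stateAfter U' x ψ t = W.mulVec (stateAfter U x ψ t) := by
  cases t with
  | zero =>
    simp only [stateAfter]
    rw [ht, Matrix.mulVec_mulVec]
  | succ t =>
    simp only [stateAfter]
    rw [ht, stateAfter_congr (U := U') (U' := U) x ψ t (fun s hs => h s (by omega)),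
      Matrix.mulVec_mulVec]

/-- the simulation. -/
lemma simulate (i₀ : Fin n) (e : J ≃ Fin w) {T : ℕ} {A : (Fin n → Bool) → Matrix J J ℂ}
    (hA : QFam T A) (j₀ : J) :
    ∃ U : ℕ → Matrix (QIdx n w) (QIdx n w) ℂ,
      (∀ t, U t ∈ Matrix.unitaryGroup (QIdx n w) ℂ) ∧
      ∀ x, stateAfter U x (Eb i₀ e (Pi.single j₀ 1)) T = Eb i₀ e (fun j => A x j j₀) := by
  -- the unitary `V ⊗ 1`
  let f' : QIdx n w ≃ Fin w × (Fin n × Bool) :=
    (Equiv.prodAssoc (Fin n) Bool (Fin w)).symm.trans (Equiv.prodComm _ _)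
  let f : QIdx n w ≃ (Fin n × Bool) × Fin w := (Equiv.prodAssoc (Fin n) Bool (Fin w)).symm
  let VV : Matrix J J ℂ → Matrix (QIdx n w) (QIdx n w) ℂ :=
    fun V => blk f' (fun _ => V.submatrix e.symm e.symm)
  have hVV : ∀ V ∈ Matrix.unitaryGroup J ℂ, VV V ∈ Matrix.unitaryGroup (QIdx n w) ℂ := by
    intro V hV
    apply blk_unitary
    intro _
    rw [Matrix.mem_unitaryGroup_iff, Matrix.star_eq_conjTranspose, Matrix.conjTranspose_submatrix,
      Matrix.submatrix_mul_equiv]
    have := Matrix.mem_unitaryGroup_iff.1 hV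
    rw [Matrix.star_eq_conjTranspose] at this
    rw [this, Matrix.submatrix_one_equiv]
  have hVVb : ∀ (V : Matrix J J ℂ) (φ : J → ℂ), (VV V).mulVec (Eb i₀ e φ) = Eb i₀ e (V.mulVec φ) := by
    intro V φ
    funext s
    obtain ⟨i, b, z⟩ := s
    simp only [VV]
    rw [blk_mulVec]
    have h1 : f' (i, b, z) = (z, (i, b)) := rfl
    have h2 : ∀ z' : Fin w, f'.symm (z', (i, b)) = (i, b, z') := fun _ => rfl
    rw [h1]
    simp only [h2, Eb, Matrix.submatrix_apply]
    split_ifs with h
    · rw [Matrix.mulVec, dotProduct, ← Equiv.sum_comp e.symm]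
    · simp
  induction hA with
  | const V hV =>
    refine ⟨fun _ => VV V, fun _ => hVV V hV, ?_⟩
    intro x
    simp only [stateAfter]
    rw [hVVb]
    congr 1
    funext j
    simp
  | @step T A hA q V hV ih =>
    obtain ⟨U, hU, hUx⟩ := ih
    -- the query unitary
    choose M hM hMc using fun j : J => exists_unitary_col (i₀, false) (chi i₀ (q j)) (chi_norm i₀ (q j))
    let W : Matrix (QIdx n w) (QIdx n w) ℂ := blk f (fun z => M (e.symm z))
    have hW : W ∈ Matrix.unitaryGroup (QIdx n w) ℂ := blk_unitary f _ (fun z => hM _)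
    have hWb : ∀ φ : J → ℂ, W.mulVec (Eb i₀ e φ) = Eq' i₀ e q φ := by
      intro φ
      funext s
      obtain ⟨i, b, z⟩ := s
      simp only [W]
      rw [blk_mulVec]
      have h1 : f (i, b, z) = ((i, b), z) := rfl
      have h2 : ∀ a : Fin n × Bool, f.symm (a, z) = (a.1, a.2, z) := fun _ => rfl
      rw [h1]
      simp only [h2, Eb, Eq']
      rw [Finset.sum_eq_single (i₀, false)]
      · simp only [and_self, if_true]
        rw [hMc]
      · rintro ⟨a1, a2⟩ _ ha
        rw [if_neg, mul_zero]
        rintro ⟨h3, h4⟩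
        apply ha
        simp only at h3 h4
        rw [h3, h4]
      · intro h; exact absurd (Finset.mem_univ _) h
    have hWinv : W.conjTranspose * W = 1 := by
      have := Matrix.mem_unitaryGroup_iff'.1 hW
      rwa [Matrix.star_eq_conjTranspose] at this
    have hWH : W.conjTranspose ∈ Matrix.unitaryGroup (QIdx n w) ℂ := by
      rw [Matrix.mem_unitaryGroup_iff, Matrix.star_eq_conjTranspose,
        Matrix.conjTranspose_conjTranspose]
      exact hWinv
    let U' : ℕ → Matrix (QIdx n w) (QIdx n w) ℂ := fun t =>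
      if t < T then U t else if t = T then W * U t else if t = T + 1 then VV V * W.conjTranspose
        else 1
    refine ⟨U', ?_, ?_⟩
    · intro t
      simp only [U']
      split_ifs
      · exact hU t
      · exact mul_mem hW (hU t)
      · exact mul_mem (hVV V hV) hWH
      · exact one_mem _
    · intro x
      have h1 : stateAfter U' x (Eb i₀ e (Pi.single j₀ 1)) T =
          W.mulVec (stateAfter U x (Eb i₀ e (Pi.single j₀ 1)) T) := by
        apply stateAfter_last
        · intro s hs
          simp only [U']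
          rw [if_pos hs]
        · simp only [U']
          simp
      have h2 : U' (T + 1) = VV V * W.conjTranspose := by
        simp only [U']
        rw [if_neg (by omega), if_neg (by omega), if_true]
      simp only [stateAfter]
      rw [h1, hUx x, hWb, oracle_Eq', h2, ← hWb, Matrix.mulVec_mulVec, Matrix.mul_assoc, hWinv,
        Matrix.mul_one, hVVb]
      congr 1
      funext j
      rw [Matrix.mulVec_mulVec, Matrix.mul_apply]
      rfl

end Main

end Conv

open Conv

variable {ι O O' J K : Type}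

/-- conversion to the model of the statement -/
theorem Proc.quantumComputes {n T : ℕ} {p : (Fin n → Bool) → Bool → ℝ} (hp : Proc T p)
    (F : (Fin n → Bool) → Bool) (hF : ∀ x, 2 / 3 ≤ p x (F x)) (hn : 0 < n) :
    QuantumComputes F T := by
  obtain ⟨J, hJ1, hJ2, A, j₀, out, hA, hpA⟩ := hp
  let i₀ : Fin n := ⟨0, hn⟩
  let e : J ≃ Fin (Fintype.card J) := Fintype.equivFin J
  obtain ⟨U, hU, hUx⟩ := simulate i₀ e hA j₀
  refine ⟨Fintype.card J, U, Eb i₀ e (Pi.single j₀ 1), fun s => out (e.symm s.2.2), hU, ?_, ?_⟩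
  · have h1 : ∀ s : QIdx n (Fintype.card J), ‖Eb i₀ e (Pi.single j₀ 1) s‖ ^ 2 =
        if s = (i₀, false, e j₀) then 1 else 0 := by
      rintro ⟨i, b, z⟩
      simp only [Eb, Prod.mk.injEq]
      by_cases h : i = i₀ ∧ b = false
      · obtain ⟨h3, h4⟩ := h
        subst h3
        subst h4
        simp only [and_self, if_true, true_and]
        by_cases hz : z = e j₀
        · subst hz
          simp
        · rw [if_neg hz, Pi.single_apply, if_neg]
          · simp
          · intro h5
            apply hz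
            rw [← h5, Equiv.apply_symm_apply]
      · rw [if_neg h, if_neg]
        · simp
        · rintro ⟨h5, h6, _⟩
          exact h ⟨h5, h6⟩
    simp_rw [h1]
    rw [Finset.sum_ite_eq', if_pos (Finset.mem_univ _)]
  · intro x
    apply (hF x).trans
    rw [hpA, hUx x]
    rw [Fintype.sum_prod_type, Finset.sum_eq_single i₀]
    · rw [Fintype.sum_prod_type, Finset.sum_eq_single false]
      · rw [← Equiv.sum_comp e.symm]
        apply le_of_eq
        apply Finset.sum_congr rfl
        intro z _
        simp [Eb]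
      · intro b _ hb
        apply Finset.sum_eq_zero
        intro z _
        simp [Eb, hb]
      · intro h; exact absurd (Finset.mem_univ _) h
    · intro i _ hi
      apply Finset.sum_eq_zero
      intro s _
      simp [Eb, hi]
    · intro h; exact absurd (Finset.mem_univ _) h

end Crest.Agent.QG
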