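import Mathlib
import Crest.Prelude.Def_QueryComplexity

/-!
# Quartic gap (S0554): basic definitions shared by all chunks
-/

set_option autoImplicit false

namespace Crest.Agent.QG

open Finset

/-- sign of a bit -/
def sg (b : Bool) : ℝ := if b then -1 else 1

/-! ## quantum side -/

/-- the diagonal phase oracle: basis state `j` gets the phase `(-1)^{x i}` if `q j = some i`. -/
def phaseOracle {ι J : Type} [DecidableEq J] (x : ι → Bool) (q : J → Option ι) : Matrix J J ℂ :=
  Matrix.diagonal fun j => match q j with
    | none => 1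
    | some i => if x i then -1 else 1

/-- families of unitaries computed with `T` phase queries to the input `x : ι → Bool`. -/
inductive QFam {ι J : Type} [Fintype J] [DecidableEq J] :
    ℕ → ((ι → Bool) → Matrix J J ℂ) → Prop
  | const (V : Matrix J J ℂ) (hV : V ∈ Matrix.unitaryGroup J ℂ) : QFam 0 (fun _ => V)
  | step {T : ℕ} {A : (ι → Bool) → Matrix J J ℂ} (hA : QFam T A) (q : J → Option ι)
      (V : Matrix J J ℂ) (hV : V ∈ Matrix.unitaryGroup J ℂ) :
      QFam (T + 1) (fun x => V * phaseOracle x q * A x)

/-- `Proc T p`: some `T`-query coherent quantum procedure outputs `o` with probability `p x o`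
on input `x`. -/
def Proc {ι O : Type} [DecidableEq O] (T : ℕ) (p : (ι → Bool) → O → ℝ) : Prop :=
  ∃ (J : Type) (_ : Fintype J) (_ : DecidableEq J) (A : (ι → Bool) → Matrix J J ℂ) (j₀ : J)
    (out : J → O),
    QFam T A ∧ ∀ x o, p x o = ∑ j, if out j = o then ‖A x j j₀‖ ^ 2 else 0

/-- the outcome distribution of a deterministic computation -/
def det {ι O : Type} [DecidableEq O] (g : (ι → Bool) → O) : (ι → Bool) → O → ℝ :=
  fun x o => if g x = o then 1 else 0

/-! ## classical side -/

/-- deterministic decision trees over variables `V`, with boolean answers -/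
inductive Tr (V : Type) : Type
  | leaf (b : Bool) : Tr V
  | node (v : V) (t₀ t₁ : Tr V) : Tr V

namespace Tr
variable {V : Type}

def eval (x : V → Bool) : Tr V → Bool
  | leaf b => b
  | node v t₀ t₁ => if x v then t₁.eval x else t₀.eval x

def depth : Tr V → ℕ
  | leaf _ => 0
  | node _ t₀ t₁ => max t₀.depth t₁.depth + 1

/-- the `0/1` valued function computed by a tree -/
def fn (T : Tr V) (x : V → Bool) : ℝ := if T.eval x then 1 else 0

end Tr

/-- multilinear extension (with respect to `sg`): mean value of `f` when the bits are independent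
and bit `v` has `E (sg x_v) = z v`. -/
noncomputable def ext {V : Type} [Fintype V] [DecidableEq V] (f : (V → Bool) → ℝ) (z : V → ℝ) : ℝ :=
  ∑ x : V → Bool, f x * ∏ v, (1 + sg (x v) * z v) / 2

/-- the partial derivative of the multilinear extension in the directions of `S`. -/
noncomputable def dext {V : Type} [Fintype V] [DecidableEq V] (f : (V → Bool) → ℝ) (S : Finset V)
    (z : V → ℝ) : ℝ :=
  ∑ x : V → Bool, f x * ∏ v, (if v ∈ S then sg (x v) / 2 else (1 + sg (x v) * z v) / 2)

/-- product over consecutive layers of the entries of `H` -/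
def chain {I : Type} {k : ℕ} (H : Matrix I I ℝ) (i : Fin k → I) : ℝ :=
  ∏ s : Fin (k - 1), H (i ⟨s.1, by omega⟩) (i ⟨s.1 + 1, by omega⟩)

/-- the set of variables `(s, i s)` -/
def layerSet {I : Type} [DecidableEq I] {k : ℕ} (i : Fin k → I) : Finset (Fin k × I) :=
  Finset.univ.image fun s => (s, i s)

/-- normalised `k`-fold Forrelation with transform `H` -/
noncomputable def forr {I : Type} [Fintype I] [DecidableEq I] {k : ℕ} (H : Matrix I I ℝ)
    (x : Fin k × I → Bool) : ℝ :=
  (1 / (Fintype.card I : ℝ)) * ∑ i : Fin k → I, chain H i * ∏ s, sg (x (s, i s))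

/-- the normalised Walsh-Hadamard matrix on `a` bits -/
noncomputable def had (a : ℕ) : Matrix (Fin a → Bool) (Fin a → Bool) ℝ :=
  fun i j => (∏ l, (if i l && j l then (-1 : ℝ) else 1)) / Real.sqrt (2 ^ a)

end Crest.Agent.QG
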