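import Crest.Agent.QG.Amplify

/-!
# Chunk A3: derived operations
-/

set_option autoImplicit false

namespace Crest.Agent.QG

open Finset Crest.MathPhysics.Query

variable {ι O O' J K : Type}

/-! ### derived operations (distributions only) -/

theorem Proc.congr [DecidableEq O] {T T' : ℕ} {p p' : (ι → Bool) → O → ℝ} (hp : Proc T p)
    (hT : T = T') (h : ∀ x o, p x o = p' x o) : Proc T' p' := by
  subst hT
  have : p = p' := by
    funext x o
    exact h x o
  rw [← this]
  exact hp

/-- reading a function computed adaptively: deterministic bind -/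
theorem Proc.det_bind [Fintype O] [DecidableEq O] [DecidableEq O'] {T T' : ℕ}
    {g : (ι → Bool) → O} (hp : Proc T (det g)) {h : O → (ι → Bool) → O'}
    (hp' : ∀ o, Proc T' (det (h o))) :
    Proc (T + T') (det fun x => h (g x) x) := by
  refine (Proc.bind hp hp').congr rfl ?_
  intro x o'
  simp only [det]
  rw [Finset.sum_eq_single (g x)]
  · simp
  · intro o _ ho
    rw [if_neg (fun h => ho h.symm), zero_mul]
  · intro h
    exact absurd (Finset.mem_univ _) h

theorem Proc.det_map [Fintype O] [DecidableEq O] [DecidableEq O'] {T : ℕ}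
    {g : (ι → Bool) → O} (hp : Proc T (det g)) (h : O → O') :
    Proc T (det fun x => h (g x)) := by
  refine (Proc.map hp h).congr rfl ?_
  intro x o'
  simp only [det]
  rw [Finset.sum_eq_single (g x)]
  · simp
  · intro o _ ho
    have h2 : (if g x = o then (1 : ℝ) else 0) = 0 := if_neg (fun h => ho h.symm)
    rw [h2, ite_self]
  · intro h
    exact absurd (Finset.mem_univ _) h

theorem Proc.det_const [Fintype O] [DecidableEq O] (o : O) :
    Proc (ι := ι) 0 (det fun _ => o) := by
  refine (Proc.pure (ι := ι) (fun o' => if o = o' then (1 : ℝ) else 0) ?_ ?_).congr rfl ?_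
  · intro o'
    split_ifs <;> norm_num
  · simp
  · intro x o'
    rfl

/-- reading a tuple of bits -/
theorem Proc.readBits {m : ℕ} (v : Fin m → ι) :
    Proc m (det fun x : ι → Bool => fun i => x (v i)) := by
  induction m with
  | zero =>
    refine (Proc.det_const (ι := ι) (fun i : Fin 0 => true)).congr rfl ?_
    intro x o
    simp only [det]
    rw [if_pos (Subsingleton.elim _ _), if_pos (Subsingleton.elim _ _)]
  | succ m ih =>
    have h1 := Proc.query (ι := ι) (v 0)
    have h2 := ih (fun i => v i.succ)
    have h3 : ∀ b : Bool, Proc m (det fun x : ι → Bool =>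
        (Fin.cons b (fun i => x (v i.succ)) : Fin (m + 1) → Bool)) := fun b =>
      h2.det_map (fun w => (Fin.cons b w : Fin (m + 1) → Bool))
    refine (Proc.det_bind h1 (h := fun b x => (Fin.cons b (fun i => x (v i.succ)) :
      Fin (m + 1) → Bool)) h3).congr (by ring) ?_
    intro x o
    have : (Fin.cons (x (v 0)) (fun i => x (v (Fin.succ i))) : Fin (m + 1) → Bool) =
        fun i => x (v i) := by
      funext i
      refine Fin.cases ?_ ?_ i
      · rfl
      · intro i
        rfl
    simp only [det, this]

/-- independent repetition -/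
theorem Proc.iid [Fintype O] [DecidableEq O] {T : ℕ} {p : (ι → Bool) → O → ℝ}
    (hp : Proc T p) (r : ℕ) : Proc (r * T) (fun x (v : Fin r → O) => ∏ i, p x (v i)) := by
  induction r with
  | zero =>
    refine (Proc.pure (ι := ι) (fun _ : Fin 0 → O => (1 : ℝ)) (by intro o; norm_num)
      (by simp)).congr (by ring) ?_
    intro x o
    simp
  | succ r ih =>
    refine (Proc.bind hp (fun o => ih.map (fun w => (Fin.cons o w : Fin (r + 1) → O)))).congr
      (by ring) ?_
    intro x v
    rw [Fin.prod_univ_succ, Finset.sum_eq_single (v 0)]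
    · congr 1
      rw [Finset.sum_eq_single (fun i => v (Fin.succ i))]
      · rw [if_pos]
        funext i
        refine Fin.cases ?_ ?_ i
        · rfl
        · intro i
          rfl
      · intro w _ hw
        rw [if_neg]
        intro h
        apply hw
        funext i
        have := congrFun h i.succ
        simpa using this
      · intro h
        exact absurd (Finset.mem_univ _) h
    · intro o _ ho
      rw [Finset.sum_eq_zero, mul_zero]
      intro w _
      rw [if_neg]
      intro h
      apply ho
      have := congrFun h 0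
      simpa using this
    · intro h
      exact absurd (Finset.mem_univ _) h

/-- the number of bad elements as a probability. -/
theorem Proc.uniformFlag {E : Type} [Fintype E] [DecidableEq E] [Nonempty E]
    (bad : (ι → Bool) → E → Bool) {T : ℕ} (hbad : ∀ e, Proc T (det fun x => bad x e)) :
    Proc T (fun x (b : Bool) =>
      ∑ e : E, (1 / (Fintype.card E : ℝ)) * (if bad x e = b then 1 else 0)) := by
  have hE : (0 : ℝ) < Fintype.card E := by exact_mod_cast Fintype.card_pos
  have h1 : Proc (ι := ι) 0 (fun _ => fun _ : E => 1 / (Fintype.card E : ℝ)) :=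
    Proc.pure _ (fun _ => by positivity) (by
      rw [Finset.sum_const, Finset.card_univ, nsmul_eq_mul]
      field_simp)
  refine (Proc.bind h1 hbad).congr (by ring) ?_
  intro x b
  rfl

/-- Checking that none of the bits `bad x e` is set, by amplified search. -/
theorem Proc.verify {E : Type} [Fintype E] [DecidableEq E] [Nonempty E]
    (bad : (ι → Bool) → E → Bool) {T : ℕ} (hbad : ∀ e, Proc T (det fun x => bad x e))
    (L rep : ℕ) (hL : 0 < L) :
    ∃ p : (ι → Bool) → Bool → ℝ, Proc (rep * (2 * L * T)) p ∧ ∀ x,
      ((∀ e, bad x e = false) → p x true = 1) ∧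
      ((Fintype.card E : ℝ) ≤ (L : ℝ) ^ 2 * ((univ.filter fun e => bad x e = true).card : ℝ) →
        p x true ≤ (3 / 4) ^ rep) := by
  have hE : (0 : ℝ) < Fintype.card E := by exact_mod_cast Fintype.card_pos
  have hq := Proc.uniformFlag bad hbad
  set q : (ι → Bool) → Bool → ℝ := fun x (b : Bool) =>
      ∑ e : E, (1 / (Fintype.card E : ℝ)) * (if bad x e = b then 1 else 0) with hqdef
  have hqt : ∀ x, q x true = ((univ.filter fun e => bad x e = true).card : ℝ) / Fintype.card E := by
    intro x
    rw [hqdef]
    simp only
    rw [← Finset.mul_sum, Finset.sum_boole]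
    ring
  obtain ⟨p', c, hp', hc⟩ := Proc.amplify hq (fun b => b) L hL
  have hP : ∀ x, (∑ b : Bool, if b = true then q x b else 0) = q x true := by
    intro x
    simp
  have hiid := hp'.iid rep
  have hmap := hiid.map (fun v : Fin rep → Bool => decide (∀ i, v i = false))
  refine ⟨_, hmap, ?_⟩
  intro x
  obtain ⟨hc0, hc1, hc2, hc3⟩ := hc x
  rw [hP] at hc2 hc3
  have hpt : p' x true = c x * q x true := hc1 true rfl
  have hsum := Proc.sum_one hp' x
  rw [Fintype.sum_bool] at hsum
  have hval : (∑ v : Fin rep → Bool, if decide (∀ i, v i = false) = true then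
      ∏ i, p' x (v i) else 0) = p' x false ^ rep := by
    rw [Finset.sum_eq_single (fun _ => false)]
    · simp
    · intro v _ hv
      rw [if_neg]
      intro h
      apply hv
      funext i
      simpa using (of_decide_eq_true h) i
    · intro h
      exact absurd (Finset.mem_univ _) h
  have hpf0 : 0 ≤ p' x false := Proc.nonneg hp' x false
  constructor
  · intro h
    rw [hval]
    have h0 : q x true = 0 := by
      rw [hqt, Finset.filter_false_of_mem]
      · simp
      · intro e _
        rw [h e]
        simp
    rw [hpt, h0, mul_zero, zero_add] at hsum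
    rw [hsum, one_pow]
  · intro h
    rw [hval]
    apply pow_le_pow_left₀ hpf0
    have hpos : 0 < q x true := by
      rw [hqt]
      apply div_pos _ hE
      by_contra hn
      have h2 : ((univ.filter fun e => bad x e = true).card : ℝ) ≤ 0 := not_lt.1 hn
      have h3 : (0 : ℝ) ≤ (L : ℝ) ^ 2 := by positivity
      nlinarith
    have h4 := hc3 hpos
    have h5 : 1 ≤ (L : ℝ) ^ 2 * q x true := by
      rw [hqt, ← mul_div_assoc, le_div_iff₀ hE, one_mul]
      exact h
    have h6 : 1 / 4 ≤ c x * q x true := by
      have h7 : (1 / 4) * min ((L : ℝ) ^ 2) (1 / q x true) * q x true ≤ c x * q x true :=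
        mul_le_mul_of_nonneg_right h4 hpos.le
      have h8 : 1 ≤ min ((L : ℝ) ^ 2) (1 / q x true) * q x true := by
        rw [min_mul_of_nonneg _ _ hpos.le]
        apply le_min h5
        rw [one_div, inv_mul_cancel₀ hpos.ne']
      nlinarith
    rw [hpt] at hsum
    linarith

end Crest.Agent.QG
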