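import Crest.Agent.QG.Hint
import Crest.Agent.QG.Forr

/-!
# Chunk F3: product distributions: hybrid argument and Chebyshev inequality
-/

set_option autoImplicit false

namespace Crest.Agent.QG

open Finset

/-- product of distributions over the copies -/
def prodDist {Cp V : Type} [Fintype Cp] (D : Cp → (V → Bool) → ℝ) (x : Cp × V → Bool) : ℝ :=
  ∏ c, D c (fun v => x (c, v))

theorem prodDist_nonneg {Cp V : Type} [Fintype Cp] (D : Cp → (V → Bool) → ℝ)
    (h0 : ∀ c x, 0 ≤ D c x) (x : Cp × V → Bool) : 0 ≤ prodDist D x :=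
  Finset.prod_nonneg fun c _ => h0 c _

theorem prodDist_sum_eq {Cp V : Type} [Fintype Cp] [DecidableEq Cp] [Fintype V] [DecidableEq V]
    (D : Cp → (V → Bool) → ℝ) : ∑ x, prodDist D x = ∏ c, ∑ y, D c y := by
  rw [Finset.prod_univ_sum, Fintype.piFinset_univ]
  exact Fintype.sum_equiv (Equiv.curry Cp V Bool) _ _ fun x => rfl

theorem prodDist_sum {Cp V : Type} [Fintype Cp] [DecidableEq Cp] [Fintype V] [DecidableEq V]
    (D : Cp → (V → Bool) → ℝ) (h1 : ∀ c, ∑ x, D c x = 1) : ∑ x, prodDist D x = 1 := by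
  rw [prodDist_sum_eq]; simp [h1]

theorem prodDist_mul {Cp V : Type} [Fintype Cp] (D h : Cp → (V → Bool) → ℝ) (x : Cp × V → Bool) :
    prodDist D x * ∏ c, h c (fun v => x (c, v)) = prodDist (fun c y => D c y * h c y) x := by
  simp only [prodDist, Finset.prod_mul_distrib]

theorem prodDist_expect_one {Cp V : Type} [Fintype Cp] [DecidableEq Cp] [Fintype V] [DecidableEq V]
    (D : Cp → (V → Bool) → ℝ) (h1 : ∀ c, ∑ x, D c x = 1) (c : Cp) (a : (V → Bool) → ℝ) :
    ∑ x, prodDist D x * a (fun v => x (c, v)) = ∑ y, D c y * a y := by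
  have hx : ∀ x : Cp × V → Bool, a (fun v => x (c, v)) =
      ∏ c', (if c' = c then a else fun _ => 1) (fun v => x (c', v)) := by
    intro x
    rw [Fintype.prod_eq_single c]
    · simp
    · intro c' hc'
      simp [hc']
  simp only [hx]
  have h2 := fun x => prodDist_mul D (fun c' => if c' = c then a else fun _ => 1) x
  rw [Finset.sum_congr rfl fun x _ => h2 x, prodDist_sum_eq, Fintype.prod_eq_single c]
  · simp
  · intro c' hc'
    simp [hc', h1]

theorem prodDist_expect_two {Cp V : Type} [Fintype Cp] [DecidableEq Cp] [Fintype V] [DecidableEq V]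
    (D : Cp → (V → Bool) → ℝ) (h1 : ∀ c, ∑ x, D c x = 1) (c d : Cp) (hcd : c ≠ d)
    (a b : (V → Bool) → ℝ) :
    ∑ x, prodDist D x * (a (fun v => x (c, v)) * b (fun v => x (d, v))) =
      (∑ y, D c y * a y) * ∑ y, D d y * b y := by
  have hx : ∀ x : Cp × V → Bool, a (fun v => x (c, v)) * b (fun v => x (d, v)) =
      ∏ c', (if c' = c then a else if c' = d then b else fun _ => 1) (fun v => x (c', v)) := by
    intro x
    rw [Fintype.prod_eq_mul c d hcd]
    · simp [hcd.symm]
    · rintro c' ⟨hc, hd⟩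
      simp [hc, hd]
  simp only [hx]
  have h2 := fun x => prodDist_mul D (fun c' => if c' = c then a else if c' = d then b else fun _ => 1) x
  rw [Finset.sum_congr rfl fun x _ => h2 x, prodDist_sum_eq, Fintype.prod_eq_mul c d hcd]
  · simp [hcd.symm]
  · rintro c' ⟨hc, hd⟩
    simp [hc, hd, h1]

/-- restriction of a tree to the copy `c₀`, the other copies being fixed to `y` -/
def Tr.restr {Cp V : Type} [DecidableEq Cp] (c₀ : Cp) (y : Cp × V → Bool) : Tr (Cp × V) → Tr V
  | .leaf b => .leaf b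
  | .node cv t₀ t₁ => if cv.1 = c₀ then .node cv.2 (Tr.restr c₀ y t₀) (Tr.restr c₀ y t₁)
      else if y cv then Tr.restr c₀ y t₁ else Tr.restr c₀ y t₀

theorem Tr.restr_depth {Cp V : Type} [DecidableEq Cp] (c₀ : Cp) (y : Cp × V → Bool)
    (T : Tr (Cp × V)) : (T.restr c₀ y).depth ≤ T.depth := by
  induction T with
  | leaf b => exact le_refl _
  | node cv t₀ t₁ ih₀ ih₁ =>
    rw [Tr.restr]
    split_ifs
    · simp only [Tr.depth]; omega
    · simp only [Tr.depth]; omega
    · simp only [Tr.depth]; omega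

theorem Tr.restr_eval {Cp V : Type} [DecidableEq Cp] (c₀ : Cp) (y : Cp × V → Bool)
    (T : Tr (Cp × V)) (x : Cp × V → Bool) (hx : ∀ c v, c ≠ c₀ → x (c, v) = y (c, v)) :
    (T.restr c₀ y).eval (fun v => x (c₀, v)) = T.eval x := by
  induction T with
  | leaf b => rfl
  | node cv t₀ t₁ ih₀ ih₁ =>
    obtain ⟨c, v⟩ := cv
    rw [Tr.restr]
    by_cases hc : c = c₀
    · subst hc
      simp only [if_true, Tr.eval, ih₀, ih₁]
    · simp only [hc, if_false, Tr.eval]
      rw [hx c v hc]
      split_ifs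
      · exact ih₁
      · exact ih₀

/-- the uniform distribution -/
noncomputable def unif (V : Type) [Fintype V] (_ : V → Bool) : ℝ := ∏ _v : V, (1 / 2 : ℝ)

theorem unif_nonneg {V : Type} [Fintype V] (x : V → Bool) : 0 ≤ unif V x :=
  Finset.prod_nonneg fun _ _ => by norm_num

theorem unif_sum {V : Type} [Fintype V] [DecidableEq V] : ∑ x, unif V x = 1 := by
  simp [unif]

theorem ext_zero_eq {V : Type} [Fintype V] [DecidableEq V] (f : (V → Bool) → ℝ) :
    ext f 0 = ∑ x, unif V x * f x := by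
  rw [ext]
  refine Finset.sum_congr rfl fun x _ => ?_
  rw [unif, mul_comm]
  congr 1
  refine Finset.prod_congr rfl fun v _ => ?_
  simp

theorem prodDist_unif {Cp V : Type} [Fintype Cp] [Fintype V] (x : Cp × V → Bool) :
    prodDist (fun _ : Cp => unif V) x = unif (Cp × V) x := by
  simp only [prodDist, unif]
  rw [Fintype.prod_prod_type]

/-- split off the copy `c₀` -/
def splitE {Cp V : Type} [DecidableEq Cp] (c₀ : Cp) :
    (Cp × V → Bool) ≃ (V → Bool) × ({c // c ≠ c₀} → V → Bool) :=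
  (Equiv.curry Cp V Bool).trans (Equiv.piSplitAt c₀ (fun _ => V → Bool))

theorem splitE_symm_self {Cp V : Type} [DecidableEq Cp] (c₀ : Cp) (z : V → Bool)
    (y : {c // c ≠ c₀} → V → Bool) (v : V) : (splitE c₀).symm (z, y) (c₀, v) = z v := by
  simp [splitE, Equiv.piSplitAt]

theorem splitE_symm_ne {Cp V : Type} [DecidableEq Cp] (c₀ : Cp) (z : V → Bool)
    (y : {c // c ≠ c₀} → V → Bool) (c : Cp) (hc : c ≠ c₀) (v : V) :
    (splitE c₀).symm (z, y) (c, v) = y ⟨c, hc⟩ v := by
  simp [splitE, Equiv.piSplitAt, hc]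

theorem prodDist_split {Cp V : Type} [Fintype Cp] [DecidableEq Cp] [Fintype V] [DecidableEq V]
    (D : Cp → (V → Bool) → ℝ) (c₀ : Cp) (u : (V → Bool) → ℝ) (T : Tr (Cp × V)) :
    ∑ x, prodDist (Function.update D c₀ u) x * T.fn x =
      ∑ y : {c // c ≠ c₀} → V → Bool, (∏ c : {c // c ≠ c₀}, D c (y c)) *
        ∑ z, u z * (T.restr c₀ ((splitE c₀).symm (fun _ => false, y))).fn z := by
  rw [← (splitE (V := V) c₀).symm.sum_comp, Fintype.sum_prod_type_right]
  refine Finset.sum_congr rfl fun y _ => ?_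
  rw [Finset.mul_sum]
  refine Finset.sum_congr rfl fun z _ => ?_
  have h1 : prodDist (Function.update D c₀ u) ((splitE c₀).symm (z, y)) =
      u z * ∏ c : {c // c ≠ c₀}, D c (y c) := by
    rw [prodDist, Fintype.prod_eq_mul_prod_subtype_ne _ c₀]
    congr 1
    · rw [Function.update_self]
      congr 1
      ext v
      exact splitE_symm_self c₀ z y v
    · refine Finset.prod_congr rfl fun c _ => ?_
      rw [Function.update_of_ne c.2]
      congr 1
      ext v
      exact splitE_symm_ne c₀ z y c.1 c.2 v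
  have h2 : T.fn ((splitE c₀).symm (z, y)) =
      (T.restr c₀ ((splitE c₀).symm (fun _ => false, y))).fn z := by
    rw [Tr.fn, Tr.fn]
    have := Tr.restr_eval c₀ ((splitE c₀).symm (fun _ => false, y)) T ((splitE c₀).symm (z, y))
      (fun c v hc => by rw [splitE_symm_ne c₀ _ _ c hc, splitE_symm_ne c₀ _ _ c hc])
    rw [← this]
    have h3 : (fun v => (splitE c₀).symm (z, y) (c₀, v)) = z := by
      ext v; exact splitE_symm_self c₀ z y v
    rw [h3]
  rw [h1, h2]
  ring

/-- change one factor -/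
theorem prodDist_change {Cp V : Type} [Fintype Cp] [DecidableEq Cp] [Fintype V] [DecidableEq V]
    (D : Cp → (V → Bool) → ℝ) (h0 : ∀ c x, 0 ≤ D c x) (h1 : ∀ c, ∑ x, D c x = 1)
    (c₀ : Cp) (u w : (V → Bool) → ℝ) (ε : ℝ) (t : ℕ)
    (hide : ∀ (T : Tr V), T.depth ≤ t → |∑ x, u x * T.fn x - ∑ x, w x * T.fn x| ≤ ε)
    (T : Tr (Cp × V)) (hT : T.depth ≤ t) :
    |∑ x, prodDist (Function.update D c₀ u) x * T.fn x -
      ∑ x, prodDist (Function.update D c₀ w) x * T.fn x| ≤ ε := by
  rw [prodDist_split, prodDist_split, ← Finset.sum_sub_distrib]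
  simp only [← mul_sub]
  refine (Finset.abs_sum_le_sum_abs _ _).trans ?_
  have h2 : ∀ y : {c // c ≠ c₀} → V → Bool, 0 ≤ ∏ c : {c // c ≠ c₀}, D c (y c) :=
    fun y => Finset.prod_nonneg fun c _ => h0 _ _
  calc ∑ y : {c // c ≠ c₀} → V → Bool, |(∏ c : {c // c ≠ c₀}, D c (y c)) *
        (∑ z, u z * (T.restr c₀ ((splitE c₀).symm (fun _ => false, y))).fn z -
        ∑ z, w z * (T.restr c₀ ((splitE c₀).symm (fun _ => false, y))).fn z)|
      ≤ ∑ y : {c // c ≠ c₀} → V → Bool, (∏ c : {c // c ≠ c₀}, D c (y c)) * ε := by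
        refine Finset.sum_le_sum fun y _ => ?_
        rw [abs_mul, abs_of_nonneg (h2 y)]
        exact mul_le_mul_of_nonneg_left (hide _ ((Tr.restr_depth _ _ _).trans hT)) (h2 y)
    _ = ε := by
        rw [← Finset.sum_mul]
        have h3 : ∑ y : {c // c ≠ c₀} → V → Bool, ∏ c : {c // c ≠ c₀}, D c (y c) = 1 := by
          have := Finset.prod_univ_sum (fun _ : {c // c ≠ c₀} => (univ : Finset (V → Bool)))
            (fun c z => D c z)
          rw [Fintype.piFinset_univ] at this
          rw [← this]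
          simp [h1]
        rw [h3, one_mul]

/-- hybrid argument -/
theorem prodDist_hiding {Cp V : Type} [Fintype Cp] [DecidableEq Cp] [Fintype V] [DecidableEq V]
    (D : Cp → (V → Bool) → ℝ) (h0 : ∀ c x, 0 ≤ D c x) (h1 : ∀ c, ∑ x, D c x = 1)
    (t : ℕ) (ε : ℝ)
    (hide : ∀ c (T : Tr V), T.depth ≤ t → |∑ x, D c x * T.fn x - ext T.fn 0| ≤ ε)
    (T : Tr (Cp × V)) (hT : T.depth ≤ t) :
    |∑ x, prodDist D x * T.fn x - ext T.fn 0| ≤ Fintype.card Cp * ε := by
  have key : ∀ S : Finset Cp, |∑ x, prodDist D x * T.fn x -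
      ∑ x, prodDist (fun c => if c ∈ S then unif V else D c) x * T.fn x| ≤ S.card * ε := by
    intro S
    induction S using Finset.induction_on with
    | empty => simp
    | insert c₀ S hc ih =>
      set E : Cp → (V → Bool) → ℝ := fun c => if c ∈ S then unif V else D c with hE
      have hE0 : ∀ c x, 0 ≤ E c x := by
        intro c x
        simp only [hE]
        split_ifs
        · exact unif_nonneg x
        · exact h0 c x
      have hE1 : ∀ c, ∑ x, E c x = 1 := by
        intro c
        simp only [hE]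
        split_ifs
        · exact unif_sum
        · exact h1 c
      have e1 : E = Function.update E c₀ (D c₀) := by
        rw [eq_comm, Function.update_eq_self_iff]
        simp [hE, hc]
      have e2 : (fun c => if c ∈ insert c₀ S then unif V else D c) =
          Function.update E c₀ (unif V) := by
        funext c
        by_cases h : c = c₀
        · subst h; simp
        · simp [hE, h]
      have h3 := prodDist_change E hE0 hE1 c₀ (D c₀) (unif V) ε t (by
        intro T' hT'
        have := hide c₀ T' hT'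
        rwa [ext_zero_eq] at this) T hT
      rw [← e1] at h3
      rw [e2, Finset.card_insert_of_notMem hc]
      push_cast
      have h4 := abs_sub_le (∑ x, prodDist D x * T.fn x) (∑ x, prodDist E x * T.fn x)
        (∑ x, prodDist (Function.update E c₀ (unif V)) x * T.fn x)
      linarith
  have := key univ
  simp only [Finset.mem_univ, if_true] at this
  rw [ext_zero_eq]
  simp only [prodDist_unif] at this
  rwa [Finset.card_univ] at this

/-- Chebyshev inequality over the copies in `S` -/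
theorem prodDist_chebyshev {Cp V : Type} [Fintype Cp] [DecidableEq Cp] [Fintype V] [DecidableEq V]
    (D : Cp → (V → Bool) → ℝ) (h0 : ∀ c x, 0 ≤ D c x) (h1 : ∀ c, ∑ x, D c x = 1)
    (Y : Cp → (V → Bool) → ℝ) (hY : ∀ c x, |Y c x| ≤ 1) (S : Finset Cp) (hS : S.Nonempty)
    (η : ℝ) (hη : 0 < η) (hm : ∀ c ∈ S, η ≤ ∑ x, D c x * Y c x)
    (B : Finset (Cp × V → Bool))
    (hB : ∀ x ∈ B, ∑ c ∈ S, Y c (fun v => x (c, v)) < (η / 2) * S.card) :
    ∑ x ∈ B, prodDist D x ≤ 4 / (S.card * η ^ 2) := by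
  set m : Cp → ℝ := fun c => ∑ x, D c x * Y c x with hmdef
  set Z : Cp → (V → Bool) → ℝ := fun c y => Y c y - m c with hZ
  have hZ0 : ∀ c, ∑ y, D c y * Z c y = 0 := by
    intro c
    simp only [hZ, mul_sub, Finset.sum_sub_distrib, ← Finset.sum_mul, h1, one_mul]
    simp [hmdef]
  have hvar : ∀ c, ∑ y, D c y * (Z c y * Z c y) ≤ 1 := by
    intro c
    have e : ∀ y, D c y * (Z c y * Z c y) = D c y * Y c y ^ 2 - 2 * m c * (D c y * Y c y) +
        m c ^ 2 * D c y := by
      intro y; simp only [hZ]; ring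
    rw [Finset.sum_congr rfl fun y _ => e y, Finset.sum_add_distrib, Finset.sum_sub_distrib,
      ← Finset.mul_sum, ← Finset.mul_sum, h1]
    have h2 : ∑ y, D c y * Y c y ^ 2 ≤ 1 := by
      rw [← h1 c]
      refine Finset.sum_le_sum fun y _ => ?_
      have : Y c y ^ 2 ≤ 1 := by
        rw [← sq_abs]
        exact pow_le_one₀ (abs_nonneg _) (hY c y)
      exact mul_le_of_le_one_right (h0 c y) this
    have h3 : ∑ y, D c y * Y c y = m c := rfl
    rw [h3]
    nlinarith [sq_nonneg (m c)]
  have hE : ∑ x, prodDist D x * (∑ c ∈ S, Z c (fun v => x (c, v))) ^ 2 ≤ S.card := by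
    have e : ∀ x : Cp × V → Bool, prodDist D x * (∑ c ∈ S, Z c (fun v => x (c, v))) ^ 2 =
        ∑ c ∈ S, ∑ d ∈ S, prodDist D x * (Z c (fun v => x (c, v)) * Z d (fun v => x (d, v))) := by
      intro x
      rw [sq, Finset.sum_mul_sum, Finset.mul_sum]
      refine Finset.sum_congr rfl fun c _ => ?_
      rw [Finset.mul_sum]
    rw [Finset.sum_congr rfl fun x _ => e x, Finset.sum_comm]
    have h2 : ∀ c ∈ S, ∑ x, ∑ d ∈ S, prodDist D x *
        (Z c (fun v => x (c, v)) * Z d (fun v => x (d, v))) ≤ 1 := by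
      intro c hc
      rw [Finset.sum_comm, Finset.sum_eq_single c]
      · have := prodDist_expect_one D h1 c (fun y => Z c y * Z c y)
        rw [this]
        exact hvar c
      · intro d hd hdc
        rw [prodDist_expect_two D h1 c d hdc.symm, hZ0, zero_mul]
      · intro h; exact absurd hc h
    refine (Finset.sum_le_sum h2).trans ?_
    simp
  have hcard : (0 : ℝ) < S.card := by exact_mod_cast hS.card_pos
  have hBx : ∀ x ∈ B, (η / 2 * S.card) ^ 2 ≤ (∑ c ∈ S, Z c (fun v => x (c, v))) ^ 2 := by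
    intro x hx
    have h2 := hB x hx
    have h3 : ∑ c ∈ S, Z c (fun v => x (c, v)) ≤ - (η / 2 * S.card) := by
      simp only [hZ, Finset.sum_sub_distrib]
      have h4 : η * S.card ≤ ∑ c ∈ S, m c := by
        calc η * S.card = ∑ _c ∈ S, η := by rw [Finset.sum_const, nsmul_eq_mul, mul_comm]
          _ ≤ _ := Finset.sum_le_sum hm
      linarith
    have h5 : 0 ≤ η / 2 * S.card := by positivity
    nlinarith
  have hfin : (∑ x ∈ B, prodDist D x) * (η / 2 * S.card) ^ 2 ≤ S.card := by
    refine le_trans ?_ hE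
    rw [Finset.sum_mul]
    calc ∑ x ∈ B, prodDist D x * (η / 2 * S.card) ^ 2
        ≤ ∑ x ∈ B, prodDist D x * (∑ c ∈ S, Z c (fun v => x (c, v))) ^ 2 :=
          Finset.sum_le_sum fun x hx =>
            mul_le_mul_of_nonneg_left (hBx x hx) (prodDist_nonneg D h0 x)
      _ ≤ _ := Finset.sum_le_sum_of_subset_of_nonneg (Finset.subset_univ _)
            fun x _ _ => mul_nonneg (prodDist_nonneg D h0 x) (sq_nonneg _)
  rw [le_div_iff₀ (by positivity)]
  have h6 : (∑ x ∈ B, prodDist D x) * (S.card * η ^ 2) * (S.card / 4) ≤ S.card := by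
    calc (∑ x ∈ B, prodDist D x) * (S.card * η ^ 2) * (S.card / 4)
        = (∑ x ∈ B, prodDist D x) * (η / 2 * S.card) ^ 2 := by ring
      _ ≤ _ := hfin
  by_contra hcon
  push Not at hcon
  have h7 : 4 * ((S.card : ℝ) / 4) < (∑ x ∈ B, prodDist D x) * (S.card * η ^ 2) * (S.card / 4) :=
    mul_lt_mul_of_pos_right hcon (by positivity)
  linarith

end Crest.Agent.QG
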