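import Crest.Agent.QG.Transcript
import Crest.Agent.QG.Address
import Crest.Agent.QG.ProdDist

/-!
# Chunk F4: the hint scheme from a hard distribution for Forrelation
-/

set_option autoImplicit false
set_option linter.unusedSectionVars false
set_option linter.unusedVariables false

namespace Crest.Agent.QG

open Finset

section flip
variable {V : Type}

/-- flip the bits in `S` -/
def htFl (S : V → Bool) (x : V → Bool) : V → Bool := fun v => if S v then !(x v) else x v

theorem htFl_invol (S : V → Bool) : Function.Involutive (htFl S) := by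
  intro x
  funext v
  unfold htFl
  split_ifs <;> simp

theorem htFl_sum [Fintype V] [DecidableEq V] (S : V → Bool) (f : (V → Bool) → ℝ) :
    ∑ x, f (htFl S x) = ∑ x, f x :=
  Equiv.sum_comp (Function.Involutive.toPerm _ (htFl_invol S)) f

/-- the tree with the answers in `S` flipped -/
def Tr.htFlip (S : V → Bool) : Tr V → Tr V
  | Tr.leaf b => Tr.leaf b
  | Tr.node v t₀ t₁ => if S v then Tr.node v (t₁.htFlip S) (t₀.htFlip S)
      else Tr.node v (t₀.htFlip S) (t₁.htFlip S)

theorem Tr.htFlip_depth (S : V → Bool) (T : Tr V) : (T.htFlip S).depth = T.depth := by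
  induction T with
  | leaf b => rfl
  | node v t₀ t₁ h0 h1 =>
    unfold Tr.htFlip
    split_ifs
    · simp only [Tr.depth, h0, h1, max_comm]
    · simp only [Tr.depth, h0, h1]

theorem Tr.htFlip_eval (S : V → Bool) (T : Tr V) (x : V → Bool) :
    (T.htFlip S).eval x = T.eval (htFl S x) := by
  induction T with
  | leaf b => rfl
  | node v t₀ t₁ h0 h1 =>
    unfold Tr.htFlip
    by_cases hS : S v = true
    · rw [if_pos hS]
      simp only [Tr.eval, h0, h1]
      unfold htFl
      simp only [hS, if_true]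
      cases x v <;> simp
    · rw [if_neg hS]
      simp only [Tr.eval, h0, h1]
      unfold htFl
      simp only [hS]
      rfl

theorem Tr.htFlip_fn (S : V → Bool) (T : Tr V) (x : V → Bool) :
    (T.htFlip S).fn x = T.fn (htFl S x) := by
  unfold Tr.fn
  rw [Tr.htFlip_eval]

theorem ext_htFlip [Fintype V] [DecidableEq V] (S : V → Bool) (T : Tr V) :
    ext (T.htFlip S).fn 0 = ext T.fn 0 := by
  unfold ext
  simp only [Pi.zero_apply, mul_zero, add_zero]
  rw [← Finset.sum_mul, ← Finset.sum_mul]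
  congr 1
  rw [Finset.sum_congr rfl (fun x _ => Tr.htFlip_fn S T x)]
  exact htFl_sum S T.fn

theorem hide_htFl [Fintype V] [DecidableEq V] (S : V → Bool) (D : (V → Bool) → ℝ) (t : ℕ) (ε : ℝ)
    (hide : ∀ T : Tr V, T.depth ≤ t → |∑ x, D x * T.fn x - ext T.fn 0| ≤ ε)
    (T : Tr V) (hT : T.depth ≤ t) :
    |∑ x, D (htFl S x) * T.fn x - ext T.fn 0| ≤ ε := by
  have h1 := hide (T.htFlip S) (by rw [Tr.htFlip_depth]; exact hT)
  rw [ext_htFlip] at h1
  have h2 : ∑ x, D (htFl S x) * T.fn x = ∑ x, D x * (T.htFlip S).fn x := by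
    rw [← htFl_sum S]
    refine Finset.sum_congr rfl (fun x _ => ?_)
    rw [htFl_invol S x, Tr.htFlip_fn]
  rw [h2]
  exact h1

end flip

section forr
variable {I : Type} [Fintype I] [DecidableEq I]

/-- the last layer -/
def htLast (κ : ℕ) (I : Type) : Fin κ × I → Bool := fun v => decide (v.1.val + 1 = κ)

theorem forr_htFl {κ : ℕ} (hκ : 1 ≤ κ) (H : Matrix I I ℝ) (x : Fin κ × I → Bool) :
    forr H (htFl (htLast κ I) x) = - forr H x := by
  obtain ⟨n, rfl⟩ : ∃ n, κ = n + 1 := ⟨κ - 1, by omega⟩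
  unfold forr
  rw [← mul_neg, ← Finset.sum_neg_distrib]
  congr 1
  refine Finset.sum_congr rfl (fun i _ => ?_)
  rw [← mul_neg]
  congr 1
  rw [Fin.prod_univ_castSucc, Fin.prod_univ_castSucc, ← mul_neg]
  congr 1
  · refine Finset.prod_congr rfl (fun s _ => ?_)
    congr 1
    unfold htFl htLast
    have : ¬ ((s.castSucc : Fin (n + 1)).val + 1 = n + 1) := by
      rw [Fin.val_castSucc]; omega
    simp only [this, decide_false, Bool.false_eq_true, if_false]
  · unfold htFl htLast
    simp only [Fin.val_last, decide_true, if_true]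
    cases x (Fin.last n, i (Fin.last n)) <;> simp [sg]

end forr

theorem ht_sum_biUnion_le {α β : Type} [Fintype α] [DecidableEq α] [Fintype β] [DecidableEq β]
    (B : β → Finset α) (P : α → ℝ) (hP : ∀ x, 0 ≤ P x) :
    ∑ x ∈ univ.biUnion B, P x ≤ ∑ b, ∑ x ∈ B b, P x := by
  have h1 : ∀ b, ∑ x ∈ B b, P x = ∑ x, if x ∈ B b then P x else 0 := by
    intro b
    rw [← Finset.sum_filter]
    simp
  rw [Finset.sum_congr rfl (fun b _ => h1 b), Finset.sum_comm]
  have h2 : ∑ x ∈ univ.biUnion B, P x = ∑ x, if x ∈ univ.biUnion B then P x else 0 := by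
    rw [← Finset.sum_filter]
    refine Finset.sum_congr ?_ (fun _ _ => rfl)
    ext x
    simp
  rw [h2]
  refine Finset.sum_le_sum (fun x _ => ?_)
  split_ifs with h
  · obtain ⟨b, _, hb⟩ := Finset.mem_biUnion.1 h
    refine le_trans ?_ (Finset.single_le_sum (f := fun b => if x ∈ B b then P x else 0)
      (fun b _ => ?_) (mem_univ b))
    · simp [hb]
    · split_ifs
      · exact hP x
      · exact le_rfl
  · exact Finset.sum_nonneg (fun b _ => by
      split_ifs
      · exact hP x
      · exact le_rfl)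

theorem hint_scheme (c κ ρ a n t : ℕ) (hκ : 2 ≤ κ) (hn : 1 ≤ n) (η ε δ : ℝ) (hη : 0 < η)
    (D : (Fin κ × (Fin a → Bool) → Bool) → ℝ) (h0 : ∀ x, 0 ≤ D x) (h1 : ∑ x, D x = 1)
    (hide : ∀ T : Tr (Fin κ × (Fin a → Bool)), T.depth ≤ t →
      |∑ x, D x * T.fn x - ext T.fn 0| ≤ ε)
    (hmean : η ≤ ∑ x, D x * forr (had a) x)
    (hε : (c * 2 ^ ρ : ℝ) * ε ≤ 1 / 100)
    (hρ : (400 : ℝ) * c ≤ 2 ^ ρ * η ^ 2)
    (hδ : (4 : ℝ) * c ≤ δ * (n * η ^ 2)) :
    ∃ (Y : Type) (_ : Fintype Y) (_ : DecidableEq Y),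
      HasHint ((Fin c × (Fin ρ → Bool)) × (Fin κ × (Fin a → Bool))) Y (Fin c → Bool)
        (c * (κ * (ρ + a + 1) * 2 ^ (ρ + a) + 1)) (3 * (κ * (ρ + a) + 2) + 1)
        (c * (n * κ)) t δ := by
  have hκ1 : 1 ≤ κ := by omega
  obtain ⟨Y, E, iY, dY, iE, dE, bad, hE, hbad, henc⟩ := transcript_scheme c κ ρ a hκ1 (η / 2)
  obtain ⟨pa, hpa, hpa'⟩ := address_extraction c κ ρ a n hκ1 hn
  -- the signed distributions
  set Dm : Bool → (Fin κ × (Fin a → Bool) → Bool) → ℝ := fun b x =>
    if b then D x else D (htFl (htLast κ (Fin a → Bool)) x) with hDm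
  set sgn : Bool → ℝ := fun b => if b then 1 else -1 with hsgn
  have hDm0 : ∀ b x, 0 ≤ Dm b x := by
    intro b x
    simp only [hDm]
    split_ifs
    · exact h0 _
    · exact h0 _
  have hDm1 : ∀ b, ∑ x, Dm b x = 1 := by
    intro b
    cases b
    · simp only [hDm, Bool.false_eq_true, if_false]
      rw [htFl_sum (htLast κ (Fin a → Bool)) D]
      exact h1
    · simp only [hDm, if_true]
      exact h1
  have hDmhide : ∀ (b : Bool) (T : Tr (Fin κ × (Fin a → Bool))), T.depth ≤ t →
      |∑ x, Dm b x * T.fn x - ext T.fn 0| ≤ ε := by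
    intro b T hT
    cases b
    · simp only [hDm, Bool.false_eq_true, if_false]
      exact hide_htFl _ D t ε hide T hT
    · simp only [hDm, if_true]
      exact hide T hT
  have hDmmean : ∀ b, η ≤ ∑ x, Dm b x * (sgn b * forr (had a) x) := by
    intro b
    cases b
    · simp only [hDm, hsgn, Bool.false_eq_true, if_false]
      rw [← htFl_sum (htLast κ (Fin a → Bool))]
      refine hmean.trans_eq (Finset.sum_congr rfl (fun x _ => ?_))
      rw [htFl_invol, forr_htFl hκ1]
      ring
    · simp only [hDm, hsgn, if_true, one_mul]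
      exact hmean
  refine ⟨Y, iY, dY, E, iE, dE, bad, pa,
    fun lam => prodDist (fun cp : Fin c × (Fin ρ → Bool) => Dm (lam cp.1)), hE, hbad, hpa,
    ?_, ?_, ?_, ?_, ?_⟩
  · intro x lam y hy
    have h2 := hpa' (η / 2) (by positivity) x lam ((henc x lam).1 ⟨y, hy⟩)
    have hn' : (0 : ℝ) < n := by exact_mod_cast hn
    have h3 : (c : ℝ) / (n * (η / 2) ^ 2) ≤ δ := by
      rw [div_le_iff₀ (by positivity)]
      have : δ * (n * (η / 2) ^ 2) = δ * (n * η ^ 2) / 4 := by ring
      rw [this]; linarith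
    linarith
  · intro lam x
    exact prodDist_nonneg _ (fun cp => hDm0 _) x
  · intro lam
    exact prodDist_sum _ (fun cp => hDm1 _)
  · intro lam G hG
    -- complement estimate
    have htot := prodDist_sum (fun cp : Fin c × (Fin ρ → Bool) => Dm (lam cp.1))
      (fun cp => hDm1 _)
    set P : (((Fin c × (Fin ρ → Bool)) × (Fin κ × (Fin a → Bool))) → Bool) → ℝ :=
      prodDist (fun cp : Fin c × (Fin ρ → Bool) => Dm (lam cp.1)) with hP
    have hP0 : ∀ x, 0 ≤ P x := prodDist_nonneg _ (fun cp => hDm0 _)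
    set S : Fin c → Finset (Fin c × (Fin ρ → Bool)) := fun β => {β} ×ˢ univ with hS
    have hScard : ∀ β, ((S β).card : ℝ) = 2 ^ ρ := by
      intro β
      simp [hS]
    set Yv : (Fin c × (Fin ρ → Bool)) → (Fin κ × (Fin a → Bool) → Bool) → ℝ :=
      fun cp x => sgn (lam cp.1) * forr (had a) x with hYv
    set B : Fin c → Finset (((Fin c × (Fin ρ → Bool)) × (Fin κ × (Fin a → Bool))) → Bool) :=
      fun β => univ.filter (fun x => ∑ cp ∈ S β, Yv cp (fun v => x (cp, v)) < (η / 2) * (S β).card)
      with hB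
    have hBβ : ∀ β, ∑ x ∈ B β, P x ≤ 4 / (2 ^ ρ * η ^ 2) := by
      intro β
      have h2 := prodDist_chebyshev (fun cp : Fin c × (Fin ρ → Bool) => Dm (lam cp.1))
        (fun cp => hDm0 _) (fun cp => hDm1 _) Yv (fun cp x => by
          simp only [hYv, hsgn, abs_mul]
          have h3 := abs_forr_le_one hκ1 (had a) (had_isSymm a) (had_mul_had a) x
          split_ifs
          · simpa using h3
          · simpa using h3) (S β) ⟨(β, fun _ => false), by simp [hS]⟩ η hη
          (fun cp _ => hDmmean _) (B β) (fun x hx => by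
            simpa [hB] using hx)
      rwa [hScard] at h2
    have hsub : (Gᶜ : Finset _) ⊆ univ.biUnion B := by
      intro x hx
      rw [Finset.mem_compl] at hx
      rw [Finset.mem_biUnion]
      have hne : ¬ Encodes (η / 2) x lam := fun h => hx (hG x ((henc x lam).2 h))
      unfold Encodes at hne
      push Not at hne
      obtain ⟨β, hβ⟩ := hne
      refine ⟨β, mem_univ _, ?_⟩
      have hsum : ∑ cp ∈ S β, Yv cp (fun v => x (cp, v)) = 2 ^ ρ * (sgn (lam β) * meanForr x β) := by
        simp only [hS, hYv]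
        rw [Finset.sum_product, Finset.sum_singleton]
        simp only
        rw [← Finset.mul_sum, meanForr]
        have : (2 : ℝ) ^ ρ ≠ 0 := by positivity
        field_simp
      simp only [hB, Finset.mem_filter, Finset.mem_univ, true_and]
      rw [hsum, hScard]
      have h2p : (0 : ℝ) < 2 ^ ρ := by positivity
      have h5 : sgn (lam β) * meanForr x β < η / 2 := by
        by_cases h4 : lam β = true ∧ meanForr x β < η / 2
        · simp only [hsgn, h4.1, if_true, one_mul]
          exact h4.2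
        · have h6 : lam β = true → η / 2 ≤ meanForr x β := by
            intro h7
            by_contra h8
            exact h4 ⟨h7, not_le.1 h8⟩
          obtain ⟨h7, h8⟩ := hβ h6
          simp only [hsgn, h7, Bool.false_eq_true, if_false]
          linarith
      nlinarith
    have h2 : ∑ x ∈ Gᶜ, P x ≤ 1 / 100 := by
      calc ∑ x ∈ Gᶜ, P x ≤ ∑ x ∈ univ.biUnion B, P x :=
            Finset.sum_le_sum_of_subset_of_nonneg hsub (fun x _ _ => hP0 x)
        _ ≤ ∑ β, ∑ x ∈ B β, P x := ht_sum_biUnion_le B P hP0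
        _ ≤ ∑ β : Fin c, 4 / (2 ^ ρ * η ^ 2) := Finset.sum_le_sum (fun β _ => hBβ β)
        _ = c * (4 / (2 ^ ρ * η ^ 2)) := by simp
        _ ≤ 1 / 100 := by
            rw [mul_div_assoc', div_le_iff₀ (by positivity)]
            linarith
    have h3 := Finset.sum_add_sum_compl G P
    rw [htot] at h3
    linarith
  · intro lam T hT
    have h2 := prodDist_hiding (fun cp : Fin c × (Fin ρ → Bool) => Dm (lam cp.1))
      (fun cp => hDm0 _) (fun cp => hDm1 _) t ε (fun cp T hT => hDmhide _ T hT) T hT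
    refine h2.trans ?_
    rw [Fintype.card_prod]
    simp only [Fintype.card_fin, Fintype.card_fun, Fintype.card_bool]
    push_cast
    exact hε

end Crest.Agent.QG
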