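import Crest.Agent.QG.Hint

/-!
# Chunk G2: the classical lower bound for the gap function
-/

set_option autoImplicit false

namespace Crest.Agent.QG

open Finset

namespace Tr
variable {V : Type}

/-- variables queried on input `x`, in order -/
def path (x : V → Bool) : Tr V → List V
  | leaf _ => []
  | node v t₀ t₁ => v :: (if x v then t₁.path x else t₀.path x)

theorem path_length_le (x : V → Bool) (T : Tr V) : (T.path x).length ≤ T.depth := by
  induction T with
  | leaf b => simp [path, depth]
  | node v t₀ t₁ h0 h1 =>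
    simp only [path, depth, List.length_cons]
    split_ifs
    · have := h1.trans (le_max_right t₀.depth t₁.depth); omega
    · have := h0.trans (le_max_left t₀.depth t₁.depth); omega

theorem eval_eq_of_agree {x y : V → Bool} (T : Tr V) (h : ∀ v ∈ T.path x, y v = x v) :
    T.eval y = T.eval x := by
  induction T with
  | leaf b => rfl
  | node v t₀ t₁ h0 h1 =>
    simp only [path, List.mem_cons, forall_eq_or_imp] at h
    simp only [eval]
    rw [h.1]
    split_ifs with hx
    · rw [if_pos hx] at h; exact h1 h.2
    · rw [if_neg hx] at h; exact h0 h.2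

theorem path_take_eq_of_agree {x y : V → Bool} (T : Tr V) (n : ℕ)
    (h : ∀ v ∈ (T.path x).take n, y v = x v) : (T.path y).take n = (T.path x).take n := by
  induction T generalizing n with
  | leaf b => rfl
  | node v t₀ t₁ h0 h1 =>
    cases n with
    | zero => simp
    | succ n =>
      simp only [path, List.take_succ_cons, List.mem_cons, forall_eq_or_imp] at h
      simp only [path, List.take_succ_cons, List.cons.injEq, true_and]
      rw [h.1]
      split_ifs with hx
      · rw [if_pos hx] at h; exact h1 n h.2
      · rw [if_neg hx] at h; exact h0 n h.2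

end Tr

section proj
variable {Col Z : Type} [DecidableEq Col]

/-- restriction of a tree to a column, the other columns being fixed by `z` -/
def projT (b : Col) (z : Col × Z → Bool) : Tr (Col × Z) → Tr Z
  | Tr.leaf c => Tr.leaf c
  | Tr.node v t₀ t₁ => if v.1 = b then Tr.node v.2 (projT b z t₀) (projT b z t₁)
      else if z v then projT b z t₁ else projT b z t₀

theorem projT_congr (b : Col) {z z' : Col × Z → Bool} (h : ∀ v : Col × Z, v.1 ≠ b → z v = z' v)
    (T : Tr (Col × Z)) : projT b z T = projT b z' T := by
  induction T with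
  | leaf c => rfl
  | node v t₀ t₁ h0 h1 =>
    simp only [projT]
    split_ifs with h2 h3 h4 h4
    · rw [h0, h1]
    · exact h1
    · rw [h v h2] at h3; exact absurd h3 h4
    · rw [h v h2] at h3; exact absurd h4 h3
    · exact h0

theorem path_projT (b : Col) (z : Col × Z → Bool) (T : Tr (Col × Z)) :
    (projT b z T).path (fun v => z (b, v)) =
      ((T.path z).filter (fun v => v.1 = b)).map Prod.snd := by
  induction T with
  | leaf c => rfl
  | node v t₀ t₁ h0 h1 =>
    obtain ⟨i, v⟩ := v
    simp only [projT, Tr.path]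
    by_cases hi : i = b
    · subst hi
      rw [if_pos rfl, List.filter_cons_of_pos (by simp), List.map_cons]
      simp only [Tr.path, List.cons.injEq, true_and]
      split_ifs
      · exact h1
      · exact h0
    · rw [if_neg hi, List.filter_cons_of_neg (by simpa using hi)]
      split_ifs
      · exact h1
      · exact h0

theorem sum_filter_length [Fintype Col] (l : List (Col × Z)) :
    ∑ b : Col, (l.filter (fun v => v.1 = b)).length = l.length := by
  induction l with
  | nil => simp
  | cons a l ih =>
    have h1 : ∀ b : Col, ((a :: l).filter (fun v => v.1 = b)).length =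
        (l.filter (fun v => v.1 = b)).length + if a.1 = b then 1 else 0 := by
      intro b
      by_cases h : a.1 = b
      · rw [List.filter_cons_of_pos (by simpa using h), if_pos h, List.length_cons]
      · rw [List.filter_cons_of_neg (by simpa using h), if_neg h, add_zero]
    simp only [h1]
    rw [Finset.sum_add_distrib, ih, Finset.sum_ite_eq, if_pos (Finset.mem_univ _),
      List.length_cons]

end proj

section xtree
variable {X K Lam C : Type} [DecidableEq Lam]

/-- the tree on the hint bits telling whether a cell with address `lam` has been queried within the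
first `n` queries, all kill bits being true and all cells false -/
def xtree (lam : Lam) : ℕ → Bool → Tr (X ⊕ (K ⊕ (Lam × C))) → Tr X
  | 0, fl, _ => Tr.leaf fl
  | _ + 1, fl, Tr.leaf _ => Tr.leaf fl
  | n + 1, fl, Tr.node (Sum.inl v) t₀ t₁ => Tr.node v (xtree lam n fl t₀) (xtree lam n fl t₁)
  | n + 1, fl, Tr.node (Sum.inr (Sum.inl _)) _ t₁ => xtree lam n fl t₁
  | n + 1, fl, Tr.node (Sum.inr (Sum.inr c)) t₀ _ => xtree lam n (fl || decide (c.1 = lam)) t₀

/-- column input with all kill bits true -/
def cAll (x : X → Bool) : X ⊕ (K ⊕ (Lam × C)) → Bool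
  | Sum.inl v => x v
  | Sum.inr (Sum.inl _) => true
  | Sum.inr (Sum.inr _) => false

/-- column input with the kill bit `u` false -/
def cOne [DecidableEq K] (x : X → Bool) (u : K) : X ⊕ (K ⊕ (Lam × C)) → Bool
  | Sum.inl v => x v
  | Sum.inr (Sum.inl v) => decide (v ≠ u)
  | Sum.inr (Sum.inr _) => false

/-- is the variable in a cell of address `lam`? -/
def isCell (lam : Lam) : X ⊕ (K ⊕ (Lam × C)) → Bool
  | Sum.inl _ => false
  | Sum.inr (Sum.inl _) => false
  | Sum.inr (Sum.inr c) => decide (c.1 = lam)

theorem xtree_depth (lam : Lam) (n : ℕ) (fl : Bool) (T : Tr (X ⊕ (K ⊕ (Lam × C)))) :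
    (xtree lam n fl T).depth ≤ n := by
  induction n generalizing fl T with
  | zero => simp [xtree, Tr.depth]
  | succ n ih =>
    match T with
    | Tr.leaf _ => simp [xtree, Tr.depth]
    | Tr.node (Sum.inl v) t₀ t₁ =>
      simp only [xtree, Tr.depth]
      have h0 := ih fl t₀
      have h1 := ih fl t₁
      have := max_le h0 h1
      omega
    | Tr.node (Sum.inr (Sum.inl u)) t₀ t₁ =>
      simp only [xtree]
      exact (ih fl t₁).trans (Nat.le_succ n)
    | Tr.node (Sum.inr (Sum.inr c)) t₀ t₁ =>
      simp only [xtree]
      exact (ih _ t₀).trans (Nat.le_succ n)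

theorem xtree_eval (lam : Lam) (n : ℕ) (fl : Bool) (T : Tr (X ⊕ (K ⊕ (Lam × C))))
    (x : X → Bool) :
    (xtree lam n fl T).eval x = (fl || ((T.path (cAll x)).take n).any (isCell lam)) := by
  induction n generalizing fl T with
  | zero => simp [xtree, Tr.eval]
  | succ n ih =>
    match T with
    | Tr.leaf _ => simp [xtree, Tr.eval, Tr.path]
    | Tr.node (Sum.inl v) t₀ t₁ =>
      simp only [xtree, Tr.eval, Tr.path, cAll, List.take_succ_cons, List.any_cons, isCell,
        Bool.false_or]
      by_cases hx : x v = true
      · simp [hx, ih]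
      · simp [hx, ih]
    | Tr.node (Sum.inr (Sum.inl u)) t₀ t₁ =>
      simp only [xtree, Tr.path, cAll, List.take_succ_cons, List.any_cons, isCell,
        Bool.false_or, if_true]
      exact ih fl t₁
    | Tr.node (Sum.inr (Sum.inr c)) t₀ t₁ =>
      simp only [xtree, Tr.path, cAll, List.take_succ_cons, List.any_cons, isCell,
        Bool.false_eq_true, if_false]
      rw [ih, Bool.or_assoc]

end xtree

section count

/-- a list of length `≤ t` contains at most `t` kill positions -/
theorem card_kill_le {α K : Type} [Fintype K] [DecidableEq K] [DecidableEq α] (f : K → α)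
    (hf : Function.Injective f) (l : List α) :
    (Finset.univ.filter (fun u : K => f u ∈ l)).card ≤ l.length := by
  have h1 : ((Finset.univ.filter (fun u : K => f u ∈ l)).image f) ⊆ l.toFinset := by
    intro a ha
    obtain ⟨u, hu, rfl⟩ := Finset.mem_image.1 ha
    exact List.mem_toFinset.2 (Finset.mem_filter.1 hu).2
  have h2 := Finset.card_le_card h1
  rw [Finset.card_image_of_injective _ hf] at h2
  exact h2.trans (List.toFinset_card_le l)

/-- at most `length` addresses are touched -/
theorem card_cell_le {X K Lam C : Type} [Fintype Lam] [DecidableEq Lam]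
    (l : List (X ⊕ (K ⊕ (Lam × C)))) :
    (Finset.univ.filter (fun lam : Lam => l.any (isCell lam) = true)).card ≤ l.length := by
  induction l with
  | nil => simp
  | cons a l ih =>
    have h1 : (Finset.univ.filter (fun lam : Lam => (a :: l).any (isCell lam) = true)) ⊆
        (Finset.univ.filter (fun lam : Lam => isCell lam a = true)) ∪
        (Finset.univ.filter (fun lam : Lam => l.any (isCell lam) = true)) := by
      intro lam hlam
      simp only [Finset.mem_filter, Finset.mem_univ, true_and, List.any_cons, Bool.or_eq_true,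
        Finset.mem_union] at hlam ⊢
      exact hlam
    have h2 : (Finset.univ.filter (fun lam : Lam => isCell lam a = true)).card ≤ 1 := by
      rw [Finset.card_le_one]
      intro l1 h1 l2 h2
      simp only [Finset.mem_filter, Finset.mem_univ, true_and] at h1 h2
      match a with
      | Sum.inl _ => simp [isCell] at h1
      | Sum.inr (Sum.inl _) => simp [isCell] at h1
      | Sum.inr (Sum.inr c) =>
        simp only [isCell, decide_eq_true_eq] at h1 h2
        rw [← h1, ← h2]
    refine (Finset.card_le_card h1).trans ((Finset.card_union_le _ _).trans ?_)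
    rw [List.length_cons]
    omega

end count

section column
variable {X K Lam C : Type} [Fintype X] [DecidableEq X] [Fintype K] [DecidableEq K]
  [Fintype Lam] [DecidableEq Lam] [DecidableEq C]

open Classical in
/-- the bad event within the first `t` queries in a column -/
noncomputable def hit (t : ℕ) (T : Tr (X ⊕ (K ⊕ (Lam × C)))) (lam : Lam) (x : X → Bool) (u : K) :
    ℝ :=
  if (∃ v ∈ (T.path (cOne x u)).take t, v = Sum.inr (Sum.inl u) ∨ isCell lam v = true) then 1
    else 0

theorem ext_zero {X : Type} [Fintype X] [DecidableEq X] (f : (X → Bool) → ℝ) :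
    ext f 0 = (1 / (Fintype.card (X → Bool) : ℝ)) * ∑ x, f x := by
  unfold ext
  rw [Finset.mul_sum]
  refine Finset.sum_congr rfl fun x _ => ?_
  simp only [Pi.zero_apply, mul_zero, add_zero, Finset.prod_const, Finset.card_univ,
    Fintype.card_fun, Fintype.card_bool, Nat.cast_pow, Nat.cast_ofNat]
  rw [one_div, one_div, inv_pow]
  ring

theorem column_bound [Nonempty Lam] [Nonempty K] (t : ℕ)
    (D : Lam → (X → Bool) → ℝ) (h0 : ∀ lam x, 0 ≤ D lam x) (h1 : ∀ lam, ∑ x, D lam x = 1)
    (hide : ∀ lam (T : Tr X), T.depth ≤ t → |∑ x, D lam x * T.fn x - ext T.fn 0| ≤ 1 / 100)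
    (hK : 100 * t ≤ Fintype.card K) (hLam : 100 * t ≤ Fintype.card Lam)
    (T : Tr (X ⊕ (K ⊕ (Lam × C)))) :
    ∑ lam : Lam, ∑ x : X → Bool, ∑ u : K,
      (1 / (Fintype.card Lam : ℝ)) * D lam x * (1 / (Fintype.card K : ℝ)) * hit t T lam x u ≤
      3 / 100 := by
  classical
  have hKpos : (0:ℝ) < Fintype.card K := by exact_mod_cast Fintype.card_pos
  have hLpos : (0:ℝ) < Fintype.card Lam := by exact_mod_cast Fintype.card_pos
  have hXpos : (0:ℝ) < (Fintype.card (X → Bool) : ℝ) := by exact_mod_cast Fintype.card_pos
  have hK' : (t : ℝ) / Fintype.card K ≤ 1 / 100 := by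
    rw [div_le_div_iff₀ hKpos (by norm_num)]
    have : ((100 * t : ℕ) : ℝ) ≤ Fintype.card K := by exact_mod_cast hK
    push_cast at this; linarith
  have hL' : (t : ℝ) / Fintype.card Lam ≤ 1 / 100 := by
    rw [div_le_div_iff₀ hLpos (by norm_num)]
    have : ((100 * t : ℕ) : ℝ) ≤ Fintype.card Lam := by exact_mod_cast hLam
    push_cast at this; linarith
  -- pointwise bound of hit
  have hhit : ∀ lam x u, hit t T lam x u ≤
      (if (Sum.inr (Sum.inl u) : X ⊕ (K ⊕ (Lam × C))) ∈ (T.path (cAll x)).take t then 1 else 0) +
      (xtree lam t false T).fn x := by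
    intro lam x u
    unfold hit Tr.fn
    rw [xtree_eval, Bool.false_or]
    by_cases hk : (Sum.inr (Sum.inl u) : X ⊕ (K ⊕ (Lam × C))) ∈ (T.path (cAll x)).take t
    · rw [if_pos hk]
      have h2 : (0:ℝ) ≤ (if ((T.path (cAll x)).take t).any (isCell lam) = true then (1:ℝ) else 0) := by
        split_ifs <;> norm_num
      have h3 : (if (∃ v ∈ (T.path (cOne x u)).take t, v = Sum.inr (Sum.inl u) ∨
          isCell lam v = true) then (1:ℝ) else 0) ≤ 1 := by
        split_ifs <;> norm_num
      linarith
    · have heq : (T.path (cOne x u)).take t = (T.path (cAll x)).take t := by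
        apply Tr.path_take_eq_of_agree
        intro v hv
        match v with
        | Sum.inl v => rfl
        | Sum.inr (Sum.inl v) =>
          have hne : v ≠ u := by
            rintro rfl; exact hk hv
          simp [cOne, cAll, hne]
        | Sum.inr (Sum.inr c) => rfl
      rw [heq, if_neg hk, zero_add]
      by_cases hany : ((T.path (cAll x)).take t).any (isCell lam) = true
      · rw [if_pos hany]; split_ifs <;> norm_num
      · rw [if_neg hany, if_neg]
        rintro ⟨v, hv, rfl | hv2⟩
        · exact hk hv
        · exact hany (List.any_eq_true.2 ⟨v, hv, hv2⟩)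
  -- first part
  have hA : ∀ x : X → Bool, ∑ u : K,
      (if (Sum.inr (Sum.inl u) : X ⊕ (K ⊕ (Lam × C))) ∈ (T.path (cAll x)).take t then (1:ℝ)
        else 0) ≤ t := by
    intro x
    have h2 := card_kill_le (fun u : K => (Sum.inr (Sum.inl u) : X ⊕ (K ⊕ (Lam × C))))
      (fun a b h => by simpa using h) ((T.path (cAll x)).take t)
    have h3 : ((T.path (cAll x)).take t).length ≤ t := List.length_take_le _ _
    rw [Finset.sum_ite, Finset.sum_const_zero, add_zero, Finset.sum_const, nsmul_eq_mul, mul_one]
    refine le_trans (le_of_eq ?_) (Nat.cast_le.2 (h2.trans h3))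
    congr!
  -- second part
  have hB : ∑ lam : Lam, ∑ x, D lam x * (xtree lam t false T).fn x ≤
      Fintype.card Lam * (2 / 100) := by
    have h2 : ∀ lam : Lam, ∑ x, D lam x * (xtree lam t false T).fn x ≤
        ext (xtree lam t false T).fn 0 + 1 / 100 := by
      intro lam
      have := (abs_le.1 (hide lam (xtree lam t false T) (xtree_depth lam t false T))).2
      linarith
    refine (Finset.sum_le_sum fun lam _ => h2 lam).trans ?_
    rw [Finset.sum_add_distrib, Finset.sum_const, Finset.card_univ, nsmul_eq_mul]
    have h3 : ∑ lam : Lam, ext (xtree lam t false T).fn 0 ≤ t := by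
      simp only [ext_zero]
      rw [← Finset.mul_sum, Finset.sum_comm]
      have h4 : ∀ x : X → Bool, ∑ lam : Lam, (xtree lam t false T).fn x ≤ t := by
        intro x
        unfold Tr.fn
        simp only [xtree_eval, Bool.false_or]
        rw [Finset.sum_ite, Finset.sum_const_zero, add_zero, Finset.sum_const, nsmul_eq_mul,
          mul_one]
        have h5 := card_cell_le ((T.path (cAll x)).take t) (Lam := Lam)
        have h6 : ((T.path (cAll x)).take t).length ≤ t := List.length_take_le _ _
        exact_mod_cast h5.trans h6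
      have h5 := Finset.sum_le_sum (s := Finset.univ) fun (x : X → Bool) _ => h4 x
      rw [Finset.sum_const, Finset.card_univ, nsmul_eq_mul] at h5
      rw [one_div, inv_mul_le_iff₀ hXpos]
      exact h5
    have h4 : (t : ℝ) ≤ Fintype.card Lam * (1 / 100) := by
      rw [div_le_iff₀ hLpos] at hL'; linarith
    linarith
  calc ∑ lam : Lam, ∑ x : X → Bool, ∑ u : K,
      (1 / (Fintype.card Lam : ℝ)) * D lam x * (1 / (Fintype.card K : ℝ)) * hit t T lam x u
      ≤ ∑ lam : Lam, ∑ x : X → Bool, ∑ u : K,
      (1 / (Fintype.card Lam : ℝ)) * D lam x * (1 / (Fintype.card K : ℝ)) *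
      ((if (Sum.inr (Sum.inl u) : X ⊕ (K ⊕ (Lam × C))) ∈ (T.path (cAll x)).take t then 1 else 0) +
      (xtree lam t false T).fn x) := by
        refine Finset.sum_le_sum fun lam _ => Finset.sum_le_sum fun x _ =>
          Finset.sum_le_sum fun u _ => mul_le_mul_of_nonneg_left (hhit lam x u) ?_
        have := h0 lam x
        positivity
    _ ≤ ∑ lam : Lam, ∑ x : X → Bool, ((1 / (Fintype.card Lam : ℝ)) * D lam x * (1 / 100) +
          (1 / (Fintype.card Lam : ℝ)) * (D lam x * (xtree lam t false T).fn x)) := by
        refine Finset.sum_le_sum fun lam _ => Finset.sum_le_sum fun x _ => ?_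
        rw [← Finset.mul_sum, Finset.sum_add_distrib, Finset.sum_const, Finset.card_univ,
          nsmul_eq_mul]
        have h2 := hA x
        have h3 : (1 / (Fintype.card Lam : ℝ)) * D lam x * (1 / (Fintype.card K : ℝ)) *
            (∑ u : K, (if (Sum.inr (Sum.inl u) : X ⊕ (K ⊕ (Lam × C))) ∈
              (T.path (cAll x)).take t then (1:ℝ) else 0)) ≤
            (1 / (Fintype.card Lam : ℝ)) * D lam x * (1 / (Fintype.card K : ℝ)) * t := by
          have := h0 lam x
          exact mul_le_mul_of_nonneg_left h2 (by positivity)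
        have h4 : (1 / (Fintype.card Lam : ℝ)) * D lam x * (1 / (Fintype.card K : ℝ)) * t ≤
            (1 / (Fintype.card Lam : ℝ)) * D lam x * (1 / 100) := by
          have h5 := h0 lam x
          have h6 : (1 / (Fintype.card K : ℝ)) * t ≤ 1 / 100 := by
            rw [one_div_mul_eq_div]; exact hK'
          rw [mul_assoc]
          exact mul_le_mul_of_nonneg_left h6 (by positivity)
        have h5 : (1 / (Fintype.card Lam : ℝ)) * D lam x * (1 / (Fintype.card K : ℝ)) *
            ((Fintype.card K : ℝ) * (xtree lam t false T).fn x) =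
            (1 / (Fintype.card Lam : ℝ)) * (D lam x * (xtree lam t false T).fn x) := by
          field_simp
        rw [mul_add, h5]
        linarith
    _ ≤ 3 / 100 := by
        simp only [Finset.sum_add_distrib]
        simp only [← Finset.mul_sum, ← Finset.sum_mul, h1]
        have h6 : (1 / (Fintype.card Lam : ℝ)) * ∑ lam : Lam, ∑ x,
            D lam x * (xtree lam t false T).fn x ≤ 2 / 100 := by
          rw [one_div, inv_mul_le_iff₀ hLpos]; exact hB
        have h7 : (1 / (Fintype.card Lam : ℝ)) * (1:ℝ) * ∑ _lam : Lam, (1 / 100 : ℝ) = 1 / 100 := by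
          rw [Finset.sum_const, Finset.card_univ, nsmul_eq_mul]
          field_simp
        linarith

end column

section resample
variable {Col G : Type} [Fintype Col] [DecidableEq Col] [Fintype G]

/-- resampling one coordinate of a product distribution -/
theorem resample (ω : G → ℝ) (hω : ∑ h, ω h = 1) (b : Col) (F : (Col → G) → ℝ) :
    ∑ g : Col → G, (∏ j, ω (g j)) * F g =
      ∑ g : Col → G, (∏ j, ω (g j)) * ∑ h, ω h * F (Function.update g b h) := by
  have h1 : ∑ g : Col → G, (∏ j, ω (g j)) * F g =
      ∑ p : (Col → G) × G, (∏ j, ω (p.1 j)) * ω p.2 * F p.1 := by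
    rw [Fintype.sum_prod_type]
    refine Finset.sum_congr rfl fun g _ => ?_
    have : ∀ h, (∏ j, ω (g j)) * ω h * F g = ((∏ j, ω (g j)) * F g) * ω h := fun h => by ring
    simp only [this]
    rw [← Finset.mul_sum, hω, mul_one]
  have h2 : ∑ g : Col → G, (∏ j, ω (g j)) * ∑ h, ω h * F (Function.update g b h) =
      ∑ p : (Col → G) × G, (∏ j, ω (p.1 j)) * ω p.2 * F (Function.update p.1 b p.2) := by
    rw [Fintype.sum_prod_type]
    refine Finset.sum_congr rfl fun g _ => ?_
    rw [Finset.mul_sum]
    refine Finset.sum_congr rfl fun h _ => ?_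
    ring
  rw [h1, h2]
  let e : (Col → G) × G ≃ (Col → G) × G :=
    { toFun := fun p => (Function.update p.1 b p.2, p.1 b)
      invFun := fun p => (Function.update p.1 b p.2, p.1 b)
      left_inv := fun p => by
        ext j
        · simp
        · simp
      right_inv := fun p => by
        ext j
        · simp
        · simp }
  rw [← Equiv.sum_comp e (fun p => (∏ j, ω (p.1 j)) * ω p.2 * F p.1)]
  refine Finset.sum_congr rfl fun p _ => ?_
  simp only [e, Equiv.coe_fn_mk]
  congr 1
  rw [← Finset.mul_prod_erase _ _ (Finset.mem_univ b),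
    ← Finset.mul_prod_erase Finset.univ (fun j => ω (p.1 j)) (Finset.mem_univ b)]
  have : ∏ j ∈ Finset.univ.erase b, ω (Function.update p.1 b p.2 j) =
      ∏ j ∈ Finset.univ.erase b, ω (p.1 j) := by
    refine Finset.prod_congr rfl fun j hj => ?_
    rw [Function.update_of_ne (Finset.ne_of_mem_erase hj)]
  rw [this, Function.update_self]
  ring

end resample

/-- A randomized algorithm of depth `r` with error at most `1/3` on every input for `GFun bad`
has `M * t ≤ 4 * r` where `M` is the number of columns. -/
theorem gap_lower {Col X Y Lam E : Type} [Fintype Col] [DecidableEq Col] [Nonempty Col]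
    [Fintype X] [DecidableEq X] [Fintype Y] [DecidableEq Y] [Fintype Lam] [DecidableEq Lam]
    [Nonempty Lam] [Fintype E] [DecidableEq E] (kw t : ℕ) (ht : 1 ≤ t)
    (bad : E → Lam → (X ⊕ Y → Bool) → Bool)
    (D : Lam → (X → Bool) → ℝ) (h0 : ∀ lam x, 0 ≤ D lam x) (h1 : ∀ lam, ∑ x, D lam x = 1)
    (hcert : ∀ lam (G : Finset (X → Bool)),
      (∀ x, (∃ y, ∀ e, bad e lam (Sum.elim x y) = false) → x ∈ G) →
      99 / 100 ≤ ∑ x ∈ G, D lam x)
    (hide : ∀ lam (T : Tr X), T.depth ≤ t → |∑ x, D lam x * T.fn x - ext T.fn 0| ≤ 1 / 100)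
    (hK : 100 * t ≤ 2 ^ kw) (hLam : 100 * t ≤ Fintype.card Lam)
    (r s : ℕ) (w : Fin s → ℝ) (hw : ∀ j, 0 ≤ w j) (hw1 : ∑ j, w j = 1)
    (T : Fin s → Tr (GIdx Col X Y Lam kw)) (hT : ∀ j, (T j).depth ≤ r)
    (hcomp : ∀ x, 2 / 3 ≤ ∑ j, if (T j).eval x = GFun bad x then w j else 0) :
    Fintype.card Col * t ≤ 4 * r := by
  classical
  -- abbreviations
  let K := Fin kw → Bool
  let C := (Col × Fin kw) ⊕ Y
  let G := Lam × ((X → Bool) × K)
  let ω : G → ℝ := fun g => (1 / (Fintype.card Lam : ℝ)) * D g.1 g.2.1 * (1 / (Fintype.card K : ℝ))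
  have hKpos : (0:ℝ) < Fintype.card K := by exact_mod_cast Fintype.card_pos
  have hLpos : (0:ℝ) < Fintype.card Lam := by exact_mod_cast Fintype.card_pos
  have hω0 : ∀ g, 0 ≤ ω g := fun g => by
    have := h0 g.1 g.2.1
    simp only [ω]; positivity
  have hω1 : ∑ g, ω g = 1 := by
    simp only [ω, G]
    rw [Fintype.sum_prod_type]
    simp only [Fintype.sum_prod_type, Finset.sum_const, Finset.card_univ, nsmul_eq_mul]
    have e1 : ∀ (a : Lam) (x : X → Bool), (Fintype.card K : ℝ) *
        (1 / (Fintype.card Lam : ℝ) * D a x * (1 / (Fintype.card K : ℝ))) =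
        1 / (Fintype.card Lam : ℝ) * D a x := by
      intro a x; field_simp
    simp only [e1, ← Finset.mul_sum, h1]
    rw [Finset.sum_const, Finset.card_univ, nsmul_eq_mul]
    field_simp
  -- inputs
  let in0 : (Col → G) → GIdx Col X Y Lam kw → Bool := fun g p =>
    cOne (C := C) (Lam := Lam) (g p.1).2.1 (g p.1).2.2 p.2
  let good : Col → (Col → G) → Prop := fun b g =>
    ∃ y : Y → Bool, ∀ e, bad e (g b).1 (Sum.elim (g b).2.1 y) = false
  let cert : Col → (Col → G) → (Y → Bool) := fun b g =>
    if h : good b g then h.choose else fun _ => false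
  let in1 : Col → (Col → G) → GIdx Col X Y Lam kw → Bool := fun b g p =>
    if p.1 = b then
      match p.2 with
      | Sum.inl v => (g b).2.1 v
      | Sum.inr (Sum.inl _) => true
      | Sum.inr (Sum.inr (lam, Sum.inl (i, l))) =>
          if lam = (g b).1 then (g i).2.2 l else false
      | Sum.inr (Sum.inr (lam, Sum.inr v)) =>
          if lam = (g b).1 then cert b g v else false
    else in0 g p
  -- GFun on the inputs
  have hG0 : ∀ g, GFun bad (in0 g) = false := by
    intro g
    unfold GFun
    rw [decide_eq_false_iff_not]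
    rintro ⟨b, lam, hk, -, -⟩
    have := hk (g b).2.2
    simp [gKill, in0, cOne] at this
  have hG1 : ∀ b g, good b g → GFun bad (in1 b g) = true := by
    intro b g hg
    unfold GFun
    rw [decide_eq_true_iff]
    refine ⟨b, (g b).1, fun u => ?_, fun i hi => ?_, fun e => ?_⟩
    · simp [gKill, in1]
    · have e1 : gPtr (in1 b g) b (g b).1 i = (g i).2.2 := by
        funext l
        simp [gPtr, in1]
      rw [e1]
      simp [gKill, in1, hi, in0, cOne]
    · have e1 : gHint (in1 b g) b = (g b).2.1 := by
        funext v
        simp [gHint, in1]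
      have e2 : gCert (in1 b g) b (g b).1 = cert b g := by
        funext v
        simp [gCert, in1]
      rw [e1, e2]
      simp only [cert, dif_pos hg]
      exact hg.choose_spec e
  -- hits
  let tb : Tr (GIdx Col X Y Lam kw) → Col → (Col → G) → Tr (X ⊕ (K ⊕ (Lam × C))) :=
    fun T b g => projT b (in0 g) T
  have hdiff : ∀ (T : Tr (GIdx Col X Y Lam kw)) (b : Col) (g : Col → G),
      T.eval (in1 b g) ≠ T.eval (in0 g) →
      ∃ v ∈ (tb T b g).path (cOne (g b).2.1 (g b).2.2),
        v = Sum.inr (Sum.inl (g b).2.2) ∨ isCell (g b).1 v = true := by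
    intro T b g hne
    by_contra hcon
    push Not at hcon
    apply hne
    apply Tr.eval_eq_of_agree
    rintro ⟨i, v⟩ hv
    by_cases hi : i = b
    · subst hi
      have hmem : v ∈ (tb T i g).path (cOne (g i).2.1 (g i).2.2) := by
        have := path_projT i (in0 g) T
        have e1 : (fun v => in0 g (i, v)) = cOne (C := C) (Lam := Lam) (g i).2.1 (g i).2.2 := rfl
        rw [e1] at this
        simp only [tb]
        rw [this, List.mem_map]
        exact ⟨(i, v), by rw [List.mem_filter]; exact ⟨hv, by simp⟩, rfl⟩
      have h2 := hcon v hmem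
      match v with
      | Sum.inl v => simp [in1, in0, cOne]
      | Sum.inr (Sum.inl u) =>
        have hu : u ≠ (g i).2.2 := by
          rintro rfl
          exact h2.1 rfl
        simp [in1, in0, cOne, hu]
      | Sum.inr (Sum.inr (lam, Sum.inl (i', l))) =>
        have hlam : lam ≠ (g i).1 := by
          rintro rfl
          exact h2.2 (by simp [isCell])
        simp [in1, in0, cOne, hlam]
      | Sum.inr (Sum.inr (lam, Sum.inr y)) =>
        have hlam : lam ≠ (g i).1 := by
          rintro rfl
          exact h2.2 (by simp [isCell])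
        simp [in1, in0, cOne, hlam]
    · simp only [in1]
      rw [if_neg hi]
  -- the bound for one tree
  set M : ℝ := (Fintype.card Col : ℝ) with hM
  let W : (Col → G) → ℝ := fun g => ∏ j, ω (g j)
  have hW0 : ∀ g, 0 ≤ W g := fun g => Finset.prod_nonneg fun j _ => hω0 _
  have hW1 : ∑ g, W g = 1 := by
    have := Finset.prod_univ_sum (fun _ : Col => (Finset.univ : Finset G)) (fun _ g => ω g)
    simp only [hω1, Finset.prod_const_one, Fintype.piFinset_univ] at this
    exact this.symm
  let q : Tr (GIdx Col X Y Lam kw) → Col → (Col → G) → ℝ := fun T b g =>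
    (((T.path (in0 g)).filter (fun v => v.1 = b)).length : ℝ)
  have htpos : (0:ℝ) < t := by exact_mod_cast ht
  have hptw : ∀ (T : Tr (GIdx Col X Y Lam kw)) (b : Col) (g : Col → G),
      (if T.eval (in1 b g) = true then (1:ℝ) else 0) - (if T.eval (in0 g) = true then 1 else 0) ≤
      q T b g / t + hit t (tb T b g) (g b).1 (g b).2.1 (g b).2.2 := by
    intro T b g
    have hq0 : 0 ≤ q T b g / t := by simp only [q]; positivity
    have hh0 : 0 ≤ hit t (tb T b g) (g b).1 (g b).2.1 (g b).2.2 := by
      unfold hit; split_ifs <;> norm_num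
    by_cases heq : T.eval (in1 b g) = T.eval (in0 g)
    · rw [heq, sub_self]; linarith
    · have h2 : (if T.eval (in1 b g) = true then (1:ℝ) else 0) -
          (if T.eval (in0 g) = true then 1 else 0) ≤ 1 := by
        split_ifs <;> norm_num
      refine h2.trans ?_
      obtain ⟨v, hv, hv2⟩ := hdiff T b g heq
      by_cases htk : v ∈ ((tb T b g).path (cOne (g b).2.1 (g b).2.2)).take t
      · have : hit t (tb T b g) (g b).1 (g b).2.1 (g b).2.2 = 1 := by
          unfold hit
          rw [if_pos ⟨v, htk, hv2⟩]
        rw [this]; linarith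
      · have hlen : t < ((tb T b g).path (cOne (g b).2.1 (g b).2.2)).length := by
          by_contra hcon
          push Not at hcon
          rw [List.take_of_length_le hcon] at htk
          exact htk hv
        have e1 : ((tb T b g).path (cOne (g b).2.1 (g b).2.2)).length =
            ((T.path (in0 g)).filter (fun v => v.1 = b)).length := by
          have := path_projT b (in0 g) T
          have e1 : (fun v => in0 g (b, v)) = cOne (C := C) (Lam := Lam) (g b).2.1 (g b).2.2 := rfl
          rw [e1] at this
          simp only [tb]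
          rw [this, List.length_map]
        rw [e1] at hlen
        have : 1 ≤ q T b g / t := by
          rw [le_div_iff₀ htpos, one_mul]
          simp only [q]
          exact_mod_cast hlen.le
        linarith
  have hcol : ∀ (T : Tr (GIdx Col X Y Lam kw)) (b : Col),
      ∑ g, W g * hit t (tb T b g) (g b).1 (g b).2.1 (g b).2.2 ≤ 3 / 100 := by
    intro T b
    have h2 := resample ω hω1 b (fun g => hit t (tb T b g) (g b).1 (g b).2.1 (g b).2.2)
    have h3 : ∑ g, W g * hit t (tb T b g) (g b).1 (g b).2.1 (g b).2.2 =
      ∑ g : Col → G, (∏ j, ω (g j)) * hit t (tb T b g) (g b).1 (g b).2.1 (g b).2.2 := rfl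
    rw [h3, h2]
    have h4 : ∀ g : Col → G, ∑ h, ω h * hit t (tb T b (Function.update g b h))
        (Function.update g b h b).1 (Function.update g b h b).2.1
        (Function.update g b h b).2.2 ≤ 3 / 100 := by
      intro g
      have e1 : ∀ h : G, tb T b (Function.update g b h) = tb T b g := by
        intro h
        simp only [tb]
        apply projT_congr
        rintro ⟨i, v⟩ hi
        simp only [in0]
        rw [Function.update_of_ne hi]
      simp only [e1, Function.update_self]
      have h5 := column_bound (K := K) (C := C) t D h0 h1 hide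
        (by simpa [K, Fintype.card_fun] using hK) hLam (tb T b g)
      simp only [G, ω, Fintype.sum_prod_type]
      exact h5
    refine (Finset.sum_le_sum fun g _ => mul_le_mul_of_nonneg_left (h4 g) (hW0 g)).trans ?_
    rw [← Finset.sum_mul]
    exact le_of_eq (by rw [hW1, one_mul])
  have htree : ∀ (T : Tr (GIdx Col X Y Lam kw)), T.depth ≤ r →
      ∑ b : Col, ∑ g, W g * ((if T.eval (in1 b g) = true then (1:ℝ) else 0) -
        (if T.eval (in0 g) = true then 1 else 0)) ≤ r / t + M * (3 / 100) := by
    intro T hTr
    have h2 : ∑ b : Col, ∑ g, W g * ((if T.eval (in1 b g) = true then (1:ℝ) else 0) -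
        (if T.eval (in0 g) = true then 1 else 0)) ≤
        ∑ b : Col, ∑ g, (W g * (q T b g / t) +
          W g * hit t (tb T b g) (g b).1 (g b).2.1 (g b).2.2) := by
      refine Finset.sum_le_sum fun b _ => Finset.sum_le_sum fun g _ => ?_
      rw [← mul_add]
      exact mul_le_mul_of_nonneg_left (hptw T b g) (hW0 g)
    refine h2.trans ?_
    simp only [Finset.sum_add_distrib]
    have h3 : ∑ b : Col, ∑ g, W g * (q T b g / t) ≤ r / t := by
      rw [Finset.sum_comm]
      have h4 : ∀ g, ∑ b : Col, W g * (q T b g / t) ≤ W g * (r / t) := by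
        intro g
        rw [← Finset.mul_sum, ← Finset.sum_div]
        refine mul_le_mul_of_nonneg_left ?_ (hW0 g)
        refine div_le_div_of_nonneg_right ?_ htpos.le
        simp only [q]
        have h5 := sum_filter_length (T.path (in0 g))
        have h6 := (Tr.path_length_le (in0 g) T).trans hTr
        rw [← h5] at h6
        exact_mod_cast h6
      refine (Finset.sum_le_sum fun g _ => h4 g).trans ?_
      rw [← Finset.sum_mul, hW1, one_mul]
    have h5 : ∑ b : Col, ∑ g, W g * hit t (tb T b g) (g b).1 (g b).2.1 (g b).2.2 ≤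
        M * (3 / 100) := by
      refine (Finset.sum_le_sum fun b _ => hcol T b).trans ?_
      rw [Finset.sum_const, Finset.card_univ, nsmul_eq_mul]
    linarith
  -- probability of good
  have hgood : ∀ b : Col, 99 / 100 ≤ ∑ g, W g * (if good b g then (1:ℝ) else 0) := by
    intro b
    have h2 := resample ω hω1 b (fun g => if good b g then (1:ℝ) else 0)
    have h3 : ∑ g, W g * (if good b g then (1:ℝ) else 0) =
      ∑ g : Col → G, (∏ j, ω (g j)) * (if good b g then (1:ℝ) else 0) := rfl
    rw [h3, h2]
    have h4 : ∀ g : Col → G, 99 / 100 ≤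
        ∑ h, ω h * (if good b (Function.update g b h) then (1:ℝ) else 0) := by
      intro g
      simp only [good, Function.update_self, G, ω, Fintype.sum_prod_type]
      have e1 : ∀ (l : Lam) (x : X → Bool), ∑ u : K, 1 / (Fintype.card Lam : ℝ) * D l x *
          (1 / (Fintype.card K : ℝ)) *
          (if (∃ y : Y → Bool, ∀ e, bad e l (Sum.elim x y) = false) then (1:ℝ) else 0) =
          1 / (Fintype.card Lam : ℝ) * (D l x *
          (if (∃ y : Y → Bool, ∀ e, bad e l (Sum.elim x y) = false) then (1:ℝ) else 0)) := by
        intro l x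
        rw [Finset.sum_const, Finset.card_univ, nsmul_eq_mul]
        field_simp
      simp only [e1]
      have h5 : ∀ l : Lam, 99 / 100 ≤ ∑ x, D l x *
          (if (∃ y : Y → Bool, ∀ e, bad e l (Sum.elim x y) = false) then (1:ℝ) else 0) := by
        intro l
        have h6 := hcert l (Finset.univ.filter fun x =>
          ∃ y : Y → Bool, ∀ e, bad e l (Sum.elim x y) = false) (fun x hx => by
            simp only [Finset.mem_filter, Finset.mem_univ, true_and]; exact hx)
        rw [Finset.sum_filter] at h6
        refine h6.trans (le_of_eq ?_)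
        refine Finset.sum_congr rfl fun x _ => ?_
        rw [mul_ite, mul_one, mul_zero]
      have h7 := Finset.sum_le_sum (s := (Finset.univ : Finset Lam)) fun l _ =>
        mul_le_mul_of_nonneg_left (h5 l) (show 0 ≤ 1 / (Fintype.card Lam : ℝ) by positivity)
      rw [Finset.sum_const, Finset.card_univ, nsmul_eq_mul] at h7
      have h8 : (Fintype.card Lam : ℝ) * (1 / (Fintype.card Lam : ℝ) * (99 / 100)) = 99 / 100 := by
        field_simp
      rw [h8] at h7
      refine h7.trans (le_of_eq ?_)
      refine Finset.sum_congr rfl fun l _ => ?_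
      rw [Finset.mul_sum]
    calc (99:ℝ) / 100 = ∑ g, W g * (99 / 100) := by rw [← Finset.sum_mul, hW1, one_mul]
      _ ≤ _ := Finset.sum_le_sum fun g _ => mul_le_mul_of_nonneg_left (h4 g) (hW0 g)
  -- success probabilities
  have hs0 : ∀ g, ∑ j, w j * (if (T j).eval (in0 g) = true then (1:ℝ) else 0) ≤ 1 / 3 := by
    intro g
    have h2 := hcomp (in0 g)
    rw [hG0] at h2
    have h3 : ∑ j, w j * (if (T j).eval (in0 g) = true then (1:ℝ) else 0) +
        ∑ j, (if (T j).eval (in0 g) = false then w j else 0) = 1 := by
      rw [← Finset.sum_add_distrib]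
      refine Eq.trans ?_ hw1
      refine Finset.sum_congr rfl fun j _ => ?_
      by_cases hj : (T j).eval (in0 g) = true
      · have hj2 : ¬ (T j).eval (in0 g) = false := by rw [hj]; simp
        rw [if_pos hj, if_neg hj2, mul_one, add_zero]
      · have hj2 : (T j).eval (in0 g) = false := by simpa using hj
        rw [if_neg hj, if_pos hj2, mul_zero, zero_add]
    linarith
  have hs1 : ∀ b g, 2 / 3 * (if good b g then (1:ℝ) else 0) ≤
      ∑ j, w j * (if (T j).eval (in1 b g) = true then (1:ℝ) else 0) := by
    intro b g
    by_cases hg : good b g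
    · have h2 := hcomp (in1 b g)
      rw [hG1 b g hg] at h2
      rw [if_pos hg, mul_one]
      refine h2.trans (le_of_eq ?_)
      refine Finset.sum_congr rfl fun j _ => ?_
      rw [mul_ite, mul_one, mul_zero]
    · rw [if_neg hg, mul_zero]
      exact Finset.sum_nonneg fun j _ => mul_nonneg (hw j) (by split_ifs <;> norm_num)
  -- conclusion
  have hup : ∑ j, w j * (∑ b : Col, ∑ g, W g * ((if (T j).eval (in1 b g) = true then (1:ℝ) else 0) -
        (if (T j).eval (in0 g) = true then 1 else 0))) ≤ r / t + M * (3 / 100) := by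
    refine (Finset.sum_le_sum fun j _ => mul_le_mul_of_nonneg_left (htree (T j) (hT j)) (hw j)).trans
      ?_
    rw [← Finset.sum_mul, hw1, one_mul]
  have hlow : M * (99 / 100 * (2 / 3) - 1 / 3) ≤
      ∑ j, w j * (∑ b : Col, ∑ g, W g * ((if (T j).eval (in1 b g) = true then (1:ℝ) else 0) -
        (if (T j).eval (in0 g) = true then 1 else 0))) := by
    have e1 : ∑ j, w j * (∑ b : Col, ∑ g, W g * ((if (T j).eval (in1 b g) = true then (1:ℝ) else 0) -
        (if (T j).eval (in0 g) = true then 1 else 0))) =
        ∑ b : Col, ∑ g, W g * (∑ j, w j * (if (T j).eval (in1 b g) = true then (1:ℝ) else 0) -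
          ∑ j, w j * (if (T j).eval (in0 g) = true then (1:ℝ) else 0)) := by
      simp only [Finset.mul_sum]
      rw [Finset.sum_comm]
      refine Finset.sum_congr rfl fun b _ => ?_
      rw [Finset.sum_comm]
      refine Finset.sum_congr rfl fun g _ => ?_
      rw [← Finset.sum_sub_distrib, Finset.mul_sum]
      refine Finset.sum_congr rfl fun j _ => ?_
      ring
    rw [e1]
    have h2 : ∀ b : Col, 99 / 100 * (2 / 3) - 1 / 3 ≤
        ∑ g, W g * (∑ j, w j * (if (T j).eval (in1 b g) = true then (1:ℝ) else 0) -
          ∑ j, w j * (if (T j).eval (in0 g) = true then (1:ℝ) else 0)) := by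
      intro b
      have h3 : ∑ g, W g * (2 / 3 * (if good b g then (1:ℝ) else 0) - 1 / 3) ≤
          ∑ g, W g * (∑ j, w j * (if (T j).eval (in1 b g) = true then (1:ℝ) else 0) -
          ∑ j, w j * (if (T j).eval (in0 g) = true then (1:ℝ) else 0)) := by
        refine Finset.sum_le_sum fun g _ => mul_le_mul_of_nonneg_left ?_ (hW0 g)
        have := hs0 g
        have := hs1 b g
        linarith
      refine le_trans ?_ h3
      have h4 : ∑ g, W g * (2 / 3 * (if good b g then (1:ℝ) else 0) - 1 / 3) =
          2 / 3 * ∑ g, W g * (if good b g then (1:ℝ) else 0) - 1 / 3 := by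
        have : ∀ g, W g * (2 / 3 * (if good b g then (1:ℝ) else 0) - 1 / 3) =
            2 / 3 * (W g * (if good b g then (1:ℝ) else 0)) - W g * (1 / 3) := fun g => by ring
        simp only [this]
        rw [Finset.sum_sub_distrib, ← Finset.mul_sum, ← Finset.sum_mul, hW1, one_mul]
      rw [h4]
      have := hgood b
      linarith
    have h3 := Finset.sum_le_sum (s := (Finset.univ : Finset Col)) fun b _ => h2 b
    rw [Finset.sum_const, Finset.card_univ, nsmul_eq_mul] at h3
    exact h3
  have hM0 : 0 ≤ M := Nat.cast_nonneg _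
  have hfin : M * t ≤ 4 * r := by
    have h2 := hlow.trans hup
    have h3 : M * (2966 / 10000) ≤ r / t := by nlinarith
    rw [le_div_iff₀ htpos] at h3
    nlinarith [mul_nonneg hM0 htpos.le]
  rw [hM] at hfin
  exact_mod_cast hfin

end Crest.Agent.QG
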