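import Crest.Agent.QG.ProcLib

/-!
# Chunk B: the staged pointer search
-/

set_option autoImplicit false

namespace Crest.Agent.QG

open Finset

variable {ι : Type}

/-! ### repeat until flagged -/

/-- Repeat a flagged procedure `n` times and keep the first flagged outcome (default `r0`). -/
theorem Proc.repeatFlag {R : Type} [Fintype R] [DecidableEq R] {T : ℕ}
    {S : (ι → Bool) → (R × Bool) → ℝ} (hS : Proc T S) (r0 : R) (n : ℕ) :
    ∃ D : (ι → Bool) → R → ℝ, Proc (n * T) D ∧ ∀ x (A : Finset R),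
      (∑ r, S x (r, true)) * (∑ r ∈ A, D x r) ≤
        (∑ r ∈ A, S x (r, true)) +
          (∑ r, S x (r, true)) * (1 - ∑ r, S x (r, true)) ^ n := by
  induction n with
  | zero =>
    refine ⟨_, (Proc.det_const (ι := ι) r0).congr (by ring) (fun _ _ => rfl), ?_⟩
    intro x A
    have h1 : 0 ≤ ∑ r ∈ A, S x (r, true) :=
      Finset.sum_nonneg (fun r _ => Proc.nonneg hS x _)
    have h2 : 0 ≤ ∑ r, S x (r, true) := Finset.sum_nonneg (fun r _ => Proc.nonneg hS x _)
    have h3 : (∑ r ∈ A, det (fun _ : ι → Bool => r0) x r) ≤ 1 := by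
      simp only [det]
      rw [Finset.sum_ite_eq]
      split_ifs <;> norm_num
    rw [pow_zero, mul_one]
    nlinarith
  | succ n ih =>
    obtain ⟨D, hD, hDA⟩ := ih
    let h : (R × Bool) → (ι → Bool) → R → ℝ := fun o => if o.2 then det (fun _ => o.1) else D
    have hh : ∀ o, Proc (n * T) (h o) := by
      rintro ⟨r, f⟩
      cases f
      · exact hD
      · exact (Proc.det_const (ι := ι) r).mono (Nat.zero_le _)
    refine ⟨_, (Proc.bind hS hh).congr (by ring) (fun _ _ => rfl), ?_⟩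
    intro x A
    set w := ∑ r, S x (r, true) with hw
    have hsum := Proc.sum_one hS x
    rw [Fintype.sum_prod_type] at hsum
    simp only [Fintype.sum_bool] at hsum
    rw [Finset.sum_add_distrib] at hsum
    have hq : ∑ r, S x (r, false) = 1 - w := by linarith
    have hw1 : 0 ≤ 1 - w := by
      rw [← hq]
      exact Finset.sum_nonneg (fun r _ => Proc.nonneg hS x _)
    have h1 : ∑ r ∈ A, ∑ o, S x o * h o x r =
        (∑ r ∈ A, S x (r, true)) + (1 - w) * ∑ r ∈ A, D x r := by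
      have h2 : ∀ r, ∑ o, S x o * h o x r = S x (r, true) + (1 - w) * D x r := by
        intro r
        rw [Fintype.sum_prod_type]
        simp only [Fintype.sum_bool]
        rw [Finset.sum_add_distrib]
        congr 1
        · rw [Finset.sum_eq_single r]
          · simp [h, det]
          · intro r' _ hr'
            simp only [h, if_true, det]
            rw [if_neg hr', mul_zero]
          · intro hr
            exact absurd (Finset.mem_univ _) hr
        · rw [← hq, Finset.sum_mul]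
          rfl
      simp_rw [h2]
      rw [Finset.sum_add_distrib, Finset.mul_sum]
    rw [h1]
    have h3 := hDA x A
    have h4 := mul_le_mul_of_nonneg_left h3 hw1
    rw [pow_succ]
    nlinarith

section Stage

variable {Col Lam : Type} [Fintype Col] [DecidableEq Col] [Fintype Lam] [DecidableEq Lam]

/-- the failing columns of a reference -/
def badCol (fail : (Col × Lam) → Col → Bool) (r : Col × Lam) (i : Col) : Bool :=
  decide (i ≠ r.1) && fail r i

/-- number of failing pointers -/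
def Fc (fail : (Col × Lam) → Col → Bool) (r : Col × Lam) : ℕ :=
  (univ.filter fun i => badCol fail r i = true).card

/-- the candidate columns of a reference -/
def inB (fail : (Col × Lam) → Col → Bool) (r : Col × Lam) (i : Col) : Bool :=
  decide (i = r.1) || fail r i

omit [Fintype Lam] [DecidableEq Lam] in
theorem card_inB (fail : (Col × Lam) → Col → Bool) (r : Col × Lam) :
    (univ.filter fun i => inB fail r i = true).card = Fc fail r + 1 := by
  have h : (univ.filter fun i => inB fail r i = true) =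
      insert r.1 (univ.filter fun i => badCol fail r i = true) := by
    ext i
    simp only [mem_filter, mem_univ, true_and, mem_insert, inB, badCol, Bool.or_eq_true,
      decide_eq_true_eq, Bool.and_eq_true]
    tauto
  rw [h, Finset.card_insert_of_notMem]
  · rfl
  · simp [badCol]

/-- the inner procedure of one stage. -/
theorem inner_proc [Nonempty Col]
    {fail : (ι → Bool) → (Col × Lam) → Col → Bool} {Tf : ℕ}
    (hf : ∀ r i, Proc Tf (det fun x => fail x r i)) {Ta : ℕ}
    {pa : Col → (ι → Bool) → Lam → ℝ} (hpa : ∀ j, Proc Ta (pa j)) (ℓ rep : ℕ) (r : Col × Lam) :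
    ∃ S : (ι → Bool) → ((Col × Lam) × Bool) → ℝ,
      Proc (2 * 2 ^ ℓ * Tf + (Ta + rep * (2 * 2 ^ (ℓ + 1) * Tf))) S ∧ ∀ x,
      ∃ (c : ℝ) (v : Col × Lam → ℝ), 0 ≤ c ∧
        c * (((Fc (fail x) r : ℝ) + 1) / Fintype.card Col) ≤ 1 ∧
        (1 / 4) * min ((4 : ℝ) ^ ℓ) ((Fintype.card Col : ℝ) / ((Fc (fail x) r : ℝ) + 1)) ≤ c ∧
        (∀ r', 0 ≤ v r') ∧ (∀ r', v r' ≤ 1) ∧ (∀ r', Fc (fail x) r' = 0 → v r' = 1) ∧
        (∀ r', (Fintype.card Col : ℝ) ≤ 4 ^ (ℓ + 1) * (Fc (fail x) r' : ℝ) →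
          v r' ≤ (3 / 4) ^ rep) ∧
        ∀ r' : Col × Lam, S x (r', true) =
          c * (1 / (Fintype.card Col : ℝ)) * (if inB (fail x) r r'.1 = true then 1 else 0) *
            pa r'.1 x r'.2 * v r' := by
  have hM : (0 : ℝ) < Fintype.card Col := by exact_mod_cast Fintype.card_pos
  -- step 1
  have hu : Proc (ι := ι) 0 (fun _ => fun _ : Col => 1 / (Fintype.card Col : ℝ)) :=
    Proc.pure _ (fun _ => by positivity) (by
      rw [Finset.sum_const, Finset.card_univ, nsmul_eq_mul]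
      field_simp)
  have h1 : Proc Tf (fun x (o : Col × Bool) =>
      (1 / (Fintype.card Col : ℝ)) * (if inB (fail x) r o.1 = o.2 then 1 else 0)) := by
    refine (Proc.bind hu (fun i => (hf r i).det_map
      (fun f => ((i, decide (i = r.1) || f) : Col × Bool)))).congr (by ring) ?_
    rintro x ⟨i, f⟩
    rw [Finset.sum_eq_single i]
    · simp only [det, inB, Prod.mk.injEq, true_and]
      congr!
    · intro i' _ hi'
      simp only [det, Prod.mk.injEq]
      rw [if_neg (fun h => hi' h.1), mul_zero]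
    · intro h
      exact absurd (Finset.mem_univ _) h
  obtain ⟨p1, c1, hp1, hc1⟩ := Proc.amplify h1 (fun o => o.2) (2 ^ ℓ) (by positivity)
  -- the test
  have hver : ∀ r' : Col × Lam, ∃ p : (ι → Bool) → Bool → ℝ,
      Proc (rep * (2 * 2 ^ (ℓ + 1) * Tf)) p ∧ ∀ x,
      ((∀ e, badCol (fail x) r' e = false) → p x true = 1) ∧
      ((Fintype.card Col : ℝ) ≤ ((2 ^ (ℓ + 1) : ℕ) : ℝ) ^ 2 *
        ((univ.filter fun e => badCol (fail x) r' e = true).card : ℝ) →
        p x true ≤ (3 / 4) ^ rep) := by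
    intro r'
    exact Proc.verify (fun x e => badCol (fail x) r' e)
      (fun e => (hf r' e).det_map (fun f => decide (e ≠ r'.1) && f)) (2 ^ (ℓ + 1)) rep
      (by positivity)
  choose pver hpver hpver2 using hver
  let mid : (Col × Bool) → (ι → Bool) → ((Col × Lam) × Bool) → ℝ := fun o =>
    if o.2 then (fun x o' => ∑ lam, pa o.1 x lam *
      ∑ f, if ((o.1, lam), f) = o' then pver (o.1, lam) x f else 0)
    else det (fun _ => (r, false))
  have hmid : ∀ o, Proc (Ta + rep * (2 * 2 ^ (ℓ + 1) * Tf)) (mid o) := by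
    rintro ⟨i, f⟩
    cases f
    · exact (Proc.det_const (ι := ι) (r, false)).mono (Nat.zero_le _)
    · exact Proc.bind (hpa i) (fun lam => (hpver (i, lam)).map (fun f => ((i, lam), f)))
  refine ⟨_, Proc.bind hp1 hmid, ?_⟩
  intro x
  obtain ⟨hc0, hcg, hc2, hc3⟩ := hc1 x
  have hP : (∑ o : Col × Bool, if o.2 = true then (1 / (Fintype.card Col : ℝ)) *
      (if inB (fail x) r o.1 = o.2 then 1 else 0) else 0) =
      ((Fc (fail x) r : ℝ) + 1) / Fintype.card Col := by
    rw [Fintype.sum_prod_type]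
    simp only [Fintype.sum_bool, if_true, Bool.false_eq_true, if_false, add_zero]
    rw [← Finset.mul_sum, Finset.sum_boole, card_inB]
    push_cast
    ring
  rw [hP] at hc2 hc3
  have hFpos : (0 : ℝ) < (Fc (fail x) r : ℝ) + 1 := by positivity
  refine ⟨c1 x, fun r' => pver r' x true, hc0, hc2, ?_, fun r' => Proc.nonneg (hpver r') x true,
    ?_, ?_, ?_, ?_⟩
  · have h := hc3 (by positivity)
    push_cast at h
    rw [one_div_div, ← pow_mul, mul_comm ℓ 2, pow_mul] at h
    norm_num at h ⊢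
    exact h
  · intro r'
    have h := Proc.sum_one (hpver r') x
    have h2 := Proc.nonneg (hpver r') x false
    rw [Fintype.sum_bool] at h
    show pver r' x true ≤ 1
    linarith
  · intro r' h0
    apply (hpver2 r' x).1
    intro e
    unfold Fc at h0
    rw [Finset.card_eq_zero, Finset.filter_eq_empty_iff] at h0
    simpa using h0 (Finset.mem_univ e)
  · intro r' h0
    apply (hpver2 r' x).2
    refine h0.trans (le_of_eq ?_)
    push_cast
    rw [← pow_mul, mul_comm (ℓ + 1) 2, pow_mul]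
    norm_num [Fc]
  · intro r'
    rw [Fintype.sum_prod_type]
    simp only [Fintype.sum_bool]
    have hz : ∀ i, mid (i, false) x (r', true) = 0 := by
      intro i
      simp [mid, det]
    have ht : ∀ i, mid (i, true) x (r', true) =
        if i = r'.1 then pa r'.1 x r'.2 * pver r' x true else 0 := by
      intro i
      simp only [mid, if_true, Fintype.sum_bool]
      split_ifs with hi
      · subst hi
        rw [Finset.sum_eq_single r'.2]
        · simp
        · intro lam _ hlam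
          rw [if_neg, if_neg]
          · simp
          · simp
          · intro h
            apply hlam
            have := congrArg (fun z : (Col × Lam) × Bool => z.1.2) h
            simpa using this
        · intro h
          exact absurd (Finset.mem_univ _) h
      · rw [Finset.sum_eq_zero]
        intro lam _
        rw [if_neg, if_neg]
        · simp
        · simp
        · intro h
          apply hi
          have := congrArg (fun z : (Col × Lam) × Bool => z.1.1) h
          simpa using this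
    simp only [hz, ht, mul_zero, add_zero]
    simp only [mul_ite, mul_zero, Finset.sum_ite_eq', Finset.mem_univ, if_true]
    rw [hcg (r'.1, true) rfl]
    by_cases hB : inB (fail x) r r'.1 = true
    · simp only [hB, if_true]
      ring
    · simp [hB]

/-- one stage. -/
theorem stage_proc [Nonempty Col] {μ : ℕ} (hcard : Fintype.card Col = 4 ^ μ)
    {fail : (ι → Bool) → (Col × Lam) → Col → Bool} {Tf : ℕ}
    (hf : ∀ r i, Proc Tf (det fun x => fail x r i)) {Ta : ℕ}
    {pa : Col → (ι → Bool) → Lam → ℝ} (hpa : ∀ j, Proc Ta (pa j)) (ℓ rep : ℕ) (hℓ : ℓ ≤ μ)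
    (r : Col × Lam) :
    ∃ D : (ι → Bool) → (Col × Lam) → ℝ,
      Proc (rep * (2 * (4 * 2 ^ (μ - ℓ)) *
        (2 * 2 ^ ℓ * Tf + (Ta + rep * (2 * 2 ^ (ℓ + 1) * Tf))))) D ∧ ∀ x (b : Col) (lb : Lam)
        (δ : ℝ), δ ≤ 1 / 2 → 0 ≤ δ → 1 - δ ≤ pa b x lb → 
        (∀ i, i ≠ b → fail x (b, lb) i = false) →
        (∀ r : Col × Lam, r.1 ≠ b → fail x r b = true) →
        Fc (fail x) r * 4 ^ ℓ ≤ 4 ^ μ →
        ∑ r' ∈ univ.filter (fun r' : Col × Lam => ¬ (Fc (fail x) r' * 4 ^ (ℓ + 1) ≤ 4 ^ μ ∧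
          (r'.1 = b → r'.2 = lb))), D x r' ≤
          (3 / 4) ^ rep + 16 * 4 ^ μ * (3 / 4) ^ rep + 2 * δ := by
  obtain ⟨S, hS, hS2⟩ := inner_proc hf hpa ℓ rep r
  obtain ⟨S', c3, hS', hc3⟩ := Proc.amplify hS (fun o => o.2) (4 * 2 ^ (μ - ℓ)) (by positivity)
  obtain ⟨D, hD, hDA⟩ := Proc.repeatFlag hS' r rep
  refine ⟨D, hD, ?_⟩
  intro x b lb δ hδ hδ0 hpab hb1 hb2 hinv
  obtain ⟨c, v, hc0, hc1, hc2, hv0, hv1, hv2, hv3, hSx⟩ := hS2 x
  obtain ⟨hd0, hdg, hd1, hd2⟩ := hc3 x
  set M : ℝ := (Fintype.card Col : ℝ) with hM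
  have hM4 : M = 4 ^ μ := by rw [hM, hcard]; push_cast; rfl
  have hMpos : 0 < M := by rw [hM4]; positivity
  have hSnn : ∀ o, 0 ≤ S x o := fun o => Proc.nonneg hS x o
  have hPf : (∑ o : (Col × Lam) × Bool, if o.2 = true then S x o else 0) =
      ∑ r', S x (r', true) := by
    rw [Fintype.sum_prod_type]
    simp
  rw [hPf] at hd1 hd2
  set Pf := ∑ r', S x (r', true) with hPfdef
  -- lower bound on c
  have hFc1 : ((Fc (fail x) r : ℝ) + 1) * 4 ^ ℓ ≤ 2 * M := by
    have h1 : (Fc (fail x) r : ℝ) * 4 ^ ℓ ≤ 4 ^ μ := by exact_mod_cast hinv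
    have h2 : (4 : ℝ) ^ ℓ ≤ 4 ^ μ := pow_le_pow_right₀ (by norm_num) hℓ
    rw [hM4]
    nlinarith
  have hFpos : (0 : ℝ) < (Fc (fail x) r : ℝ) + 1 := by positivity
  have hc_lb : (4 : ℝ) ^ ℓ / 8 ≤ c := by
    have h1 : (4 : ℝ) ^ ℓ / 2 ≤ M / ((Fc (fail x) r : ℝ) + 1) := by
      rw [div_le_div_iff₀ (by norm_num) hFpos]
      linarith
    have h2 : (4 : ℝ) ^ ℓ / 2 ≤ min ((4 : ℝ) ^ ℓ) (M / ((Fc (fail x) r : ℝ) + 1)) := by
      apply le_min _ h1
      have : (0 : ℝ) < 4 ^ ℓ := by positivity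
      linarith
    linarith
  have h4ℓ : (0 : ℝ) < 4 ^ ℓ := by positivity
  have hcpos : 0 < c := by linarith [div_pos h4ℓ (by norm_num : (0 : ℝ) < 8)]
  -- the good outcome
  have hbB : inB (fail x) r b = true := by
    unfold inB
    by_cases h : b = r.1
    · simp [h]
    · rw [hb2 r (fun h' => h h'.symm)]
      simp
  have hFb : Fc (fail x) (b, lb) = 0 := by
    unfold Fc
    rw [Finset.card_eq_zero, Finset.filter_eq_empty_iff]
    intro i _
    unfold badCol
    by_cases h : i = b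
    · simp [h]
    · rw [hb1 i h]
      simp
  have hSb : S x ((b, lb), true) = c * (1 / M) * pa b x lb := by
    rw [hSx (b, lb)]
    simp only [hbB, if_true, hv2 _ hFb]
    ring
  have hpa_nn : ∀ i lam, 0 ≤ pa i x lam := fun i lam => Proc.nonneg (hpa i) x lam
  have hPf_lb : c * (1 / M) * (1 - δ) ≤ Pf := by
    have h1 : S x ((b, lb), true) ≤ Pf :=
      Finset.single_le_sum (f := fun r' => S x (r', true)) (fun r' _ => hSnn _)
        (Finset.mem_univ (b, lb))
    rw [hSb] at h1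
    refine le_trans ?_ h1
    apply mul_le_mul_of_nonneg_left hpab
    positivity
  have hcM : 0 < c * (1 / M) := by positivity
  have hPf_lb2 : (4 : ℝ) ^ ℓ / (16 * M) ≤ Pf := by
    refine le_trans ?_ hPf_lb
    have h1 : (4 : ℝ) ^ ℓ / (16 * M) = (4 ^ ℓ / 8) * (1 / M) * (1 / 2) := by
      field_simp
      norm_num
    rw [h1]
    have h2 : (4 : ℝ) ^ ℓ / 8 * (1 / M) ≤ c * (1 / M) :=
      mul_le_mul_of_nonneg_right hc_lb (by positivity)
    have h3 : (1 : ℝ) / 2 ≤ 1 - δ := by linarith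
    have h4 : 0 ≤ (4 : ℝ) ^ ℓ / 8 * (1 / M) := by positivity
    exact mul_le_mul h2 h3 (by norm_num) hcM.le
  have hPf_pos : 0 < Pf := lt_of_lt_of_le (by positivity) hPf_lb2
  -- outer amplification
  have hS'x : ∀ r', S' x (r', true) = c3 x * S x (r', true) := fun r' => hdg (r', true) rfl
  have hw : ∑ r', S' x (r', true) = c3 x * Pf := by
    simp_rw [hS'x]
    rw [← Finset.mul_sum]
  have hw4 : 1 / 4 ≤ c3 x * Pf := by
    have h1 := hd2 hPf_pos
    have h2 := mul_le_mul_of_nonneg_right h1 hPf_pos.le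
    refine le_trans ?_ h2
    have h3 : 1 ≤ min (((4 * 2 ^ (μ - ℓ) : ℕ) : ℝ) ^ 2) (1 / Pf) * Pf := by
      rw [min_mul_of_nonneg _ _ hPf_pos.le]
      apply le_min
      · push_cast
        have h4 : ((4 : ℝ) * 2 ^ (μ - ℓ)) ^ 2 = 16 * 4 ^ (μ - ℓ) := by
          rw [mul_pow, ← pow_mul, mul_comm (μ - ℓ) 2, pow_mul]
          norm_num
        rw [h4]
        have h5 : (4 : ℝ) ^ (μ - ℓ) * 4 ^ ℓ = 4 ^ μ := by
          rw [← pow_add]
          congr 1
          omega
        have h6 : (16 * (4 : ℝ) ^ (μ - ℓ)) * (4 ^ ℓ / (16 * M)) ≤ 16 * 4 ^ (μ - ℓ) * Pf :=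
          mul_le_mul_of_nonneg_left hPf_lb2 (by positivity)
        refine le_trans (le_of_eq ?_) h6
        have h7 : (16 * (4 : ℝ) ^ (μ - ℓ)) * (4 ^ ℓ / (16 * M)) =
            (4 ^ (μ - ℓ) * 4 ^ ℓ) / M := by
          field_simp
        rw [h7, h5, hM4, div_self (by positivity)]
      · rw [one_div, inv_mul_cancel₀ hPf_pos.ne']
    linarith
  have hc3pos : 0 < c3 x := by
    by_contra h
    have : c3 x * Pf ≤ 0 := mul_nonpos_of_nonpos_of_nonneg (not_lt.1 h) hPf_pos.le
    linarith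
  set A := univ.filter (fun r' : Col × Lam => ¬ (Fc (fail x) r' * 4 ^ (ℓ + 1) ≤ 4 ^ μ ∧
          (r'.1 = b → r'.2 = lb))) with hA
  have hmain := hDA x A
  rw [hw] at hmain
  have hSA : ∑ r' ∈ A, S' x (r', true) = c3 x * ∑ r' ∈ A, S x (r', true) := by
    simp_rw [hS'x]
    rw [← Finset.mul_sum]
  rw [hSA] at hmain
  have hq : (1 - c3 x * Pf) ^ rep ≤ (3 / 4) ^ rep :=
    pow_le_pow_left₀ (by linarith) (by linarith) rep
  -- bound S on A
  have hpa_sum : ∀ i, ∑ lam, pa i x lam = 1 := fun i => Proc.sum_one (hpa i) x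
  have hSA2 : ∑ r' ∈ A, S x (r', true) ≤ (3 / 4) ^ rep + c * (1 / M) * δ := by
    have hsub : A ⊆ univ.filter (fun r' : Col × Lam => ¬ (Fc (fail x) r' * 4 ^ (ℓ + 1) ≤ 4 ^ μ)) ∪
        univ.filter (fun r' : Col × Lam => r'.1 = b ∧ r'.2 ≠ lb) := by
      intro r' hr'
      simp only [hA, mem_filter, mem_univ, true_and, mem_union] at hr' ⊢
      tauto
    refine (Finset.sum_le_sum_of_subset_of_nonneg hsub (fun r' _ _ => hSnn _)).trans ?_
    refine (le_of_add_le_of_nonneg_left (le_of_eq (Finset.sum_union_inter (f := fun r' =>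
      S x (r', true)))) (Finset.sum_nonneg (fun r' _ => hSnn _))).trans ?_
    apply add_le_add
    · -- few failing
      have h1 : ∀ r' ∈ univ.filter (fun r' : Col × Lam =>
          ¬ (Fc (fail x) r' * 4 ^ (ℓ + 1) ≤ 4 ^ μ)),
          S x (r', true) ≤ (3 / 4) ^ rep * (c * (1 / M) *
            (if inB (fail x) r r'.1 = true then 1 else 0) * pa r'.1 x r'.2) := by
        intro r' hr'
        simp only [mem_filter, mem_univ, true_and, not_le] at hr'
        rw [hSx r', mul_comm ((3 / 4 : ℝ) ^ rep)]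
        apply mul_le_mul_of_nonneg_left
        · apply hv3 r'
          rw [hM4]
          have h2 : (4 : ℝ) ^ μ < (Fc (fail x) r' : ℝ) * 4 ^ (ℓ + 1) := by exact_mod_cast hr'
          linarith
        · apply mul_nonneg _ (hpa_nn _ _)
          apply mul_nonneg hcM.le
          split_ifs <;> norm_num
      refine (Finset.sum_le_sum h1).trans ?_
      have hnn : ∀ r' : Col × Lam, 0 ≤ (3 / 4 : ℝ) ^ rep * (c * (1 / M) *
            (if inB (fail x) r r'.1 = true then 1 else 0) * pa r'.1 x r'.2) := by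
        intro r'
        apply mul_nonneg (by positivity)
        apply mul_nonneg _ (hpa_nn _ _)
        apply mul_nonneg hcM.le
        split_ifs <;> norm_num
      refine (Finset.sum_le_sum_of_subset_of_nonneg (Finset.filter_subset _ univ)
        (fun r' _ _ => hnn r')).trans ?_
      rw [← Finset.mul_sum, Fintype.sum_prod_type]
      have h2 : ∀ i, ∑ lam, c * (1 / M) * (if inB (fail x) r (i, lam).1 = true then 1 else 0) *
          pa (i, lam).1 x (i, lam).2 = c * (1 / M) * (if inB (fail x) r i = true then 1 else 0) := by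
        intro i
        have h2' : ∑ lam, c * (1 / M) * (if inB (fail x) r i = true then 1 else 0) *
          pa i x lam = c * (1 / M) * (if inB (fail x) r i = true then 1 else 0) := by
          rw [← Finset.mul_sum, hpa_sum, mul_one]
        exact h2'
      rw [Finset.sum_congr rfl (fun i _ => h2 i)]
      rw [← Finset.mul_sum, Finset.sum_boole, card_inB]
      push_cast
      have h3 : c * (1 / M) * ((Fc (fail x) r : ℝ) + 1) ≤ 1 := by
        refine le_trans (le_of_eq ?_) hc1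
        ring
      have h4 : (0 : ℝ) ≤ (3 / 4) ^ rep := by positivity
      calc (3 / 4 : ℝ) ^ rep * (c * (1 / M) * ((Fc (fail x) r : ℝ) + 1)) ≤ (3 / 4 : ℝ) ^ rep * 1 :=
            mul_le_mul_of_nonneg_left h3 h4
        _ = _ := mul_one _
    · -- wrong address
      have h1 : ∀ r' ∈ univ.filter (fun r' : Col × Lam => r'.1 = b ∧ r'.2 ≠ lb),
          S x (r', true) ≤ c * (1 / M) * pa r'.1 x r'.2 := by
        intro r' _
        rw [hSx r']
        have h2 : c * (1 / M) * (if inB (fail x) r r'.1 = true then 1 else 0) * pa r'.1 x r'.2 *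
            v r' ≤ c * (1 / M) * 1 * pa r'.1 x r'.2 * 1 := by
          apply mul_le_mul _ (hv1 r') (hv0 r')
          · exact mul_nonneg (mul_nonneg hcM.le (by norm_num)) (hpa_nn _ _)
          · apply mul_le_mul_of_nonneg_right _ (hpa_nn _ _)
            apply mul_le_mul_of_nonneg_left _ hcM.le
            split_ifs <;> norm_num
        linarith
      refine (Finset.sum_le_sum h1).trans ?_
      rw [← Finset.mul_sum]
      apply mul_le_mul_of_nonneg_left _ hcM.le
      have h3 : ∑ r' ∈ univ.filter (fun r' : Col × Lam => r'.1 = b ∧ r'.2 ≠ lb), pa r'.1 x r'.2 =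
          ∑ lam ∈ univ.erase lb, pa b x lam := by
        have h4 : univ.filter (fun r' : Col × Lam => r'.1 = b ∧ r'.2 ≠ lb) =
            (univ.erase lb).map ⟨fun lam => (b, lam), fun a a' h => by simpa using h⟩ := by
          ext ⟨i, lam⟩
          simp only [mem_filter, mem_univ, true_and, Finset.mem_map, mem_erase, and_true, ne_eq]
          constructor
          · rintro ⟨h, h'⟩
            exact ⟨lam, h', by rw [h]; rfl⟩
          · rintro ⟨lam', h, h'⟩
            have h1 : (b, lam') = (i, lam) := h'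
            rw [Prod.mk.injEq] at h1
            exact ⟨h1.1.symm, by rw [← h1.2]; exact h⟩
        rw [h4, Finset.sum_map]
        rfl
      rw [h3]
      have h5 := Finset.add_sum_erase univ (fun lam => pa b x lam) (Finset.mem_univ lb)
      rw [hpa_sum] at h5
      linarith
  -- conclusion
  have hfin : (∑ r' ∈ A, D x r') ≤ (∑ r' ∈ A, S x (r', true)) / Pf + (3 / 4) ^ rep := by
    have hwpos : 0 < c3 x * Pf := by positivity
    rw [← mul_le_mul_iff_right₀ hwpos]
    refine hmain.trans ?_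
    have h1 : c3 x * Pf * ((∑ r' ∈ A, S x (r', true)) / Pf + (3 / 4) ^ rep) =
        c3 x * (∑ r' ∈ A, S x (r', true)) + c3 x * Pf * (3 / 4) ^ rep := by
      field_simp
    rw [h1]
    have h2 := mul_le_mul_of_nonneg_left hq hwpos.le
    linarith
  refine hfin.trans ?_
  have h1 : (∑ r' ∈ A, S x (r', true)) / Pf ≤ 16 * 4 ^ μ * (3 / 4) ^ rep + 2 * δ := by
    rw [div_le_iff₀ hPf_pos]
    refine hSA2.trans ?_
    rw [add_mul]
    apply add_le_add
    · have h2 : 1 ≤ 16 * 4 ^ μ * Pf := by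
        have h3 : (16 * M) * ((4 : ℝ) ^ ℓ / (16 * M)) ≤ (16 * M) * Pf :=
          mul_le_mul_of_nonneg_left hPf_lb2 (by positivity)
        have h4 : (16 * M) * ((4 : ℝ) ^ ℓ / (16 * M)) = 4 ^ ℓ := by
          field_simp
        rw [h4, hM4] at h3
        have h5 : (1 : ℝ) ≤ 4 ^ ℓ := one_le_pow₀ (by norm_num)
        linarith
      have h6 : (0 : ℝ) ≤ (3 / 4) ^ rep := by positivity
      nlinarith
    · have h2 : c * (1 / M) * δ ≤ 2 * δ * (c * (1 / M) * (1 - δ)) := by
        have h3 : 0 ≤ c * (1 / M) * δ := by positivity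
        nlinarith
      refine h2.trans ?_
      exact mul_le_mul_of_nonneg_left hPf_lb (by linarith)
  linarith

/-- the query cost of one stage. -/
theorem stage_cost (μ ℓ Ta Tf : ℕ) (hℓ : ℓ ≤ μ) :
    100 * (μ + 1) * (2 * (4 * 2 ^ (μ - ℓ)) *
        (2 * 2 ^ ℓ * Tf + (Ta + 100 * (μ + 1) * (2 * 2 ^ (ℓ + 1) * Tf)))) ≤
      321600 * (μ + 1) ^ 2 * 2 ^ μ * (Ta + Tf) := by
  have h1 : 2 ^ (μ - ℓ) * 2 ^ ℓ = 2 ^ μ := by
    rw [← pow_add]
    congr 1
    omega
  have h2 : 2 ^ (μ - ℓ) ≤ 2 ^ μ := Nat.pow_le_pow_right (by norm_num) (by omega)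
  rw [pow_succ 2 ℓ]
  generalize 2 ^ (μ - ℓ) = P at h1 h2 ⊢
  generalize 2 ^ ℓ = Q at h1 ⊢
  generalize 2 ^ μ = W at h1 h2 ⊢
  have h3 : 1 ≤ μ + 1 := by omega
  generalize μ + 1 = n at h3 ⊢
  have e : 100 * n * (2 * (4 * P) * (2 * Q * Tf + (Ta + 100 * n * (2 * (Q * 2) * Tf)))) =
      800 * n * (2 * (P * Q) * Tf + P * Ta + 400 * n * (P * Q) * Tf) := by ring
  rw [e, h1]
  have h4 : P * Ta ≤ W * Ta := Nat.mul_le_mul_right _ h2
  have h5 : W * Tf ≤ n * (W * Tf) := Nat.le_mul_of_pos_left _ h3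
  have h6 : W * Ta ≤ n * (W * Ta) := Nat.le_mul_of_pos_left _ h3
  have h7 : 2 * W * Tf + P * Ta + 400 * n * W * Tf ≤ 402 * n * W * (Ta + Tf) := by
    nlinarith
  calc 800 * n * (2 * W * Tf + P * Ta + 400 * n * W * Tf)
      ≤ 800 * n * (402 * n * W * (Ta + Tf)) := Nat.mul_le_mul_left _ h7
    _ = 321600 * n ^ 2 * W * (Ta + Tf) := by ring

/-- all stages. -/
theorem iter_proc [Nonempty Col] [Nonempty Lam] {μ : ℕ} (hcard : Fintype.card Col = 4 ^ μ)
    {fail : (ι → Bool) → (Col × Lam) → Col → Bool} {Tf : ℕ}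
    (hf : ∀ r i, Proc Tf (det fun x => fail x r i)) {Ta : ℕ}
    {pa : Col → (ι → Bool) → Lam → ℝ} (hpa : ∀ j, Proc Ta (pa j)) (k : ℕ) (hk : k ≤ μ + 1) :
    ∃ P : (ι → Bool) → (Col × Lam) → ℝ,
      Proc (k * (321600 * (μ + 1) ^ 2 * 2 ^ μ * (Ta + Tf))) P ∧ ∀ x (b : Col) (lb : Lam)
        (δ : ℝ), δ ≤ 1 / 2 → 0 ≤ δ → 1 - δ ≤ pa b x lb →
        (∀ i, i ≠ b → fail x (b, lb) i = false) →
        (∀ r : Col × Lam, r.1 ≠ b → fail x r b = true) →
        ∑ r' ∈ univ.filter (fun r' : Col × Lam => ¬ (Fc (fail x) r' * 4 ^ k ≤ 4 ^ μ ∧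
          (k = 0 ∨ (r'.1 = b → r'.2 = lb)))), P x r' ≤
          k * ((3 / 4) ^ (100 * (μ + 1)) + 16 * 4 ^ μ * (3 / 4) ^ (100 * (μ + 1)) + 2 * δ) := by
  induction k with
  | zero =>
    let r0 : Col × Lam := (Classical.arbitrary Col, Classical.arbitrary Lam)
    refine ⟨_, (Proc.det_const (ι := ι) r0).mono (Nat.zero_le _), ?_⟩
    intro x b lb δ _ _ _ _ _
    rw [Finset.filter_false_of_mem]
    · simp
    · intro r _
      have h1 : Fc (fail x) r ≤ 4 ^ μ := by
        rw [← hcard]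
        exact (Finset.card_filter_le _ _).trans (le_of_eq (Finset.card_univ))
      simpa using h1
  | succ k ih =>
    obtain ⟨P, hP, hPx⟩ := ih (by omega)
    have hkμ : k ≤ μ := by omega
    choose D hD hDx using fun r => stage_proc hcard hf hpa k (100 * (μ + 1)) hkμ r
    have hD' : ∀ r, Proc (321600 * (μ + 1) ^ 2 * 2 ^ μ * (Ta + Tf)) (D r) :=
      fun r => (hD r).mono (stage_cost μ k Ta Tf hkμ)
    refine ⟨_, (Proc.bind hP hD').congr (by ring) (fun _ _ => rfl), ?_⟩
    intro x b lb δ hδ hδ0 hpab hb1 hb2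
    have hPk := hPx x b lb δ hδ hδ0 hpab hb1 hb2
    set ε : ℝ := (3 / 4) ^ (100 * (μ + 1)) + 16 * 4 ^ μ * (3 / 4) ^ (100 * (μ + 1)) + 2 * δ with hε
    have hε0 : 0 ≤ ε := by positivity
    have hset : univ.filter (fun r' : Col × Lam => ¬ (Fc (fail x) r' * 4 ^ (k + 1) ≤ 4 ^ μ ∧
          (k + 1 = 0 ∨ (r'.1 = b → r'.2 = lb)))) =
        univ.filter (fun r' : Col × Lam => ¬ (Fc (fail x) r' * 4 ^ (k + 1) ≤ 4 ^ μ ∧
          (r'.1 = b → r'.2 = lb))) := by
      apply Finset.filter_congr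
      intro r' _
      simp
    rw [hset, Finset.sum_comm]
    simp_rw [← Finset.mul_sum]
    have hPnn : ∀ r, 0 ≤ P x r := fun r => Proc.nonneg hP x r
    have hP1 : ∑ r, P x r = 1 := Proc.sum_one hP x
    set Bad := univ.filter (fun r' : Col × Lam => ¬ (Fc (fail x) r' * 4 ^ k ≤ 4 ^ μ ∧
          (k = 0 ∨ (r'.1 = b → r'.2 = lb)))) with hBad
    have hstep : ∀ r, P x r * ∑ r' ∈ univ.filter (fun r' : Col × Lam =>
        ¬ (Fc (fail x) r' * 4 ^ (k + 1) ≤ 4 ^ μ ∧ (r'.1 = b → r'.2 = lb))), D r x r' ≤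
        (if r ∈ Bad then P x r else 0) + P x r * ε := by
      intro r
      by_cases hr : r ∈ Bad
      · rw [if_pos hr]
        have h1 : ∑ r' ∈ univ.filter (fun r' : Col × Lam =>
            ¬ (Fc (fail x) r' * 4 ^ (k + 1) ≤ 4 ^ μ ∧ (r'.1 = b → r'.2 = lb))), D r x r' ≤ 1 := by
          rw [← Proc.sum_one (hD r) x]
          exact Finset.sum_le_sum_of_subset_of_nonneg (Finset.filter_subset _ _)
            (fun r' _ _ => Proc.nonneg (hD r) x r')
        have h2 := mul_le_mul_of_nonneg_left h1 (hPnn r)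
        have h3 : 0 ≤ P x r * ε := mul_nonneg (hPnn r) hε0
        linarith
      · rw [if_neg hr, zero_add]
        apply mul_le_mul_of_nonneg_left _ (hPnn r)
        apply hDx r x b lb δ hδ hδ0 hpab hb1 hb2
        simp only [hBad, mem_filter, mem_univ, true_and, not_not] at hr
        exact hr.1
    refine (Finset.sum_le_sum (fun r _ => hstep r)).trans ?_
    rw [Finset.sum_add_distrib, ← Finset.sum_mul, hP1, one_mul, Finset.sum_ite_mem,
      Finset.univ_inter]
    push_cast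
    linarith

end Stage

theorem numeric_bound (μ : ℕ) :
    ((μ : ℝ) + 1) * ((3 / 4) ^ (100 * (μ + 1)) + 16 * 4 ^ μ * (3 / 4) ^ (100 * (μ + 1)) +
      2 * (1 / (10000 * ((μ : ℝ) + 1)))) ≤ 1 / 100 := by
  have h1 : ((3 : ℝ) / 4) ^ 100 ≤ 1 / 10 ^ 12 := by norm_num
  have h2 : ((3 : ℝ) / 4) ^ (100 * (μ + 1)) ≤ (1 / 10 ^ 12) ^ (μ + 1) := by
    rw [pow_mul]
    exact pow_le_pow_left₀ (by positivity) h1 _
  have h3 : ((μ : ℝ) + 1) ≤ 4 ^ μ := by
    have : μ + 1 ≤ 4 ^ μ := Nat.lt_pow_self (by norm_num)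
    exact_mod_cast this
  have h4 : (1 : ℝ) ≤ 4 ^ μ := one_le_pow₀ (by norm_num)
  have hμ : (0 : ℝ) < (μ : ℝ) + 1 := by positivity
  have e1 : ((μ : ℝ) + 1) * (2 * (1 / (10000 * ((μ : ℝ) + 1)))) = 1 / 5000 := by
    field_simp
    norm_num
  set z := ((3 : ℝ) / 4) ^ (100 * (μ + 1)) with hz
  have hz0 : 0 ≤ z := by positivity
  have h5 : ((μ : ℝ) + 1) * (z + 16 * 4 ^ μ * z) ≤ 17 * (4 ^ μ * 4 ^ μ) * z := by
    have a1 : ((μ : ℝ) + 1) * z ≤ (4 ^ μ * 4 ^ μ) * z := by
      apply mul_le_mul_of_nonneg_right _ hz0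
      nlinarith
    have a2 : ((μ : ℝ) + 1) * (16 * 4 ^ μ * z) ≤ 16 * (4 ^ μ * 4 ^ μ) * z := by
      have : ((μ : ℝ) + 1) * (4 ^ μ * z) ≤ 4 ^ μ * (4 ^ μ * z) :=
        mul_le_mul_of_nonneg_right h3 (by positivity)
      nlinarith
    nlinarith
  have h6 : 17 * ((4 : ℝ) ^ μ * 4 ^ μ) * z ≤ 17 * (1 / 10 ^ 12) := by
    have a1 : 17 * ((4 : ℝ) ^ μ * 4 ^ μ) * z ≤ 17 * (4 ^ μ * 4 ^ μ) * (1 / 10 ^ 12) ^ (μ + 1) :=
      mul_le_mul_of_nonneg_left h2 (by positivity)
    refine a1.trans ?_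
    have a2 : 17 * ((4 : ℝ) ^ μ * 4 ^ μ) * (1 / 10 ^ 12) ^ (μ + 1) =
        17 * (1 / 10 ^ 12) * (16 * (1 / 10 ^ 12)) ^ μ := by
      rw [← mul_pow, pow_succ, mul_pow (16 : ℝ)]
      norm_num
      ring
    rw [a2]
    have a3 : ((16 : ℝ) * (1 / 10 ^ 12)) ^ μ ≤ 1 := pow_le_one₀ (by norm_num) (by norm_num)
    have a4 : (0 : ℝ) ≤ 17 * (1 / 10 ^ 12) := by norm_num
    nlinarith
  have e2 : ((μ : ℝ) + 1) * (z + 16 * 4 ^ μ * z + 2 * (1 / (10000 * ((μ : ℝ) + 1)))) =
      ((μ : ℝ) + 1) * (z + 16 * 4 ^ μ * z) +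
        ((μ : ℝ) + 1) * (2 * (1 / (10000 * ((μ : ℝ) + 1)))) := by ring
  rw [e2, e1]
  have h7 : (17 : ℝ) * (1 / 10 ^ 12) + 1 / 5000 ≤ 1 / 100 := by norm_num
  linarith

/-- Staged search. `Col` has `4^μ` columns, `Lam` is the set of addresses, `fail x r i` says that
the pointer of the reference `r = (j, lam)` to column `i` fails, `pa j` is the outcome distribution
of the address extraction for column `j`, `pv r` that of the final verification of `r`
(`true` = accept). -/
theorem staged_search :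
    ∃ C : ℕ, ∀ (ι Col Lam : Type) (_ : Fintype Col) (_ : DecidableEq Col) (_ : Fintype Lam)
      (_ : DecidableEq Lam) (_ : Nonempty Lam) (μ : ℕ) (_ : Fintype.card Col = 4 ^ μ)
      (fail : (ι → Bool) → (Col × Lam) → Col → Bool) (Tf : ℕ)
      (_ : ∀ r i, Proc Tf (det fun x => fail x r i))
      (Ta : ℕ) (pa : Col → (ι → Bool) → Lam → ℝ) (_ : ∀ j, Proc Ta (pa j))
      (Tv : ℕ) (pv : (Col × Lam) → (ι → Bool) → Bool → ℝ) (_ : ∀ r, Proc Tv (pv r)),
      ∃ p : (ι → Bool) → Bool → ℝ,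
        Proc (C * (μ + 1) ^ 4 * 2 ^ μ * (Ta + Tf) + Tv) p ∧ ∀ x,
          -- soundness
          ((∀ r, pv r x true ≤ 1 / 100) → 2 / 3 ≤ p x false) ∧
          -- completeness
          ((∃ (b : Col) (lb : Lam),
              1 - 1 / (10000 * ((μ : ℝ) + 1)) ≤ pa b x lb ∧
              (∀ i, i ≠ b → fail x (b, lb) i = false) ∧
              (∀ r : Col × Lam, r.1 ≠ b → fail x r b = true) ∧
              99 / 100 ≤ pv (b, lb) x true) → 2 / 3 ≤ p x true) := by
  refine ⟨321600, ?_⟩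
  intro ι Col Lam _ _ _ _ _ μ hcard fail Tf hf Ta pa hpa Tv pv hpv
  have : Nonempty Col := by
    rw [← Fintype.card_pos_iff, hcard]
    positivity
  obtain ⟨P, hP, hPx⟩ := iter_proc hcard hf hpa (μ + 1) le_rfl
  have hbind := Proc.bind hP hpv
  refine ⟨_, hbind.mono ?_, ?_⟩
  · apply Nat.add_le_add_right
    have h1 : (μ + 1) * (321600 * (μ + 1) ^ 2 * 2 ^ μ * (Ta + Tf)) =
        321600 * (μ + 1) ^ 3 * 2 ^ μ * (Ta + Tf) := by ring
    rw [h1]
    have h2 : (μ + 1) ^ 3 ≤ (μ + 1) ^ 4 := Nat.pow_le_pow_right (by omega) (by norm_num)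
    exact Nat.mul_le_mul_right _ (Nat.mul_le_mul_right _ (Nat.mul_le_mul_left _ h2))
  · intro x
    have hPnn : ∀ r, 0 ≤ P x r := fun r => Proc.nonneg hP x r
    have hP1 : ∑ r, P x r = 1 := Proc.sum_one hP x
    have hsum := Proc.sum_one hbind x
    rw [Fintype.sum_bool] at hsum
    constructor
    · intro h
      have h1 : ∑ r, P x r * pv r x true ≤ 1 / 100 := by
        calc ∑ r, P x r * pv r x true ≤ ∑ r, P x r * (1 / 100) :=
              Finset.sum_le_sum (fun r _ => mul_le_mul_of_nonneg_left (h r) (hPnn r))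
          _ = 1 / 100 := by rw [← Finset.sum_mul, hP1, one_mul]
      linarith
    · rintro ⟨b, lb, hpab, hb1, hb2, hv⟩
      have hμ : (0 : ℝ) < (μ : ℝ) + 1 := by positivity
      have hδ0 : (0 : ℝ) ≤ 1 / (10000 * ((μ : ℝ) + 1)) := by positivity
      have hδ : (1 : ℝ) / (10000 * ((μ : ℝ) + 1)) ≤ 1 / 2 := by
        apply one_div_le_one_div_of_le (by norm_num)
        have : (0 : ℝ) ≤ μ := Nat.cast_nonneg _
        linarith
      have h1 := hPx x b lb _ hδ hδ0 hpab hb1 hb2
      push_cast at h1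
      have h2 := h1.trans (numeric_bound μ)
      have h3 : ∑ r ∈ univ.erase (b, lb), P x r ≤ 1 / 100 := by
        refine le_trans (Finset.sum_le_sum_of_subset_of_nonneg ?_ (fun r _ _ => hPnn r)) h2
        intro r hr
        simp only [mem_erase, mem_univ, and_true] at hr
        simp only [mem_filter, mem_univ, true_and]
        rintro ⟨h4, h5⟩
        apply hr
        have h6 : Fc (fail x) r = 0 := by
          by_contra h
          have h7 : 1 ≤ Fc (fail x) r := Nat.one_le_iff_ne_zero.2 h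
          have h8 : 4 ^ (μ + 1) ≤ Fc (fail x) r * 4 ^ (μ + 1) := Nat.le_mul_of_pos_left _ h7
          have h9 : 4 ^ μ < 4 ^ (μ + 1) := Nat.pow_lt_pow_right (by norm_num) (by omega)
          exact absurd (h8.trans h4) (not_le.2 h9)
        have h7 : r.1 = b := by
          by_contra h
          unfold Fc at h6
          rw [Finset.card_eq_zero, Finset.filter_eq_empty_iff] at h6
          apply h6 (Finset.mem_univ b)
          unfold badCol
          rw [hb2 r h]
          simp [Ne.symm h]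
        rcases h5 with h5 | h5
        · exact h5.elim
        · exact Prod.ext h7 (h5 h7)
      have h4 := Finset.add_sum_erase univ (fun r => P x r) (Finset.mem_univ (b, lb))
      rw [hP1] at h4
      have h5 : 99 / 100 ≤ P x (b, lb) := by
        have : P x (b, lb) + ∑ r ∈ univ.erase (b, lb), P x r = 1 := h4
        linarith
      have h6 : P x (b, lb) * pv (b, lb) x true ≤ ∑ r, P x r * pv r x true :=
        Finset.single_le_sum (f := fun r => P x r * pv r x true)
          (fun r _ => mul_nonneg (hPnn r) (Proc.nonneg (hpv r) x true)) (Finset.mem_univ (b, lb))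
      have h7 : (99 / 100 : ℝ) * (99 / 100) ≤ P x (b, lb) * pv (b, lb) x true :=
        mul_le_mul h5 hv (by norm_num) (hPnn _)
      have h8 : (2 : ℝ) / 3 ≤ (99 / 100) * (99 / 100) := by norm_num
      linarith

end Crest.Agent.QG
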