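import Crest.Agent.QG.Hint
import Crest.Agent.QG.Search

/-!
# Chunk G1: the quantum algorithm for the gap function
-/

set_option autoImplicit false
set_option linter.unusedSectionVars false
set_option linter.unusedVariables false

namespace Crest.Agent.QG

open Finset

section upper
variable {Col X Y Lam E : Type} {kw : ℕ} [DecidableEq Col]

/-- the pointer failure of the gap function -/
def upFail (x : GIdx Col X Y Lam kw → Bool) (r : Col × Lam) (i : Col) : Bool :=
  gKill x i (gPtr x r.1 r.2 i)

theorem upFail_proc (r : Col × Lam) (i : Col) :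
    Proc (kw + 1) (det fun x : GIdx Col X Y Lam kw → Bool => upFail x r i) :=
  Proc.det_bind (Proc.readBits (fun l : Fin kw =>
      ((r.1, Sum.inr (Sum.inr (r.2, Sum.inl (i, l)))) : GIdx Col X Y Lam kw)))
    (h := fun o x => x (i, Sum.inr (Sum.inl o))) (fun o => Proc.query _)

/-- the local checks of the final verification of the reference `r` -/
def upBad (bad : E → Lam → (X ⊕ Y → Bool) → Bool) (r : Col × Lam)
    (x : GIdx Col X Y Lam kw → Bool) : ((Fin kw → Bool) ⊕ Col ⊕ E) → Bool
  | Sum.inl u => !(gKill x r.1 u)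
  | Sum.inr (Sum.inl i) => if i = r.1 then false else upFail x r i
  | Sum.inr (Sum.inr e) => bad e r.2 (Sum.elim (gHint x r.1) (gCert x r.1 r.2))

theorem upBad_proc (bad : E → Lam → (X ⊕ Y → Bool) → Bool) {Tc : ℕ}
    (hbad : ∀ e lam, Proc Tc (det (bad e lam))) (r : Col × Lam)
    (e : (Fin kw → Bool) ⊕ Col ⊕ E) :
    Proc (Tc + kw + 1) (det fun x : GIdx Col X Y Lam kw → Bool => upBad bad r x e) := by
  rcases e with u | i | e
  · have h := Proc.det_map (Proc.query
      ((r.1, Sum.inr (Sum.inl u)) : GIdx Col X Y Lam kw)) (fun b => !b)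
    exact h.mono (by omega)
  · by_cases hi : i = r.1
    · have h := Proc.det_const (ι := GIdx Col X Y Lam kw) false
      have e1 : (fun x : GIdx Col X Y Lam kw → Bool => upBad bad r x (Sum.inr (Sum.inl i)))
          = fun _ => false := by
        funext x
        simp [upBad, hi]
      rw [e1]
      exact h.mono (by omega)
    · have h := upFail_proc (X := X) (Y := Y) (kw := kw) r i
      have e1 : (fun x : GIdx Col X Y Lam kw → Bool => upBad bad r x (Sum.inr (Sum.inl i)))
          = fun x => upFail x r i := by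
        funext x
        simp [upBad, hi]
      rw [e1]
      exact h.mono (by omega)
  · have h := (hbad e r.2).comap (fun v : X ⊕ Y => (Sum.elim
      (fun v => ((r.1, Sum.inl v) : GIdx Col X Y Lam kw))
      (fun v => (r.1, Sum.inr (Sum.inr (r.2, Sum.inr v)))) v))
    have e1 : (det fun x : GIdx Col X Y Lam kw → Bool => upBad bad r x (Sum.inr (Sum.inr e)))
        = fun x : GIdx Col X Y Lam kw → Bool => det (bad e r.2)
          (x ∘ (fun v : X ⊕ Y => (Sum.elim
      (fun v => ((r.1, Sum.inl v) : GIdx Col X Y Lam kw))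
      (fun v => (r.1, Sum.inr (Sum.inr (r.2, Sum.inr v)))) v))) := by
      funext x o
      have e2 : (x ∘ (fun v : X ⊕ Y => (Sum.elim
          (fun v => ((r.1, Sum.inl v) : GIdx Col X Y Lam kw))
          (fun v => (r.1, Sum.inr (Sum.inr (r.2, Sum.inr v)))) v)))
          = Sum.elim (gHint x r.1) (gCert x r.1 r.2) := by
        funext v
        rcases v with v | v <;> rfl
      rw [e2]
      rfl
    rw [e1]
    exact h.mono (by omega)

end upper

theorem gap_upper :
    ∃ C : ℕ, ∀ (Col X Y Lam E : Type) (_ : Fintype Col) (_ : DecidableEq Col) (_ : Fintype X)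
      (_ : DecidableEq X) (_ : Fintype Y) (_ : DecidableEq Y) (_ : Fintype Lam)
      (_ : DecidableEq Lam) (_ : Nonempty Lam) (_ : Fintype E) (_ : DecidableEq E)
      (μ kw Tc Ta L : ℕ) (_ : Fintype.card Col = 4 ^ μ)
      (bad : E → Lam → (X ⊕ Y → Bool) → Bool) (_ : ∀ e lam, Proc Tc (det (bad e lam)))
      (pa : (X → Bool) → Lam → ℝ) (_ : Proc Ta pa)
      (_ : ∀ x lam y, (∀ e, bad e lam (Sum.elim x y) = false) →
        1 - 1 / (10000 * ((μ : ℝ) + 1)) ≤ pa x lam)
      (_ : 2 ^ kw + 4 ^ μ + Fintype.card E ≤ L ^ 2),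
      ∃ p : (GIdx Col X Y Lam kw → Bool) → Bool → ℝ,
        Proc (C * (μ + 1) ^ 4 * 2 ^ μ * (Ta + (kw + 1)) + 34 * L * (Tc + kw + 1)) p ∧
        ∀ x, 2 / 3 ≤ p x (GFun bad x) := by
  obtain ⟨C, hC⟩ := staged_search
  refine ⟨C, ?_⟩
  intro Col X Y Lam E _ _ _ _ _ _ _ _ _ _ _ μ kw Tc Ta L hCol bad hbad pa hpa hpa' hL
  have hL0 : 0 < L := by
    rcases Nat.eq_zero_or_pos L with h | h
    · subst h
      have : 0 < 2 ^ kw := by positivity
      omega
    · exact h
  -- verification procedures
  have hver : ∀ r : Col × Lam, ∃ p : (GIdx Col X Y Lam kw → Bool) → Bool → ℝ,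
      Proc (34 * L * (Tc + kw + 1)) p ∧ ∀ x,
        ((∀ e, upBad bad r x e = false) → p x true = 1) ∧
        ((∃ e, upBad bad r x e = true) → p x true ≤ 1 / 100) := by
    intro r
    obtain ⟨p, hp, hp'⟩ := Proc.verify (E := (Fin kw → Bool) ⊕ Col ⊕ E)
      (fun x : GIdx Col X Y Lam kw → Bool => upBad bad r x) (upBad_proc bad hbad r) L 17 hL0
    refine ⟨p, ?_, fun x => ⟨(hp' x).1, ?_⟩⟩
    · have : 17 * (2 * L * (Tc + kw + 1)) = 34 * L * (Tc + kw + 1) := by ring
      rwa [this] at hp
    · rintro ⟨e, he⟩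
      refine ((hp' x).2 ?_).trans (by norm_num)
      have h1 : (1 : ℝ) ≤ ((univ.filter fun e => upBad bad r x e = true).card : ℝ) := by
        have : 0 < (univ.filter fun e => upBad bad r x e = true).card :=
          Finset.card_pos.2 ⟨e, by simp [he]⟩
        exact_mod_cast this
      have h2 : (Fintype.card ((Fin kw → Bool) ⊕ Col ⊕ E) : ℝ) ≤ (L : ℝ) ^ 2 := by
        have h3 : Fintype.card ((Fin kw → Bool) ⊕ Col ⊕ E) ≤ L ^ 2 := by
          rw [Fintype.card_sum, Fintype.card_sum, hCol]
          simp only [Fintype.card_fun, Fintype.card_bool, Fintype.card_fin]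
          omega
        exact_mod_cast h3
      nlinarith [sq_nonneg (L : ℝ)]
  choose pv hpv hpv' using hver
  obtain ⟨p, hp, hp'⟩ := hC (GIdx Col X Y Lam kw) Col Lam inferInstance inferInstance
    inferInstance inferInstance inferInstance μ hCol
    (fun x r i => upFail x r i) (kw + 1) (fun r i => upFail_proc r i) Ta
    (fun j x => pa (gHint x j))
    (fun j => hpa.comap (fun v : X => ((j, Sum.inl v) : GIdx Col X Y Lam kw)))
    (34 * L * (Tc + kw + 1)) pv hpv
  refine ⟨p, hp, fun x => ?_⟩
  by_cases hG : GProp bad x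
  · have e1 : GFun bad x = true := by
      unfold GFun; simp [hG]
    rw [e1]
    refine (hp' x).2 ?_
    obtain ⟨b, lam, h1, h2, h3⟩ := hG
    refine ⟨b, lam, hpa' _ _ _ h3, fun i hi => h2 i hi, fun r _ => h1 _, ?_⟩
    rw [(hpv' (b, lam) x).1]
    · norm_num
    · rintro (u | i | e)
      · simp [upBad, h1]
      · by_cases hi : i = b
        · simp [upBad, hi]
        · simp only [upBad, hi, if_false, upFail]
          exact h2 i hi
      · exact h3 e
  · have e1 : GFun bad x = false := by
      unfold GFun; simp [hG]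
    rw [e1]
    refine (hp' x).1 (fun r => (hpv' r x).2 ?_)
    by_contra hcon
    push Not at hcon
    apply hG
    refine ⟨r.1, r.2, fun u => ?_, fun i hi => ?_, fun e => ?_⟩
    · have := hcon (Sum.inl u)
      simpa [upBad] using this
    · have := hcon (Sum.inr (Sum.inl i))
      simpa [upBad, hi, upFail] using this
    · have := hcon (Sum.inr (Sum.inr e))
      simpa [upBad] using this

end Crest.Agent.QG
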