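import Crest.Agent.QG.Single
import Crest.Agent.QG.HintThm
import Crest.Agent.QG.Upper
import Crest.Agent.QG.Lower

/-!
# Chunk H: choice of parameters
-/

set_option autoImplicit false

namespace Crest.Agent.QG

open Finset Crest.MathPhysics.Query

/-- decision trees of the statement as trees over an index type -/
def Tr.ofDTree {V : Type} {n : ℕ} (e : Fin n → V) : DTree n → Tr V
  | .answer b => .leaf b
  | .read i t₀ t₁ => .node (e i) (ofDTree e t₀) (ofDTree e t₁)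

theorem Tr.ofDTree_depth {V : Type} {n : ℕ} (e : Fin n → V) (T : DTree n) :
    (Tr.ofDTree e T).depth = T.depth := by
  induction T with
  | answer b => rfl
  | read i t₀ t₁ h₀ h₁ => simp [Tr.ofDTree, Tr.depth, DTree.depth, h₀, h₁]

theorem Tr.ofDTree_eval {V : Type} {n : ℕ} (e : Fin n → V) (T : DTree n) (x : V → Bool) :
    (Tr.ofDTree e T).eval x = T.eval (fun i => x (e i)) := by
  induction T with
  | answer b => rfl
  | read i t₀ t₁ h₀ h₁ => simp only [Tr.ofDTree, Tr.eval, DTree.eval, h₀, h₁]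

/-- transport of the upper and lower bounds to an input indexed by `Fin n` -/
theorem transport {V : Type} [Fintype V] [Nonempty V] (F : (V → Bool) → Bool)
    (q : ℕ) (p : (V → Bool) → Bool → ℝ) (hp : Proc q p) (hF : ∀ x, 2 / 3 ≤ p x (F x))
    (R : ℕ → Prop)
    (hR : ∀ (r s : ℕ) (w : Fin s → ℝ) (_ : ∀ j, 0 ≤ w j) (_ : ∑ j, w j = 1)
      (T : Fin s → Tr V) (_ : ∀ j, (T j).depth ≤ r)
      (_ : ∀ x, 2 / 3 ≤ ∑ j, if (T j).eval x = F x then w j else 0), R r) :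
    ∃ (n : ℕ) (F' : (Fin n → Bool) → Bool), QuantumComputes F' q ∧
      ∀ r, RandomizedComputes F' r → R r := by
  classical
  let e : V ≃ Fin (Fintype.card V) := Fintype.equivFin V
  refine ⟨Fintype.card V, fun x => F (x ∘ e), ?_, ?_⟩
  · exact (hp.comap (e : V → Fin (Fintype.card V))).quantumComputes _ (fun x => hF (x ∘ e))
      Fintype.card_pos
  · rintro r ⟨s, w, T, hw, hw1, hT, hcomp⟩
    refine hR r s w hw hw1 (fun j => Tr.ofDTree e.symm (T j))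
      (fun j => by rw [Tr.ofDTree_depth]; exact hT j) ?_
    intro x
    have h := hcomp (fun i => x (e.symm i))
    refine h.trans (le_of_eq ?_)
    apply Finset.sum_congr rfl
    intro j _
    rw [Tr.ofDTree_eval]
    have : (fun i => x (e.symm i)) ∘ e = x := by
      funext v; simp
    simp only [this]

theorem exists_poly_le_two_pow (G d : ℕ) : ∃ s₀ : ℕ, ∀ s : ℕ, s₀ ≤ s → G * (s + 1) ^ d ≤ 2 ^ s := by
  have h := tendsto_pow_const_div_const_pow_of_one_lt d (one_lt_two : (1 : ℝ) < 2)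
  have hG : (0 : ℝ) < 1 / (2 * (G + 1)) := by positivity
  have h2 := (h.eventually (gt_mem_nhds hG))
  obtain ⟨s₀, hs₀⟩ := Filter.eventually_atTop.mp h2
  refine ⟨s₀, fun s hs => ?_⟩
  have h3 := hs₀ (s + 1) (by omega)
  rw [div_lt_div_iff₀ (by positivity) (by positivity)] at h3
  have h4 : ((G * (s + 1) ^ d : ℕ) : ℝ) ≤ ((2 ^ s : ℕ) : ℝ) := by
    push_cast at h3 ⊢
    rw [pow_succ] at h3
    have h5 : (0 : ℝ) ≤ ((s : ℝ) + 1) ^ d := by positivity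
    nlinarith
  exact_mod_cast h4

/-- all the requirements on the parameters, for one scale `s` -/
theorem gap_scale (k : ℕ) (hk : 2 ≤ k) :
    ∃ s₀ : ℕ, ∀ s : ℕ, s₀ ≤ s →
      ∃ (n : ℕ) (F : (Fin n → Bool) → Bool) (q : ℕ), q ≤ 2 ^ ((16 * k ^ 2 + 10 * k + 1) * s) ∧
        QuantumComputes F q ∧
        ∀ r : ℕ, RandomizedComputes F r → 2 ^ ((64 * k ^ 2 + 8 * k - 10) * s) ≤ 4 * r := by
  obtain ⟨κ, hκ⟩ : ∃ κ, κ = 2 * k := ⟨_, rfl⟩
  obtain ⟨A, hA⟩ : ∃ A, A = 4 * κ + 4 := ⟨_, rfl⟩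
  have hκ2 : 2 ≤ κ := by omega
  have hb : 2 * κ + 2 ≤ (2 * A) * (κ - 1) := by
    obtain ⟨κ', rfl⟩ : ∃ κ', κ = κ' + 2 := ⟨κ - 2, by omega⟩
    simp only [show κ' + 2 - 1 = κ' + 1 by omega]
    nlinarith
  obtain ⟨s₁, hs₁⟩ := single_instance κ (2 * A) (2 * κ) hκ2 hb
  obtain ⟨C, hC⟩ := gap_upper
  obtain ⟨B, hB⟩ : ∃ B, B = κ * (2 * A) + 2 * κ := ⟨_, rfl⟩
  obtain ⟨G, hG⟩ : ∃ G, G = (C * (160000 * κ + 1) + 34 * (3 * κ + 9) + (2 * κ + 3) + 1600) * B ^ 7 :=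
    ⟨_, rfl⟩
  obtain ⟨s₂, hs₂⟩ := exists_poly_le_two_pow G 7
  refine ⟨max s₁ s₂, fun s hs => ?_⟩
  have hinst := hs₁ s (le_trans (le_max_left _ _) hs)
  have hpoly := hs₂ s (le_trans (le_max_right _ _) hs)
  -- parameters
  obtain ⟨a, ha⟩ : ∃ a, a = κ * (2 * A) * s := ⟨_, rfl⟩
  rw [← ha] at hinst
  obtain ⟨D, hD0, hD1, hDhide, hDmean⟩ := hinst
  obtain ⟨X, hX⟩ : ∃ X, X = B * (s + 1) := ⟨_, rfl⟩
  obtain ⟨ρ, hρ⟩ : ∃ ρ, ρ = (2 * κ - 1) * s := ⟨_, rfl⟩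
  obtain ⟨μ, hμ⟩ : ∃ μ, μ = κ * (A - 1) * s := ⟨_, rfl⟩
  obtain ⟨τ, hτ⟩ : ∃ τ, τ = 2 * A * (κ - 1) - (2 * κ + 2) := ⟨_, rfl⟩
  obtain ⟨A', hA'⟩ : ∃ A', A = A' + 1 := ⟨A - 1, by omega⟩
  obtain ⟨κ', hκ'⟩ : ∃ κ', κ = κ' + 1 := ⟨κ - 1, by omega⟩
  have hBpos : 1 ≤ B := by rw [hB]; nlinarith
  have hX1 : 1 ≤ X := by rw [hX]; nlinarith
  have haX : a + 1 ≤ X := by
    rw [ha, hX, hB]
    nlinarith [Nat.zero_le (κ * (2 * A)), Nat.zero_le (κ * s)]
  have hρaX : ρ + a + 1 ≤ X := by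
    rw [ha, hX, hB, hρ]
    have h1 : (2 * κ - 1) * s + s = 2 * κ * s := by
      have : 2 * κ - 1 + 1 = 2 * κ := by omega
      calc (2 * κ - 1) * s + s = (2 * κ - 1 + 1) * s := by ring
        _ = _ := by rw [this]
    nlinarith [Nat.zero_le (κ * (2 * A))]
  have hμX : μ + 1 ≤ X := by
    rw [hμ, hX, hB, hA']
    simp only [Nat.add_sub_cancel]
    nlinarith [Nat.zero_le (κ * A' * s), Nat.zero_le (κ * s)]
  have hpoly2 : (C * (160000 * κ + 1) + 34 * (3 * κ + 9) + (2 * κ + 3) + 1600) * X ^ 7 ≤ 2 ^ s := by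
    calc _ = G * (s + 1) ^ 7 := by rw [hG, hX]; ring
      _ ≤ _ := hpoly
  have hXpow : ∀ n : ℕ, n ≤ 7 → X ^ n ≤ X ^ 7 := fun n hn => Nat.pow_le_pow_right hX1 hn
  have hX7 : X ≤ X ^ 7 := by simpa using hXpow 1 (by norm_num)
  have h1600 : 1600 * X ≤ 2 ^ s := by
    refine le_trans ?_ hpoly2
    calc 1600 * X ≤ 1600 * X ^ 7 := Nat.mul_le_mul_left _ hX7
      _ ≤ _ := Nat.mul_le_mul_right _ (by omega)
  -- real versions
  set Q : ℝ := (2 : ℝ) ^ s with hQ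
  have hQn : ∀ n : ℕ, (2 : ℝ) ^ (n * s) = Q ^ n := by
    intro n
    rw [hQ, ← pow_mul, Nat.mul_comm]
  have hQ0 : 0 < Q := by positivity
  have h1600R : 1600 * (X : ℝ) ≤ Q := by
    have h : ((1600 * X : ℕ) : ℝ) ≤ ((2 ^ s : ℕ) : ℝ) := by exact_mod_cast h1600
    push_cast at h
    exact h
  have haXR : (a : ℝ) + 1 ≤ X := by exact_mod_cast haX
  have h2ρ : (2 : ℝ) ^ ρ = Q ^ (2 * κ' + 1) := by
    rw [hρ, hQn, hκ', show 2 * (κ' + 1) - 1 = 2 * κ' + 1 by omega]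
  have ha0 : (0 : ℝ) ≤ a := by positivity
  obtain ⟨n, hn⟩ : ∃ n, n = 160000 * (a + 1) * (μ + 1) * 2 ^ (2 * (κ - 1) * s) := ⟨_, rfl⟩
  have hn1 : 1 ≤ n := by rw [hn]; exact Nat.succ_le_of_lt (by positivity)
  have hnR : (n : ℝ) = 160000 * (a + 1) * (μ + 1) * Q ^ (2 * κ') := by
    rw [hn]; push_cast
    rw [hQn, hκ']; simp
  obtain ⟨Y, iY, dY, hHint⟩ := hint_scheme a κ ρ a n (2 ^ (τ * s)) hκ2 hn1
    (1 / (2 * 2 ^ ((κ - 1) * s))) (1 / 2 ^ (2 * κ * s)) (1 / (10000 * ((μ : ℝ) + 1)))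
    (by positivity) D hD0 hD1
    (fun T hT => hDhide T (by rw [← hτ]; exact hT)) hDmean
    (by
      rw [hQn, h2ρ, hκ', show 2 * (κ' + 1) = 2 * κ' + 1 + 1 by ring, pow_succ Q (2 * κ' + 1)]
      rw [one_div, mul_inv, ← mul_assoc]
      have : (a : ℝ) * Q ^ (2 * κ' + 1) * (Q ^ (2 * κ' + 1))⁻¹ = a := by
        field_simp
      rw [this, ← div_eq_mul_inv, div_le_div_iff₀ hQ0 (by norm_num)]
      nlinarith)
    (by
      rw [hQn, h2ρ, hκ']
      simp only [Nat.add_sub_cancel]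
      have : Q ^ (2 * κ' + 1) * (1 / (2 * Q ^ κ')) ^ 2 = Q / 4 := by
        rw [pow_succ, pow_mul']
        field_simp
        norm_num
      rw [this]
      nlinarith)
    (by
      rw [hQn, hnR, hκ']
      simp only [Nat.add_sub_cancel]
      have hμ0 : (0 : ℝ) < (μ : ℝ) + 1 := by positivity
      have : 1 / (10000 * ((μ : ℝ) + 1)) *
          (160000 * ((a : ℝ) + 1) * (μ + 1) * Q ^ (2 * κ') * (1 / (2 * Q ^ κ')) ^ 2) =
          4 * (a + 1) := by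
        rw [pow_mul']
        field_simp
        norm_num
      rw [this]
      linarith)
  obtain ⟨E, iE, dE, bad, pa, Dl, hcardE, hbad, hpa, hsound, hDl0, hDl1, hDlcert, hDlhide⟩ := hHint
  -- powers
  have hLdef : 2 ^ a + 4 ^ μ + Fintype.card E ≤ (2 ^ (κ * (A + 1) * s)) ^ 2 := by
    have e1 : 2 ^ a ≤ 2 ^ (ρ + a) := Nat.pow_le_pow_right (by norm_num) (by omega)
    have e2 : 4 ^ μ ≤ 2 ^ (ρ + a) := by
      rw [show 4 = 2 ^ 2 by norm_num, ← pow_mul]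
      apply Nat.pow_le_pow_right (by norm_num)
      rw [hμ, ha, hA']
      simp only [Nat.add_sub_cancel]
      nlinarith [Nat.zero_le (κ * s)]
    have e3 : Fintype.card E ≤ (2 * κ + 1) * X ^ 7 * 2 ^ (ρ + a) := by
      refine hcardE.trans ?_
      have f1 : a ≤ X := by omega
      have f2 : κ * (ρ + a + 1) * 2 ^ (ρ + a) + 1 ≤ (2 * κ + 1) * X * 2 ^ (ρ + a) := by
        have : 1 ≤ 2 ^ (ρ + a) := Nat.one_le_two_pow
        have g1 : κ * (ρ + a + 1) * 2 ^ (ρ + a) ≤ κ * X * 2 ^ (ρ + a) :=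
          Nat.mul_le_mul_right _ (Nat.mul_le_mul_left _ hρaX)
        have g2 : 1 ≤ X * 2 ^ (ρ + a) := Nat.one_le_iff_ne_zero.mpr (by positivity)
        nlinarith [Nat.zero_le (κ * X * 2 ^ (ρ + a))]
      calc a * (κ * (ρ + a + 1) * 2 ^ (ρ + a) + 1) ≤ X * ((2 * κ + 1) * X * 2 ^ (ρ + a)) :=
            Nat.mul_le_mul f1 f2
        _ = (2 * κ + 1) * X ^ 2 * 2 ^ (ρ + a) := by ring
        _ ≤ _ := Nat.mul_le_mul_right _ (Nat.mul_le_mul_left _ (hXpow 2 (by norm_num)))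
    calc 2 ^ a + 4 ^ μ + Fintype.card E
        ≤ 2 ^ (ρ + a) + 2 ^ (ρ + a) + (2 * κ + 1) * X ^ 7 * 2 ^ (ρ + a) := by omega
      _ = (2 + (2 * κ + 1) * X ^ 7) * 2 ^ (ρ + a) := by ring
      _ ≤ ((C * (160000 * κ + 1) + 34 * (3 * κ + 9) + (2 * κ + 3) + 1600) * X ^ 7) * 2 ^ (ρ + a) := by
          apply Nat.mul_le_mul_right
          have : 1 ≤ X ^ 7 := Nat.one_le_pow _ _ hX1
          nlinarith [Nat.zero_le (C * (160000 * κ + 1) * X ^ 7), Nat.zero_le (κ * X ^ 7)]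
      _ ≤ 2 ^ s * 2 ^ (ρ + a) := Nat.mul_le_mul_right _ hpoly2
      _ = (2 ^ (κ * (A + 1) * s)) ^ 2 := by
          rw [← pow_add, ← pow_mul]
          congr 1
          rw [hρ, ha, hκ', show 2 * (κ' + 1) - 1 = 2 * κ' + 1 by omega]
          ring
  have hcardCol : Fintype.card (Fin (4 ^ μ)) = 4 ^ μ := Fintype.card_fin _
  have : Nonempty (Fin (4 ^ μ)) := ⟨⟨0, by positivity⟩⟩
  obtain ⟨p, hp, hpF⟩ := hC (Fin (4 ^ μ)) ((Fin a × (Fin ρ → Bool)) × (Fin κ × (Fin a → Bool))) Y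
    (Fin a → Bool) E inferInstance inferInstance inferInstance inferInstance inferInstance
    inferInstance inferInstance inferInstance inferInstance inferInstance inferInstance
    μ a _ _ (2 ^ (κ * (A + 1) * s)) hcardCol bad hbad pa hpa hsound hLdef
  have hcost : C * (μ + 1) ^ 4 * 2 ^ μ * (a * (n * κ) + (a + 1)) +
      34 * 2 ^ (κ * (A + 1) * s) * ((3 * (κ * (ρ + a) + 2) + 1) + a + 1) ≤
      2 ^ ((16 * k ^ 2 + 10 * k + 1) * s) := by
    obtain ⟨P, hP⟩ : ∃ P, P = 2 ^ (κ * (A + 1) * s) := ⟨_, rfl⟩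
    rw [← hP]
    have e0 : 2 ^ μ ≤ P := by
      rw [hP]
      apply Nat.pow_le_pow_right (by norm_num)
      rw [hμ, hA']
      simp only [Nat.add_sub_cancel]
      nlinarith [Nat.zero_le (κ * s)]
    have e1 : 2 ^ μ * 2 ^ (2 * (κ - 1) * s) ≤ P := by
      rw [hP, ← pow_add]
      apply Nat.pow_le_pow_right (by norm_num)
      rw [hμ, hA', hκ']
      simp only [Nat.add_sub_cancel]
      nlinarith [Nat.zero_le (κ' * s), Nat.zero_le s]
    have e2 : C * (μ + 1) ^ 4 * 2 ^ μ * (a * (n * κ) + (a + 1)) ≤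
        C * (160000 * κ + 1) * X ^ 7 * P := by
      have f1 : 2 ^ μ * (a * (n * κ)) ≤ 160000 * κ * X ^ 3 * P := by
        calc 2 ^ μ * (a * (n * κ)) = (160000 * κ * (a * (a + 1) * (μ + 1))) *
              (2 ^ μ * 2 ^ (2 * (κ - 1) * s)) := by rw [hn]; ring
          _ ≤ (160000 * κ * (X * X * X)) * P := by
              apply Nat.mul_le_mul _ e1
              apply Nat.mul_le_mul_left
              exact Nat.mul_le_mul (Nat.mul_le_mul (by omega) haX) hμX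
          _ = 160000 * κ * X ^ 3 * P := by ring
      have f2 : 2 ^ μ * (a + 1) ≤ X * P := by
        rw [Nat.mul_comm]; exact Nat.mul_le_mul haX e0
      have f3 : 2 ^ μ * (a * (n * κ) + (a + 1)) ≤ (160000 * κ + 1) * X ^ 3 * P := by
        have f4 : X ≤ X ^ 3 := Nat.le_self_pow (by norm_num) X
        have f5 : X * P ≤ X ^ 3 * P := Nat.mul_le_mul_right _ f4
        rw [Nat.mul_add]
        nlinarith
      calc C * (μ + 1) ^ 4 * 2 ^ μ * (a * (n * κ) + (a + 1))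
          = C * (μ + 1) ^ 4 * (2 ^ μ * (a * (n * κ) + (a + 1))) := by ring
        _ ≤ C * X ^ 4 * ((160000 * κ + 1) * X ^ 3 * P) := by
            apply Nat.mul_le_mul _ f3
            exact Nat.mul_le_mul_left _ (Nat.pow_le_pow_left hμX 4)
        _ = _ := by ring
    have e3 : 34 * P * ((3 * (κ * (ρ + a) + 2) + 1) + a + 1) ≤ 34 * (3 * κ + 9) * X ^ 7 * P := by
      have f1 : (3 * (κ * (ρ + a) + 2) + 1) + a + 1 ≤ (3 * κ + 9) * X := by
        have f2 : κ * (ρ + a) ≤ κ * X := Nat.mul_le_mul_left _ (by omega)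
        nlinarith
      have f3 : (3 * (κ * (ρ + a) + 2) + 1) + a + 1 ≤ (3 * κ + 9) * X ^ 7 :=
        f1.trans (Nat.mul_le_mul_left _ hX7)
      calc 34 * P * ((3 * (κ * (ρ + a) + 2) + 1) + a + 1) ≤ 34 * P * ((3 * κ + 9) * X ^ 7) :=
            Nat.mul_le_mul_left _ f3
        _ = _ := by ring
    calc C * (μ + 1) ^ 4 * 2 ^ μ * (a * (n * κ) + (a + 1)) +
        34 * P * ((3 * (κ * (ρ + a) + 2) + 1) + a + 1)
        ≤ C * (160000 * κ + 1) * X ^ 7 * P + 34 * (3 * κ + 9) * X ^ 7 * P := Nat.add_le_add e2 e3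
      _ ≤ ((C * (160000 * κ + 1) + 34 * (3 * κ + 9) + (2 * κ + 3) + 1600) * X ^ 7) * P := by
          have g1 : 0 ≤ (2 * κ + 3) * X ^ 7 * P := Nat.zero_le _
          have g2 : 0 ≤ 1600 * X ^ 7 * P := Nat.zero_le _
          nlinarith
      _ ≤ 2 ^ s * P := Nat.mul_le_mul_right _ hpoly2
      _ = 2 ^ ((16 * k ^ 2 + 10 * k + 1) * s) := by
          rw [hP, ← pow_add]
          congr 1
          rw [hA, hκ]
          ring
  obtain ⟨N, F, hQF, hRF⟩ := transport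
    (GFun (Col := Fin (4 ^ μ)) (X := (Fin a × (Fin ρ → Bool)) × (Fin κ × (Fin a → Bool)))
      (kw := a) bad) _ p hp hpF (fun r => 2 ^ ((64 * k ^ 2 + 8 * k - 10) * s) ≤ 4 * r)
    (by
      intro r s' w hw hw1 T hT hcomp
      have h100 : 100 * 2 ^ (τ * s) ≤ 2 ^ a := by
        have g1 : 100 ≤ 2 ^ s := by omega
        calc 100 * 2 ^ (τ * s) ≤ 2 ^ s * 2 ^ (τ * s) := Nat.mul_le_mul_right _ g1
          _ = 2 ^ (s + τ * s) := by rw [pow_add]
          _ ≤ 2 ^ a := by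
              apply Nat.pow_le_pow_right (by norm_num)
              rw [ha, hτ, hκ']
              simp only [Nat.add_sub_cancel]
              have g2 : 2 * A * κ' - (2 * (κ' + 1) + 2) + 1 ≤ (κ' + 1) * (2 * A) := by
                have : 2 * A * κ' + 1 ≤ (κ' + 1) * (2 * A) := by
                  have : 1 ≤ A := by omega
                  nlinarith
                omega
              calc s + (2 * A * κ' - (2 * (κ' + 1) + 2)) * s =
                  (2 * A * κ' - (2 * (κ' + 1) + 2) + 1) * s := by ring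
                _ ≤ _ := Nat.mul_le_mul_right _ g2
      have h := gap_lower (Col := Fin (4 ^ μ)) a (2 ^ (τ * s)) Nat.one_le_two_pow bad Dl hDl0 hDl1
        hDlcert hDlhide h100 (by simpa using h100) r s' w hw hw1 T hT hcomp
      rw [hcardCol] at h
      refine le_trans (le_of_eq ?_) h
      rw [show 4 = 2 ^ 2 by norm_num, ← pow_mul, ← pow_add]
      congr 1
      rw [hμ, hτ, hA, hκ]
      have hk1 : 1 ≤ k := by omega
      obtain ⟨k', rfl⟩ : ∃ k', k = k' + 1 := ⟨k - 1, by omega⟩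
      have g1 : 4 * (2 * (k' + 1)) + 4 - 1 = 8 * k' + 11 := by omega
      have g2 : 2 * (k' + 1) - 1 = 2 * k' + 1 := by omega
      rw [g1, g2]
      have g3 : 2 * (4 * (2 * (k' + 1)) + 4) * (2 * k' + 1) - (2 * (2 * (k' + 1)) + 2) =
          32 * k' ^ 2 + 60 * k' + 18 := by
        apply Nat.sub_eq_of_eq_add
        ring
      have g4 : 64 * (k' + 1) ^ 2 + 8 * (k' + 1) - 10 = 64 * k' ^ 2 + 136 * k' + 62 := by
        apply Nat.sub_eq_of_eq_add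
        ring
      rw [g3, g4]
      ring)
  exact ⟨N, F, _, hcost, hQF, hRF⟩

theorem gap_final (k : ℕ) (hk : 2 ≤ k) :
    ∃ j₀ : ℕ, ∀ j : ℕ, j₀ ≤ j →
      ∃ (n : ℕ) (F : (Fin n → Bool) → Bool),
        (∃ q : ℕ, q ≤ 2 ^ j ∧ QuantumComputes F q) ∧
        (∀ r : ℕ, RandomizedComputes F r → ((4 : ℝ) ^ j) ^ (2 - 1 / (k : ℝ)) ≤ r) := by
  obtain ⟨s₀, hs₀⟩ := gap_scale k hk
  obtain ⟨D₀, hD₀⟩ : ∃ D₀, D₀ = 16 * k ^ 2 + 10 * k + 1 := ⟨_, rfl⟩
  have hD₀pos : 0 < D₀ := by omega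
  refine ⟨D₀ * (s₀ + D₀ + 1), fun j hj => ?_⟩
  obtain ⟨s, hs⟩ : ∃ s, s = j / D₀ := ⟨_, rfl⟩
  have hjs : D₀ * s ≤ j := by rw [hs]; exact Nat.mul_div_le j D₀
  have hjs2 : j < D₀ * (s + 1) := by
    rw [hs]; exact Nat.lt_mul_div_succ j hD₀pos
  have hs1 : s₀ + D₀ + 1 ≤ s := by
    rw [hs]
    exact (Nat.le_div_iff_mul_le hD₀pos).mpr (by rw [Nat.mul_comm]; exact hj)
  obtain ⟨n, F, q, hq, hQ, hR⟩ := hs₀ s (by omega)
  refine ⟨n, F, ⟨q, hq.trans ?_, hQ⟩, fun r hr => ?_⟩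
  · apply Nat.pow_le_pow_right (by norm_num)
    rw [← hD₀]; exact hjs
  · have h1 := hR r hr
    have hkR : (2 : ℝ) ≤ k := by exact_mod_cast hk
    have hk0 : (0 : ℝ) < k := by linarith
    have h2 : (2 : ℝ) ^ (((64 * (k : ℝ) ^ 2 + 8 * k - 10) * s - 2 : ℝ)) ≤ r := by
      have h3 : (2 : ℝ) ^ ((64 * k ^ 2 + 8 * k - 10) * s) ≤ 4 * r := by exact_mod_cast h1
      have h4 : (2 : ℝ) ^ ((64 * (k : ℝ) ^ 2 + 8 * k - 10) * s - 2 : ℝ) =
          (2 : ℝ) ^ ((64 * k ^ 2 + 8 * k - 10) * s) / 4 := by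
        rw [Real.rpow_sub (by norm_num)]
        congr 1
        · rw [← Real.rpow_natCast 2 ((64 * k ^ 2 + 8 * k - 10) * s)]
          congr 1
          have h10 : 10 ≤ 64 * k ^ 2 + 8 * k := by nlinarith
          rw [Nat.cast_mul, Nat.cast_sub h10]
          push_cast
          ring
        · norm_num
      rw [h4]; linarith
    refine le_trans ?_ h2
    have h5 : ((4 : ℝ) ^ j) ^ (2 - 1 / (k : ℝ)) = (2 : ℝ) ^ ((2 * j : ℝ) * (2 - 1 / (k : ℝ))) := by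
      rw [Real.rpow_mul (by norm_num)]
      congr 1
      rw [show (2 * j : ℝ) = ((2 * j : ℕ) : ℝ) by push_cast; ring, Real.rpow_natCast, pow_mul]
      norm_num
    rw [h5]
    apply Real.rpow_le_rpow_of_exponent_le (by norm_num)
    have h6 : (j : ℝ) ≤ (16 * (k : ℝ) ^ 2 + 10 * k + 1) * (s + 1) := by
      have : j ≤ (16 * k ^ 2 + 10 * k + 1) * (s + 1) := by rw [← hD₀]; omega
      exact_mod_cast this
    have h7 : (0 : ℝ) ≤ 2 - 1 / (k : ℝ) := by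
      have : 1 / (k : ℝ) ≤ 1 := by rw [div_le_one hk0]; linarith
      linarith
    have h8 : (16 * (k : ℝ) ^ 2 + 10 * k + 1) + 1 ≤ s := by
      have : (16 * k ^ 2 + 10 * k + 1) + 1 ≤ s := by omega
      exact_mod_cast this
    have h9 : (2 * (16 * (k : ℝ) ^ 2 + 10 * k + 1)) * (2 - 1 / (k : ℝ)) =
        64 * (k : ℝ) ^ 2 + 8 * k - 16 - 2 / k := by
      field_simp
      ring
    calc (2 * j : ℝ) * (2 - 1 / (k : ℝ))
        ≤ (2 * ((16 * (k : ℝ) ^ 2 + 10 * k + 1) * (s + 1))) * (2 - 1 / (k : ℝ)) := by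
          apply mul_le_mul_of_nonneg_right _ h7
          linarith
      _ = (64 * (k : ℝ) ^ 2 + 8 * k - 16 - 2 / k) * (s + 1) := by rw [← h9]; ring
      _ ≤ (64 * (k : ℝ) ^ 2 + 8 * k - 10) * s - 2 := by
          have h10 : 0 ≤ 2 / (k : ℝ) := by positivity
          have h11 : 0 ≤ (s : ℝ) := by positivity
          nlinarith

end Crest.Agent.QG
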