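import Crest.Agent.QG.GaussChain
import Crest.Agent.QG.Forr

/-!
# Chunk D: the hard distribution from correlated Gaussian latents

Let `H` be symmetric with `H * H = 1` on the finite index type `I`. Latents: for `s = 1..k-1`
independent standard Gaussian vectors `g_s, w_s`, `U_s = σ g_s`,
`V_s = σ (τ H g_s + sqrt(1-τ²) w_s)`, and `z^(1) = U_1`, `z^(s) = V_{s-1} U_s`, `z^(k) = V_{k-1}`.
`D` = law of the bits which are independent given the latents at `τ = 1`, with means `clip z`.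
-/

set_option autoImplicit false
set_option linter.unusedSectionVars false
set_option linter.unusedSimpArgs false

namespace Crest.Agent.QG

open Finset MeasureTheory ProbabilityTheory

variable {I : Type} [Fintype I] [DecidableEq I]

/-! ### tail bound -/

theorem continuous_hh : Continuous hh := by
  unfold hh; fun_prop

theorem hh_nonneg (u : ℝ) : 0 ≤ hh u := le_trans zero_le_one (one_le_hh u)

theorem hh_le (u : ℝ) : hh u ≤ 1 + 16 * u ^ 4 := by
  unfold hh
  have : 0 ≤ u ^ 4 := by positivity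
  exact max_le (by linarith) (by linarith)

theorem integrable_hh (σ : ℝ) : Integrable (fun x => hh (σ * x) ^ 2) (gaussianReal 0 1) := by
  have h1 : Integrable (fun x : ℝ => 1 + 32 * σ ^ 4 * x ^ 4 + 256 * σ ^ 8 * x ^ 8) (gaussianReal 0 1) :=
    ((integrable_const _).add ((gm_integrable_pow 4).const_mul _)).add ((gm_integrable_pow 8).const_mul _)
  refine h1.mono' (by
    have := continuous_hh
    exact Continuous.aestronglyMeasurable (by fun_prop)) (Filter.Eventually.of_forall (fun x => ?_))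
  have h2 := hh_le (σ * x)
  have h3 := hh_nonneg (σ * x)
  rw [Real.norm_of_nonneg (by positivity)]
  calc hh (σ * x) ^ 2 ≤ (1 + 16 * (σ * x) ^ 4) ^ 2 := by gcongr
    _ = _ := by ring

theorem tail_pi (J : Type) [Fintype J] (σ : ℝ) :
    ∫ x : J → ℝ, (∏ i, hh (σ * x i)) ^ 2 ∂(gam J) = tailMoment σ ^ Fintype.card J := by
  simp only [← Finset.prod_pow]
  rw [integral_fintype_prod_eq_prod (𝕜 := ℝ) (fun (_ : J) (t : ℝ) => hh (σ * t) ^ 2),
    Finset.prod_const, Finset.card_univ, tailMoment_eq]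

theorem tail_pi_integrable (J : Type) [Fintype J] (σ : ℝ) :
    Integrable (fun x : J → ℝ => (∏ i, hh (σ * x i)) ^ 2) (gam J) := by
  simp only [← Finset.prod_pow]
  exact Integrable.fintype_prod (𝕜 := ℝ) (f := fun (_ : J) (t : ℝ) => hh (σ * t) ^ 2)
    (fun _ => integrable_hh σ)

theorem tail_x (σ : ℝ) :
    ∫ x : I ⊕ I → ℝ, (∏ i, hh (σ * x (Sum.inl i))) ^ 2 ∂(gam (I ⊕ I)) =
      tailMoment σ ^ Fintype.card I := by
  have e : ∀ x : I ⊕ I → ℝ, (∏ i, hh (σ * x (Sum.inl i))) ^ 2 =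
      ∏ j, (Sum.elim (fun _ t => hh (σ * t) ^ 2) (fun _ _ => 1) : I ⊕ I → ℝ → ℝ) j (x j) := by
    intro x
    rw [Fintype.prod_sum_type]
    simp [Finset.prod_pow]
  simp only [e]
  rw [integral_fintype_prod_eq_prod (𝕜 := ℝ)
    (Sum.elim (fun _ t => hh (σ * t) ^ 2) (fun _ _ => 1) : I ⊕ I → ℝ → ℝ), Fintype.prod_sum_type]
  simp [tailMoment_eq]

theorem tail_x_integrable (σ : ℝ) :
    Integrable (fun x : I ⊕ I → ℝ => (∏ i, hh (σ * x (Sum.inl i))) ^ 2) (gam (I ⊕ I)) := by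
  have e : ∀ x : I ⊕ I → ℝ, (∏ i, hh (σ * x (Sum.inl i))) ^ 2 =
      ∏ j, (Sum.elim (fun _ t => hh (σ * t) ^ 2) (fun _ _ => 1) : I ⊕ I → ℝ → ℝ) j (x j) := by
    intro x
    rw [Fintype.prod_sum_type]
    simp [Finset.prod_pow]
  simp only [e]
  refine Integrable.fintype_prod (𝕜 := ℝ)
    (f := (Sum.elim (fun _ t => hh (σ * t) ^ 2) (fun _ _ => 1) : I ⊕ I → ℝ → ℝ)) (fun j => ?_)
  cases j with
  | inl j => exact integrable_hh σ
  | inr j => exact integrable_const _

theorem continuous_yv (H : Matrix I I ℝ) (τ : ℝ) (b : I) :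
    Continuous (fun x : I ⊕ I → ℝ => yv H τ x b) := by
  unfold yv; fun_prop

theorem measurable_yv (H : Matrix I I ℝ) (τ : ℝ) : Measurable (yv H τ) := by
  refine measurable_pi_lambda _ (fun b => ?_)
  exact (continuous_yv H τ b).measurable

theorem tail_y {H : Matrix I I ℝ} (hsym : H.IsSymm) (horth : H * H = 1) {τ : ℝ} (h0 : 0 ≤ τ)
    (h1 : τ ≤ 1) (σ : ℝ) :
    ∫ x : I ⊕ I → ℝ, (∏ i, hh (σ * yv H τ x i)) ^ 2 ∂(gam (I ⊕ I)) =
      tailMoment σ ^ Fintype.card I := by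
  rw [← tail_pi I σ, ← gam_map_yv hsym horth h0 h1, integral_map (measurable_yv H τ).aemeasurable]
  refine Continuous.aestronglyMeasurable ?_
  have := continuous_hh
  fun_prop

theorem tail_y_integrable {H : Matrix I I ℝ} (hsym : H.IsSymm) (horth : H * H = 1) {τ : ℝ}
    (h0 : 0 ≤ τ) (h1 : τ ≤ 1) (σ : ℝ) :
    Integrable (fun x : I ⊕ I → ℝ => (∏ i, hh (σ * yv H τ x i)) ^ 2) (gam (I ⊕ I)) := by
  have h := tail_pi_integrable I σ
  rw [← gam_map_yv hsym horth h0 h1] at h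
  exact h.comp_measurable (measurable_yv H τ)

/-- pointwise majorant -/
theorem Mx_sq_le {H : Matrix I I ℝ} {σ τ : ℝ} {n : ℕ} (ω : Fin (n + 1) → (I ⊕ I → ℝ)) :
    Mx (zz H σ τ ω) ^ 2 ≤ (∏ s, ∏ i, hh (σ * ω s (Sum.inl i))) *
      ∏ s, ∏ i, hh (σ * yv H τ (ω s) i) := by
  have h1 : Mx (zz H σ τ ω) ^ 2 = ∏ s, ∏ i, (max 1 (2 * |zz H σ τ ω (s, i)|)) ^ 2 := by
    rw [Mx, ← Finset.prod_pow, Fintype.prod_prod_type]
  have h2 : ∀ (s : Fin (n + 1 + 1)) (i : I), (max 1 (2 * |zz H σ τ ω (s, i)|)) ^ 2 ≤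
      Fin.snoc (α := fun _ => ℝ) (fun s : Fin (n + 1) => hh (σ * ω s (Sum.inl i))) 1 s *
      Fin.cons (α := fun _ => ℝ) 1 (fun s : Fin (n + 1) => hh (σ * yv H τ (ω s) i)) s := by
    intro s i
    simp only [zz]
    refine Fin.lastCases ?_ (fun s => ?_) s
    · rw [Fin.snoc_last, Fin.snoc_last, one_mul, one_mul]
      have : Fin.last (n + 1) = Fin.succ (Fin.last n) := rfl
      rw [this, Fin.cons_succ, Fin.cons_succ]
      exact max_sq_le_hh _
    · rw [Fin.snoc_castSucc, Fin.snoc_castSucc]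
      refine Fin.cases ?_ (fun s' => ?_) s
      · have : (Fin.castSucc (0 : Fin (n + 1))) = 0 := rfl
        rw [this, Fin.cons_zero, Fin.cons_zero, mul_one, mul_one]
        exact max_sq_le_hh _
      · have : (Fin.castSucc (Fin.succ s')) = Fin.succ (Fin.castSucc s') := rfl
        rw [this, Fin.cons_succ, Fin.cons_succ]
        exact max_mul_sq_le_hh _ _
  rw [h1]
  calc ∏ s, ∏ i, (max 1 (2 * |zz H σ τ ω (s, i)|)) ^ 2 ≤
      ∏ s : Fin (n + 1 + 1), ∏ i, (Fin.snoc (α := fun _ => ℝ) (fun s : Fin (n + 1) => hh (σ * ω s (Sum.inl i))) 1 s *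
      Fin.cons (α := fun _ => ℝ) 1 (fun s : Fin (n + 1) => hh (σ * yv H τ (ω s) i)) s) := by
        refine Finset.prod_le_prod (fun s _ => Finset.prod_nonneg (fun i _ => by positivity)) (fun s _ => ?_)
        exact Finset.prod_le_prod (fun i _ => by positivity) (fun i _ => h2 s i)
    _ = _ := by
        simp only [Finset.prod_mul_distrib]
        rw [Fin.prod_univ_castSucc (fun s : Fin (n + 1 + 1) => ∏ i : I,
          Fin.snoc (α := fun _ => ℝ) (fun s : Fin (n + 1) => hh (σ * ω s (Sum.inl i))) 1 s),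
          Fin.prod_univ_succ (fun s : Fin (n + 1 + 1) => ∏ i : I,
          Fin.cons (α := fun _ => ℝ) 1 (fun s : Fin (n + 1) => hh (σ * yv H τ (ω s) i)) s)]
        simp only [Fin.snoc_castSucc, Fin.snoc_last, Fin.cons_zero, Fin.cons_succ,
          Finset.prod_const_one, mul_one, one_mul]

theorem continuous_zz (H : Matrix I I ℝ) (σ τ : ℝ) {n : ℕ} (v : Fin (n + 1) × I) :
    Continuous (fun ω : Fin n → (I ⊕ I → ℝ) => zz H σ τ ω v) := by
  obtain ⟨s, i⟩ := v
  simp only [zz]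
  refine Continuous.mul ?_ ?_
  · refine Fin.lastCases ?_ (fun s => ?_) s
    · simp only [Fin.snoc_last]; exact continuous_const
    · simp only [Fin.snoc_castSucc]; fun_prop
  · refine Fin.cases ?_ (fun s => ?_) s
    · simp only [Fin.cons_zero]; exact continuous_const
    · simp only [Fin.cons_succ]
      have h : Continuous (fun ω : Fin n → (I ⊕ I → ℝ) => yv H τ (ω s) i) :=
        (continuous_yv H τ i).comp (continuous_apply s)
      exact continuous_const.mul h

theorem continuous_Mx {V : Type} [Fintype V] : Continuous (Mx : (V → ℝ) → ℝ) := by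
  unfold Mx; fun_prop

/-- the majorant is integrable with the right expectation -/
theorem Mx_tail {H : Matrix I I ℝ} (hsym : H.IsSymm) (horth : H * H = 1) {τ : ℝ} (h0 : 0 ≤ τ)
    (h1 : τ ≤ 1) (σ : ℝ) (n : ℕ) :
    Integrable (fun ω => Mx (zz H σ τ ω) ^ 2) (lam I (n + 1)) ∧
      ∫ ω, Mx (zz H σ τ ω) ^ 2 ∂(lam I (n + 1)) ≤ tailMoment σ ^ (Fintype.card I * (n + 1)) := by
  set a : (Fin (n + 1) → (I ⊕ I → ℝ)) → ℝ := fun ω => ∏ s, ∏ i, hh (σ * ω s (Sum.inl i)) with ha
  set b : (Fin (n + 1) → (I ⊕ I → ℝ)) → ℝ := fun ω => ∏ s, ∏ i, hh (σ * yv H τ (ω s) i) with hb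
  have ia : Integrable (fun ω => a ω ^ 2) (lam I (n + 1)) := by
    simp only [ha, ← Finset.prod_pow univ 2 (fun s => ∏ i, _)]
    exact Integrable.fintype_prod (𝕜 := ℝ) (f := fun (_ : Fin (n + 1)) (x : I ⊕ I → ℝ) =>
      (∏ i, hh (σ * x (Sum.inl i))) ^ 2) (fun _ => tail_x_integrable σ)
  have ib : Integrable (fun ω => b ω ^ 2) (lam I (n + 1)) := by
    simp only [hb, ← Finset.prod_pow univ 2 (fun s => ∏ i, _)]
    exact Integrable.fintype_prod (𝕜 := ℝ) (f := fun (_ : Fin (n + 1)) (x : I ⊕ I → ℝ) =>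
      (∏ i, hh (σ * yv H τ x i)) ^ 2) (fun _ => tail_y_integrable hsym horth h0 h1 σ)
  have va : ∫ ω, a ω ^ 2 ∂(lam I (n + 1)) = tailMoment σ ^ (Fintype.card I * (n + 1)) := by
    simp only [ha, ← Finset.prod_pow univ 2 (fun s => ∏ i, _)]
    rw [integral_fintype_prod_eq_prod (𝕜 := ℝ) (fun (_ : Fin (n + 1)) (x : I ⊕ I → ℝ) =>
      (∏ i, hh (σ * x (Sum.inl i))) ^ 2)]
    simp only [tail_x]
    rw [Finset.prod_const, Finset.card_univ, Fintype.card_fin, ← pow_mul]
  have vb : ∫ ω, b ω ^ 2 ∂(lam I (n + 1)) = tailMoment σ ^ (Fintype.card I * (n + 1)) := by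
    simp only [hb, ← Finset.prod_pow univ 2 (fun s => ∏ i, _)]
    rw [integral_fintype_prod_eq_prod (𝕜 := ℝ) (fun (_ : Fin (n + 1)) (x : I ⊕ I → ℝ) =>
      (∏ i, hh (σ * yv H τ x i)) ^ 2)]
    simp only [tail_y hsym horth h0 h1]
    rw [Finset.prod_const, Finset.card_univ, Fintype.card_fin, ← pow_mul]
  have hdom : ∀ ω, Mx (zz H σ τ ω) ^ 2 ≤ (a ω ^ 2 + b ω ^ 2) / 2 := by
    intro ω
    refine (Mx_sq_le ω).trans ?_
    have := sq_nonneg (a ω - b ω)
    simp only [ha, hb] at this ⊢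
    nlinarith
  have iab : Integrable (fun ω => (a ω ^ 2 + b ω ^ 2) / 2) (lam I (n + 1)) := (ia.add ib).div_const 2
  have hcont : Continuous (fun ω : Fin (n + 1) → (I ⊕ I → ℝ) => Mx (zz H σ τ ω) ^ 2) := by
    refine Continuous.pow ?_ 2
    exact continuous_Mx.comp (continuous_pi (fun v => continuous_zz H σ τ v))
  have iM : Integrable (fun ω => Mx (zz H σ τ ω) ^ 2) (lam I (n + 1)) := by
    refine iab.mono' hcont.aestronglyMeasurable (Filter.Eventually.of_forall (fun ω => ?_))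
    rw [Real.norm_of_nonneg (by positivity)]
    exact hdom ω
  refine ⟨iM, ?_⟩
  calc ∫ ω, Mx (zz H σ τ ω) ^ 2 ∂(lam I (n + 1)) ≤ ∫ ω, (a ω ^ 2 + b ω ^ 2) / 2 ∂(lam I (n + 1)) :=
        integral_mono iM iab hdom
    _ = tailMoment σ ^ (Fintype.card I * (n + 1)) := by
        rw [integral_div, integral_add ia ib, va, vb]; ring

/-! ### interpolation -/

theorem integrable_dext {n : ℕ} (H : Matrix I I ℝ) (σ τ : ℝ) (f : (Fin (n + 1) × I → Bool) → ℝ)
    (T : Finset (Fin (n + 1) × I)) :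
    Integrable (fun ω => dext f T (zz H σ τ ω)) (lam I n) := by
  simp only [dext_expand]
  refine integrable_finsetSum _ (fun S _ => ?_)
  by_cases h : T ⊆ S
  · simp only [if_pos h]
    exact (integrable_zz H σ τ _).const_mul _
  · simp only [if_neg h]
    exact integrable_zero _ _ _

theorem integral_dext {n : ℕ} (H : Matrix I I ℝ) (σ τ : ℝ) (f : (Fin (n + 1) × I → Bool) → ℝ)
    (T : Finset (Fin (n + 1) × I)) :
    ∫ ω, dext f T (zz H σ τ ω) ∂(lam I n) =
      ∑ S : Finset (Fin (n + 1) × I), if T ⊆ S then fc f S * ee H σ τ (S \ T) else 0 := by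
  simp only [dext_expand]
  rw [integral_finsetSum]
  · refine Finset.sum_congr rfl (fun S _ => ?_)
    by_cases h : T ⊆ S
    · simp only [if_pos h]
      rw [integral_const_mul, ee]
    · simp only [if_neg h, integral_zero]
  · intro S _
    by_cases h : T ⊆ S
    · simp only [if_pos h]
      exact (integrable_zz H σ τ _).const_mul _
    · simp only [if_neg h]
      exact integrable_zero _ _ _

theorem integrable_ext {n : ℕ} (H : Matrix I I ℝ) (σ τ : ℝ) (f : (Fin (n + 1) × I → Bool) → ℝ) :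
    Integrable (fun ω => ext f (zz H σ τ ω)) (lam I n) := by
  simp only [ext_expand]
  exact integrable_finsetSum _ (fun S _ => (integrable_zz H σ τ _).const_mul _)

theorem integral_ext {n : ℕ} (H : Matrix I I ℝ) (σ τ : ℝ) (f : (Fin (n + 1) × I → Bool) → ℝ) :
    ∫ ω, ext f (zz H σ τ ω) ∂(lam I n) =
      ∑ S : Finset (Fin (n + 1) × I), fc f S * ee H σ τ S := by
  simp only [ext_expand]
  rw [integral_finsetSum]
  · refine Finset.sum_congr rfl (fun S _ => ?_)
    rw [integral_const_mul, ee]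
  · exact fun S _ => (integrable_zz H σ τ _).const_mul _

theorem interpolation {H : Matrix I I ℝ} (hsym : H.IsSymm) (horth : H * H = 1) {σ : ℝ} (hσ : 0 < σ)
    (n : ℕ) (δ : ℝ) (hδ : tailMoment σ ^ (Fintype.card I * (n + 1)) ≤ 1 + δ)
    (f : (Fin (n + 1 + 1) × I → Bool) → ℝ) (Λ : ℝ) (hΛ0 : 0 ≤ Λ)
    (hΛ : ∀ z : Fin (n + 1 + 1) × I → ℝ, (∀ v, |z v| ≤ 1 / 2) →
      |∑ i : Fin (n + 1 + 1) → I, chain H i * dext f (layerSet i) z| ≤ Λ) :
    |∫ ω, ext f (zz H σ 1 ω) ∂(lam I (n + 1)) - ext f 0| ≤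
      ((n + 1 : ℕ) : ℝ) * σ ^ (2 * (n + 1)) * (Λ * (1 + δ)) := by
  classical
  -- the polynomial
  set g : ℝ → ℝ := fun τ => ∑ S : Finset (Fin (n + 1 + 1) × I),
    fc f S * (τ ^ ((n + 1) * (lay S 0).card) * ee H σ 1 S) with hg
  set g' : ℝ → ℝ := fun τ => ∑ S : Finset (Fin (n + 1 + 1) × I),
    fc f S * ((((n + 1) * (lay S 0).card : ℕ) : ℝ) * τ ^ ((n + 1) * (lay S 0).card - 1) * ee H σ 1 S) with hg'
  have hderiv : ∀ τ, HasDerivAt g (g' τ) τ := by
    intro τ
    rw [hg, hg']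
    refine HasDerivAt.fun_sum (fun S _ => ?_)
    exact ((hasDerivAt_pow _ τ).mul_const _).const_mul _
  have hg1 : g 1 = ∫ ω, ext f (zz H σ 1 ω) ∂(lam I (n + 1)) := by
    rw [integral_ext, hg]
    simp
  have hg0 : g 0 = ext f 0 := by
    rw [ext_expand, hg]
    refine Finset.sum_congr rfl (fun S _ => ?_)
    congr 1
    by_cases hS : S = ∅
    · subst hS
      simp [lay, ee_empty]
    · obtain ⟨v, hv⟩ := Finset.nonempty_iff_ne_empty.2 hS
      have e1 : ∏ v ∈ S, (0 : Fin (n + 1 + 1) × I → ℝ) v = 0 := Finset.prod_eq_zero hv rfl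
      rw [e1]
      by_cases hc : (lay S 0).card = 0
      · rw [ee_one_zero_layer hsym horth hc hS, mul_zero]
      · rw [zero_pow (Nat.mul_ne_zero (Nat.succ_ne_zero n) hc), zero_mul]
  obtain ⟨τ, hτ, hslope⟩ := exists_hasDerivAt_eq_slope g g' (zero_lt_one)
    (fun x _ => (hderiv x).continuousAt.continuousWithinAt) (fun x _ => hderiv x)
  obtain ⟨hτ0, hτ1⟩ := hτ
  rw [sub_zero, div_one, hg1, hg0] at hslope
  rw [← hslope]
  -- expected value of the chain derivative
  set G : (Fin (n + 1 + 1) × I → ℝ) → ℝ := fun z =>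
    ∑ i : Fin (n + 1 + 1) → I, chain H i * dext f (layerSet i) z with hG
  have hGint : ∫ ω, G (zz H σ τ ω) ∂(lam I (n + 1)) =
      (∑ S : Finset (Fin (n + 1 + 1) × I), fc f S * ((lay S 0).card * ee H σ τ S)) /
        (σ ^ 2 * τ) ^ (n + 1) := by
    simp only [hG]
    rw [integral_finsetSum]
    · simp only [integral_const_mul, integral_dext]
      rw [Finset.sum_div]
      simp only [Finset.mul_sum]
      rw [Finset.sum_comm]
      refine Finset.sum_congr rfl (fun S _ => ?_)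
      rw [mul_div_assoc, ← ee_chain hsym horth hσ hτ0 hτ1.le S, Finset.mul_sum]
      refine Finset.sum_congr rfl (fun i _ => ?_)
      split_ifs
      · ring
      · simp
    · exact fun i _ => (integrable_dext H σ τ f _).const_mul _
  have hGi : Integrable (fun ω => G (zz H σ τ ω)) (lam I (n + 1)) := by
    simp only [hG]
    exact integrable_finsetSum _ (fun i _ => (integrable_dext H σ τ f _).const_mul _)
  have hGsep : SepAffine G := by
    rw [hG]
    exact SepAffine.sum _ _ (fun i _ => (sepAffine_dext f _).const_mul _)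
  have hGbound : ∀ z, |G z| ≤ Λ * Mx z := sepAffine_bound hGsep hΛ
  obtain ⟨iM, vM⟩ := Mx_tail hsym horth hτ0.le hτ1.le σ n
  have hGabs : |∫ ω, G (zz H σ τ ω) ∂(lam I (n + 1))| ≤ Λ * (1 + δ) := by
    calc |∫ ω, G (zz H σ τ ω) ∂(lam I (n + 1))| ≤ ∫ ω, |G (zz H σ τ ω)| ∂(lam I (n + 1)) :=
          abs_integral_le_integral_abs
      _ ≤ ∫ ω, Λ * Mx (zz H σ τ ω) ^ 2 ∂(lam I (n + 1)) := by
          refine integral_mono hGi.abs (iM.const_mul Λ) (fun ω => ?_)
          refine (hGbound _).trans ?_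
          have := one_le_Mx (zz H σ τ ω)
          have h2 : Mx (zz H σ τ ω) ≤ Mx (zz H σ τ ω) ^ 2 := by nlinarith
          exact mul_le_mul_of_nonneg_left h2 hΛ0
      _ = Λ * ∫ ω, Mx (zz H σ τ ω) ^ 2 ∂(lam I (n + 1)) := integral_const_mul _ _
      _ ≤ Λ * (1 + δ) := mul_le_mul_of_nonneg_left (vM.trans hδ) hΛ0
  have hg'eq : g' τ = ((n + 1 : ℕ) : ℝ) * σ ^ (2 * (n + 1)) * τ ^ n * ∫ ω, G (zz H σ τ ω) ∂(lam I (n + 1)) := by
    rw [hGint, hg']
    simp only
    rw [mul_div_assoc', eq_div_iff (by positivity), Finset.mul_sum, Finset.sum_mul]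
    refine Finset.sum_congr rfl (fun S _ => ?_)
    rw [ee_tau hsym horth hτ0.le hτ1.le S]
    rcases Nat.eq_zero_or_pos (lay S 0).card with hc | hc
    · rw [hc]; simp
    · obtain ⟨m, hm⟩ : ∃ m, (n + 1) * (lay S 0).card = m + 1 :=
        ⟨_, (Nat.succ_pred_eq_of_pos (Nat.mul_pos (Nat.succ_pos n) hc)).symm⟩
      have e1 : (((n + 1) * (lay S 0).card : ℕ) : ℝ) = ((n + 1 : ℕ) : ℝ) * ((lay S 0).card : ℝ) := by
        push_cast; ring
      rw [e1, hm, Nat.add_sub_cancel]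
      have e2 : (σ ^ 2 * τ) ^ (n + 1) = σ ^ (2 * (n + 1)) * (τ ^ n * τ) := by
        rw [mul_pow, ← pow_mul, pow_succ τ n]
      rw [e2, pow_succ τ m]
      ring
  rw [hg'eq, abs_mul]
  have hn0 : (0 : ℝ) ≤ ((n + 1 : ℕ) : ℝ) * σ ^ (2 * (n + 1)) := by positivity
  rw [abs_of_nonneg (by positivity)]
  calc ((n + 1 : ℕ) : ℝ) * σ ^ (2 * (n + 1)) * τ ^ n * |∫ ω, G (zz H σ τ ω) ∂(lam I (n + 1))| ≤
      ((n + 1 : ℕ) : ℝ) * σ ^ (2 * (n + 1)) * 1 * (Λ * (1 + δ)) := by
        refine mul_le_mul ?_ hGabs (abs_nonneg _) (by positivity)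
        exact mul_le_mul_of_nonneg_left (pow_le_one₀ hτ0.le hτ1.le) hn0
    _ = _ := by ring

/-! ### the distribution -/

theorem continuous_clip : Continuous clip := by
  unfold clip; fun_prop

/-- Existence of the hard distribution (chunk D main theorem). -/
theorem gaussian_distribution {I : Type} [Fintype I] [DecidableEq I] [Nonempty I]
    (H : Matrix I I ℝ) (hsym : H.IsSymm) (horth : H * H = 1) (k : ℕ) (hk : 2 ≤ k)
    (σ : ℝ) (hσ : 0 < σ) (hσ1 : σ ≤ 1) (δ : ℝ) (hδ0 : 0 ≤ δ)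
    (hδ : tailMoment σ ^ (Fintype.card I * (k - 1)) ≤ 1 + δ) :
    ∃ D : (Fin k × I → Bool) → ℝ, (∀ x, 0 ≤ D x) ∧ ∑ x, D x = 1 ∧
      (∀ f : (Fin k × I → Bool) → ℝ, (∀ x, |f x| ≤ 1) → ∀ Λ : ℝ, 0 ≤ Λ →
        (∀ z : Fin k × I → ℝ, (∀ v, |z v| ≤ 1 / 2) →
          |∑ i : Fin k → I, chain H i * dext f (layerSet i) z| ≤ Λ) →
        |∑ x, D x * f x - ext f 0| ≤ (k - 1 : ℕ) * σ ^ (2 * (k - 1)) * (Λ * (1 + δ)) + 2 * δ) ∧
      σ ^ (2 * (k - 1)) - 2 * δ ≤ ∑ x, D x * forr H x := by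
  classical
  obtain ⟨n, rfl⟩ : ∃ n, k = n + 1 + 1 := ⟨k - 2, by omega⟩
  simp only [Nat.add_sub_cancel] at hδ ⊢
  set w : (Fin (n + 1 + 1) × I → Bool) → (Fin (n + 1) → (I ⊕ I → ℝ)) → ℝ :=
    fun x ω => ∏ v, (1 + sg (x v) * clip (zz H σ 1 ω v)) / 2 with hw
  have hw0 : ∀ x ω, 0 ≤ w x ω := fun x ω =>
    prod_bits_nonneg (z := fun v => clip (zz H σ 1 ω v)) (fun v => abs_clip_le _) x
  have hwsum : ∀ ω, ∑ x, w x ω = 1 := fun ω => sum_prod_bits (fun v => clip (zz H σ 1 ω v))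
  have hw1 : ∀ x ω, w x ω ≤ 1 := by
    intro x ω
    rw [← hwsum ω]
    exact Finset.single_le_sum (fun y _ => hw0 y ω) (Finset.mem_univ x)
  have hwc : ∀ x, Continuous (w x) := by
    intro x
    simp only [hw]
    refine continuous_finsetProd _ (fun v _ => ?_)
    exact (continuous_const.add (continuous_const.mul (continuous_clip.comp (continuous_zz H σ 1 v)))).div_const 2
  have hwi : ∀ x, Integrable (w x) (lam I (n + 1)) := by
    intro x
    refine (integrable_const (1 : ℝ)).mono' (hwc x).aestronglyMeasurable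
      (Filter.Eventually.of_forall (fun ω => ?_))
    rw [Real.norm_of_nonneg (hw0 x ω)]
    exact hw1 x ω
  have hDf : ∀ f : (Fin (n + 1 + 1) × I → Bool) → ℝ,
      ∑ x, (∫ ω, w x ω ∂(lam I (n + 1))) * f x =
        ∫ ω, ext f (fun v => clip (zz H σ 1 ω v)) ∂(lam I (n + 1)) := by
    intro f
    have e : ∀ ω, ext f (fun v => clip (zz H σ 1 ω v)) = ∑ x, w x ω * f x := by
      intro ω
      rw [ext]
      refine Finset.sum_congr rfl (fun x _ => by rw [mul_comm])
    simp only [e]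
    rw [integral_finsetSum]
    · refine Finset.sum_congr rfl (fun x _ => ?_)
      rw [integral_mul_const]
    · exact fun x _ => (hwi x).mul_const _
  obtain ⟨iM, vM⟩ := Mx_tail hsym horth zero_le_one le_rfl σ n
  have hclip : ∀ f : (Fin (n + 1 + 1) × I → Bool) → ℝ, (∀ x, |f x| ≤ 1) →
      |∑ x, (∫ ω, w x ω ∂(lam I (n + 1))) * f x - ∫ ω, ext f (zz H σ 1 ω) ∂(lam I (n + 1))| ≤ δ := by
    intro f hf
    have ic : Integrable (fun ω => ext f (fun v => clip (zz H σ 1 ω v))) (lam I (n + 1)) := by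
      have e : ∀ ω, ext f (fun v => clip (zz H σ 1 ω v)) = ∑ x, w x ω * f x := by
        intro ω
        rw [ext]
        refine Finset.sum_congr rfl (fun x _ => by rw [mul_comm])
      simp only [e]
      exact integrable_finsetSum _ (fun x _ => (hwi x).mul_const _)
    have ie := integrable_ext H σ 1 f
    rw [hDf, ← integral_sub ic ie]
    calc |∫ ω, (ext f (fun v => clip (zz H σ 1 ω v)) - ext f (zz H σ 1 ω)) ∂(lam I (n + 1))| ≤
        ∫ ω, |ext f (fun v => clip (zz H σ 1 ω v)) - ext f (zz H σ 1 ω)| ∂(lam I (n + 1)) :=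
          abs_integral_le_integral_abs
      _ ≤ ∫ ω, (Mx (zz H σ 1 ω) ^ 2 - 1) ∂(lam I (n + 1)) :=
          integral_mono (ic.sub ie).abs (iM.sub (integrable_const _)) (fun ω => abs_ext_clip_sub_le hf _)
      _ = ∫ ω, Mx (zz H σ 1 ω) ^ 2 ∂(lam I (n + 1)) - 1 := by
          rw [integral_sub iM (integrable_const _)]; simp
      _ ≤ δ := by linarith [vM.trans hδ]
  refine ⟨fun x => ∫ ω, w x ω ∂(lam I (n + 1)), ?_, ?_, ?_, ?_⟩
  · intro x
    exact integral_nonneg (hw0 x)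
  · rw [← integral_finsetSum _ (fun x _ => hwi x)]
    simp [hwsum]
  · intro f hf Λ hΛ0 hΛ
    have h1 := hclip f hf
    have h2 := interpolation hsym horth hσ n δ hδ f Λ hΛ0 hΛ
    have h3 := abs_sub_le (∑ x, (∫ ω, w x ω ∂(lam I (n + 1))) * f x)
      (∫ ω, ext f (zz H σ 1 ω) ∂(lam I (n + 1))) (ext f 0)
    linarith
  · have h1 := hclip (forr H) (fun x => abs_forr_le_one (by omega) H hsym horth x)
    have h2 : ∫ ω, ext (forr H) (zz H σ 1 ω) ∂(lam I (n + 1)) = σ ^ (2 * (n + 1)) := by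
      have e1 : ∀ z : Fin (n + 1 + 1) × I → ℝ, ext (forr H) z = ∑ i : Fin (n + 1 + 1) → I,
          (1 / (Fintype.card I : ℝ)) * chain H i * ∏ v ∈ layerSet i, z v := by
        intro z
        have e2 : ∀ x : Fin (n + 1 + 1) × I → Bool, forr H x = ∑ i : Fin (n + 1 + 1) → I,
            (1 / (Fintype.card I : ℝ)) * chain H i * ∏ v ∈ layerSet i, sg (x v) := by
          intro x
          rw [forr, Finset.mul_sum]
          refine Finset.sum_congr rfl (fun i _ => ?_)
          rw [layerSet, Finset.prod_image]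
          · ring
          · intro a _ b _ hab
            exact (Prod.mk.inj hab).1
        rw [ext]
        simp only [e2, Finset.sum_mul]
        rw [Finset.sum_comm]
        refine Finset.sum_congr rfl (fun i _ => ?_)
        rw [← ext_char, ext, Finset.mul_sum]
        refine Finset.sum_congr rfl (fun x _ => by ring)
      simp only [e1]
      rw [integral_finsetSum]
      · have e3 : ∀ i : Fin (n + 1 + 1) → I,
            ∫ ω, (1 / (Fintype.card I : ℝ)) * chain H i * ∏ v ∈ layerSet i, zz H σ 1 ω v ∂(lam I (n + 1)) =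
            (1 / (Fintype.card I : ℝ)) * σ ^ (2 * (n + 1)) * chain H i ^ 2 := by
          intro i
          rw [integral_const_mul]
          have := ee_layerSet hsym (σ := σ) i
          rw [ee] at this
          rw [this]
          ring
        simp only [e3]
        rw [← Finset.mul_sum, sum_chain_sq hsym horth]
        have : (Fintype.card I : ℝ) ≠ 0 := by
          exact_mod_cast Fintype.card_ne_zero
        field_simp
      · exact fun i _ => (integrable_zz H σ 1 _).const_mul _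
    rw [h2] at h1
    have := abs_le.1 h1
    linarith [this.1]

end Crest.Agent.QG
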