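import Crest.Agent.QG.GaussLaw

/-!
# Chunk D, part 3: the layered latents, path sums, Fourier expansions
-/

set_option autoImplicit false
set_option linter.unusedSectionVars false
set_option linter.unusedSimpArgs false

namespace Crest.Agent.QG

open Finset MeasureTheory ProbabilityTheory

variable {I : Type} [Fintype I] [DecidableEq I]

/-! ### path sums -/

theorem path_sum_aux : ∀ (n : ℕ) (A : Fin (n + 1) → Finset I) (T : Fin n → I → I → ℝ)
    (c : Fin n → ℝ), (∀ s, ∀ i ∈ A s.castSucc, ∑ j ∈ A s.succ, T s i j = c s) →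
    ∀ i₀ ∈ A 0, ∑ i : Fin n → I, (if ∀ s, i s ∈ A s.succ then
      ∏ s : Fin n, T s (Fin.cons (α := fun _ => I) i₀ i s.castSucc) (i s) else 0) = ∏ s, c s := by
  intro n
  induction n with
  | zero =>
    intro A T c hT i₀ hi₀
    simp
  | succ n ih =>
    intro A T c hT i₀ hi₀
    have h1 : ∀ i₁ ∈ A 1, ∑ i : Fin n → I, (if ∀ s, i s ∈ A s.succ.succ then
        ∏ s : Fin n, T s.succ (Fin.cons (α := fun _ => I) i₁ i s.castSucc) (i s) else 0) =
          ∏ s : Fin n, c s.succ := by
      intro i₁ hi₁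
      exact ih (fun s => A s.succ) (fun s => T s.succ) (fun s => c s.succ)
        (fun s i hi => hT s.succ i hi) i₁ hi₁
    rw [← (Fin.consEquiv (fun _ => I)).sum_comp, Fintype.sum_prod_type]
    have h2 : ∀ (i₁ : I) (i : Fin n → I),
        (if ∀ s, (Fin.consEquiv (fun _ : Fin (n + 1) => I)) (i₁, i) s ∈ A s.succ then
          ∏ s : Fin (n + 1), T s (Fin.cons (α := fun _ => I) i₀
            ((Fin.consEquiv (fun _ : Fin (n + 1) => I)) (i₁, i)) s.castSucc)
            ((Fin.consEquiv (fun _ : Fin (n + 1) => I)) (i₁, i) s) else 0) =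
        if i₁ ∈ A 1 then T 0 i₀ i₁ * (if ∀ s, i s ∈ A s.succ.succ then
          ∏ s : Fin n, T s.succ (Fin.cons (α := fun _ => I) i₁ i s.castSucc) (i s) else 0) else 0 := by
      intro i₁ i
      have e0 : (Fin.consEquiv (fun _ : Fin (n + 1) => I)) (i₁, i) = Fin.cons (α := fun _ => I) i₁ i := rfl
      rw [e0]
      have e1 : (∀ s, Fin.cons (α := fun _ => I) i₁ i s ∈ A s.succ) ↔
          (i₁ ∈ A 1 ∧ ∀ s, i s ∈ A s.succ.succ) := by
        rw [Fin.forall_fin_succ]
        simp only [Fin.cons_zero, Fin.cons_succ]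
        rfl
      have e2 : ∏ s : Fin (n + 1), T s (Fin.cons (α := fun _ => I) i₀ (Fin.cons (α := fun _ => I) i₁ i)
          s.castSucc) (Fin.cons (α := fun _ => I) i₁ i s) =
          T 0 i₀ i₁ * ∏ s : Fin n, T s.succ (Fin.cons (α := fun _ => I) i₁ i s.castSucc) (i s) := by
        rw [Fin.prod_univ_succ]
        simp only [Fin.cons_zero, Fin.cons_succ]
        congr 1
      rw [e2]
      by_cases h : i₁ ∈ A 1
      · by_cases h' : ∀ s, i s ∈ A s.succ.succ
        · rw [if_pos (e1.2 ⟨h, h'⟩), if_pos h, if_pos h']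
        · rw [if_neg (fun hh => h' (e1.1 hh).2), if_pos h, if_neg h', mul_zero]
      · rw [if_neg (fun hh => h (e1.1 hh).1), if_neg h]
    simp only [h2]
    have h3 : ∀ i₁ : I, ∑ i : Fin n → I, (if i₁ ∈ A 1 then T 0 i₀ i₁ * (if ∀ s, i s ∈ A s.succ.succ then
          ∏ s : Fin n, T s.succ (Fin.cons (α := fun _ => I) i₁ i s.castSucc) (i s) else 0) else 0) =
        if i₁ ∈ A 1 then T 0 i₀ i₁ * ∏ s : Fin n, c s.succ else 0 := by
      intro i₁
      by_cases h : i₁ ∈ A 1
      · simp only [if_pos h]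
        rw [← Finset.mul_sum, h1 i₁ h]
      · simp only [if_neg h, Finset.sum_const_zero]
    simp only [h3]
    rw [← Finset.sum_filter, Finset.filter_mem_eq_inter, Finset.univ_inter, ← Finset.sum_mul,
      Fin.prod_univ_succ]
    congr 1
    exact hT 0 i₀ hi₀

theorem path_sum (n : ℕ) (A : Fin (n + 1) → Finset I) (T : Fin n → I → I → ℝ)
    (c : Fin n → ℝ) (hT : ∀ s, ∀ i ∈ A s.castSucc, ∑ j ∈ A s.succ, T s i j = c s) :
    ∑ i : Fin (n + 1) → I, (if ∀ s, i s ∈ A s then
      ∏ s : Fin n, T s (i s.castSucc) (i s.succ) else 0) = (A 0).card * ∏ s, c s := by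
  rw [← (Fin.consEquiv (fun _ => I)).sum_comp, Fintype.sum_prod_type]
  have h2 : ∀ (i₀ : I), ∑ i : Fin n → I,
      (if ∀ s, (Fin.consEquiv (fun _ : Fin (n + 1) => I)) (i₀, i) s ∈ A s then
        ∏ s : Fin n, T s ((Fin.consEquiv (fun _ : Fin (n + 1) => I)) (i₀, i) s.castSucc)
          ((Fin.consEquiv (fun _ : Fin (n + 1) => I)) (i₀, i) s.succ) else 0) =
      if i₀ ∈ A 0 then ∏ s, c s else 0 := by
    intro i₀
    have e0 : ∀ i, (Fin.consEquiv (fun _ : Fin (n + 1) => I)) (i₀, i) = Fin.cons (α := fun _ => I) i₀ i :=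
      fun _ => rfl
    by_cases h : i₀ ∈ A 0
    · rw [if_pos h, ← path_sum_aux n A T c hT i₀ h]
      refine Finset.sum_congr rfl (fun i _ => ?_)
      rw [e0]
      have e1 : (∀ s, Fin.cons (α := fun _ => I) i₀ i s ∈ A s) ↔ (∀ s, i s ∈ A s.succ) := by
        rw [Fin.forall_fin_succ]
        simp only [Fin.cons_zero, Fin.cons_succ]
        exact ⟨fun hh => hh.2, fun hh => ⟨h, hh⟩⟩
      simp only [e1, Fin.cons_succ]
    · rw [if_neg h]
      refine Finset.sum_eq_zero (fun i _ => ?_)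
      rw [e0, if_neg]
      intro hh
      exact h (by simpa using hh 0)
  simp only [h2]
  rw [← Finset.sum_filter, Finset.filter_mem_eq_inter, Finset.univ_inter, Finset.sum_const,
    nsmul_eq_mul]

theorem chain_eq (H : Matrix I I ℝ) (n : ℕ) (i : Fin (n + 1) → I) :
    chain H i = ∏ s : Fin n, H (i s.castSucc) (i s.succ) := rfl

/-! ### latents -/

/-- latents at interpolation parameter `τ` -/
noncomputable def zz (H : Matrix I I ℝ) (σ τ : ℝ) {n : ℕ} (ω : Fin n → (I ⊕ I → ℝ))
    (v : Fin (n + 1) × I) : ℝ :=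
  Fin.snoc (α := fun _ => ℝ) (fun s : Fin n => σ * ω s (Sum.inl v.2)) 1 v.1 *
    Fin.cons (α := fun _ => ℝ) 1 (fun s : Fin n => σ * yv H τ (ω s) v.2) v.1

/-- the latent measure -/
noncomputable abbrev lam (I : Type) [Fintype I] (n : ℕ) : Measure (Fin n → (I ⊕ I → ℝ)) :=
  Measure.pi (fun _ => gam (I ⊕ I))

/-- the layers of a set of variables -/
def lay {n : ℕ} (S : Finset (Fin (n + 1) × I)) (s : Fin (n + 1)) : Finset I :=
  univ.filter (fun i => (s, i) ∈ S)

theorem mem_lay {n : ℕ} {S : Finset (Fin (n + 1) × I)} {s : Fin (n + 1)} {i : I} :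
    i ∈ lay S s ↔ (s, i) ∈ S := by simp [lay]

theorem prod_zz (H : Matrix I I ℝ) (σ τ : ℝ) {n : ℕ} (ω : Fin n → (I ⊕ I → ℝ))
    (S : Finset (Fin (n + 1) × I)) :
    ∏ v ∈ S, zz H σ τ ω v = ∏ s : Fin n, (σ ^ ((lay S s.castSucc).card + (lay S s.succ).card) *
      ((∏ a ∈ lay S s.castSucc, ω s (Sum.inl a)) * ∏ b ∈ lay S s.succ, yv H τ (ω s) b)) := by
  have h1 : ∏ v ∈ S, zz H σ τ ω v = ∏ s : Fin (n + 1), ∏ i ∈ lay S s, zz H σ τ ω (s, i) := by
    rw [← Fintype.prod_ite_mem S (fun v => zz H σ τ ω v)]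
    rw [Fintype.prod_prod_type]
    refine Finset.prod_congr rfl (fun s _ => ?_)
    rw [lay, Finset.prod_filter]
  rw [h1]
  simp only [zz, Finset.prod_mul_distrib]
  rw [Fin.prod_univ_castSucc (fun s : Fin (n + 1) => ∏ x ∈ lay S s,
    Fin.snoc (α := fun _ => ℝ) (fun s : Fin n => σ * ω s (Sum.inl x)) 1 s),
    Fin.prod_univ_succ (fun s : Fin (n + 1) => ∏ x ∈ lay S s,
    Fin.cons (α := fun _ => ℝ) 1 (fun s : Fin n => σ * yv H τ (ω s) x) s)]
  simp only [Fin.snoc_castSucc, Fin.snoc_last, Fin.cons_zero, Fin.cons_succ, Finset.prod_const_one,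
    mul_one, one_mul, Finset.prod_mul_distrib, Finset.prod_const, pow_add]
  ring

/-- expectation of a monomial in the latents -/
noncomputable def ee (H : Matrix I I ℝ) (σ τ : ℝ) {n : ℕ} (S : Finset (Fin (n + 1) × I)) : ℝ :=
  ∫ ω, ∏ v ∈ S, zz H σ τ ω v ∂(lam I n)

theorem ee_eq (H : Matrix I I ℝ) (σ τ : ℝ) {n : ℕ} (S : Finset (Fin (n + 1) × I)) :
    ee H σ τ S = ∏ s : Fin n, (σ ^ ((lay S s.castSucc).card + (lay S s.succ).card) *
      mm H τ (lay S s.castSucc) (lay S s.succ)) := by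
  rw [ee]
  simp only [prod_zz]
  rw [integral_fintype_prod_eq_prod (𝕜 := ℝ) (fun (s : Fin n) (x : I ⊕ I → ℝ) =>
    σ ^ ((lay S s.castSucc).card + (lay S s.succ).card) *
      ((∏ a ∈ lay S s.castSucc, x (Sum.inl a)) * ∏ b ∈ lay S s.succ, yv H τ x b))]
  refine Finset.prod_congr rfl (fun s _ => ?_)
  rw [integral_const_mul, mm]

theorem integrable_zz (H : Matrix I I ℝ) (σ τ : ℝ) {n : ℕ} (S : Finset (Fin (n + 1) × I)) :
    Integrable (fun ω => ∏ v ∈ S, zz H σ τ ω v) (lam I n) := by
  simp only [prod_zz]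
  exact Integrable.fintype_prod (𝕜 := ℝ) (f := fun (s : Fin n) (x : I ⊕ I → ℝ) =>
    σ ^ ((lay S s.castSucc).card + (lay S s.succ).card) *
      ((∏ a ∈ lay S s.castSucc, x (Sum.inl a)) * ∏ b ∈ lay S s.succ, yv H τ x b))
    (fun s => (integrable_xy H τ _ _).const_mul _)

theorem ee_empty (H : Matrix I I ℝ) (σ τ : ℝ) {n : ℕ} :
    ee H σ τ (∅ : Finset (Fin (n + 1) × I)) = 1 := by
  simp [ee]

section tau
variable {H : Matrix I I ℝ} (hsym : H.IsSymm) (horth : H * H = 1)
include hsym horth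

theorem ee_eq_zero {σ τ : ℝ} (h0 : 0 ≤ τ) (h1 : τ ≤ 1) {n : ℕ} {S : Finset (Fin (n + 1) × I)}
    (h : ¬ ∀ s : Fin n, (lay S s.castSucc).card = (lay S s.succ).card) : ee H σ τ S = 0 := by
  push Not at h
  obtain ⟨s, hs⟩ := h
  rw [ee_eq]
  refine Finset.prod_eq_zero (Finset.mem_univ s) ?_
  rw [mm_main hsym horth h0 h1, if_neg hs, mul_zero]

theorem card_lay_const {n : ℕ} {S : Finset (Fin (n + 1) × I)}
    (h : ∀ s : Fin n, (lay S s.castSucc).card = (lay S s.succ).card) (s : Fin (n + 1)) :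
    (lay S s).card = (lay S 0).card := by
  induction s using Fin.induction with
  | zero => rfl
  | succ s ih => rw [← h s, ih]

theorem ee_tau {σ τ : ℝ} (h0 : 0 ≤ τ) (h1 : τ ≤ 1) {n : ℕ} (S : Finset (Fin (n + 1) × I)) :
    ee H σ τ S = τ ^ (n * (lay S 0).card) * ee H σ 1 S := by
  by_cases h : ∀ s : Fin n, (lay S s.castSucc).card = (lay S s.succ).card
  · have hc := card_lay_const hsym horth h
    rw [ee_eq, ee_eq]
    have e : ∀ s : Fin n, σ ^ ((lay S s.castSucc).card + (lay S s.succ).card) *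
        mm H τ (lay S s.castSucc) (lay S s.succ) = τ ^ (lay S 0).card *
        (σ ^ ((lay S s.castSucc).card + (lay S s.succ).card) *
        mm H 1 (lay S s.castSucc) (lay S s.succ)) := by
      intro s
      rw [mm_main hsym horth h0 h1, if_pos (h s), hc s.castSucc]
      ring
    simp only [e]
    rw [Finset.prod_mul_distrib, Finset.prod_const, Finset.card_univ, Fintype.card_fin, ← pow_mul,
      mul_comm n]
  · rw [ee_eq_zero hsym horth h0 h1 h, ee_eq_zero hsym horth zero_le_one le_rfl h, mul_zero]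

theorem ee_one_zero_layer {σ : ℝ} {n : ℕ} {S : Finset (Fin (n + 1) × I)} (hS : (lay S 0).card = 0)
    (hne : S ≠ ∅) : ee H σ 1 S = 0 := by
  by_contra hh
  have h : ∀ s : Fin n, (lay S s.castSucc).card = (lay S s.succ).card := by
    by_contra h
    exact hh (ee_eq_zero hsym horth zero_le_one le_rfl h)
  have hc := card_lay_const hsym horth h
  apply hne
  rw [Finset.eq_empty_iff_forall_notMem]
  rintro ⟨s, i⟩ hv
  have h2 := hc s
  rw [hS, Finset.card_eq_zero] at h2
  have h3 := mem_lay.2 hv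
  rw [h2] at h3
  exact absurd h3 (Finset.notMem_empty _)

end tau

theorem layerSet_subset_iff {n : ℕ} {S : Finset (Fin (n + 1) × I)} (i : Fin (n + 1) → I) :
    layerSet i ⊆ S ↔ ∀ s, i s ∈ lay S s := by
  constructor
  · intro h s
    rw [mem_lay]
    apply h
    simp [layerSet]
  · intro h v hv
    simp only [layerSet, Finset.mem_image, Finset.mem_univ, true_and] at hv
    obtain ⟨s, rfl⟩ := hv
    exact mem_lay.1 (h s)

theorem lay_sdiff {n : ℕ} {S : Finset (Fin (n + 1) × I)} (i : Fin (n + 1) → I) (s : Fin (n + 1)) :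
    lay (S \ layerSet i) s = (lay S s).erase (i s) := by
  ext j
  rw [mem_lay, Finset.mem_sdiff, Finset.mem_erase, mem_lay]
  have : (s, j) ∈ layerSet i ↔ j = i s := by
    simp only [layerSet, Finset.mem_image, Finset.mem_univ, true_and, Prod.mk.injEq]
    constructor
    · rintro ⟨a, rfl, rfl⟩; rfl
    · rintro rfl; exact ⟨s, rfl, rfl⟩
  rw [this]
  tauto

/-- the chain identity -/
theorem ee_chain {H : Matrix I I ℝ} (hsym : H.IsSymm) (horth : H * H = 1) {σ τ : ℝ} (hσ : 0 < σ)
    (h0 : 0 < τ) (h1 : τ ≤ 1) {n : ℕ} (S : Finset (Fin (n + 1) × I)) :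
    ∑ i : Fin (n + 1) → I, (if layerSet i ⊆ S then chain H i * ee H σ τ (S \ layerSet i) else 0) =
      (lay S 0).card * ee H σ τ S / (σ ^ 2 * τ) ^ n := by
  by_cases hne : ∀ s : Fin (n + 1), (lay S s).Nonempty
  · let T : Fin n → I → I → ℝ := fun (s : Fin n) (a b : I) =>
      σ ^ (((lay S s.castSucc).card - 1) + ((lay S s.succ).card - 1)) *
      (H a b * mm H τ ((lay S s.castSucc).erase a) ((lay S s.succ).erase b))
    let c : Fin n → ℝ := fun s => σ ^ (((lay S s.castSucc).card - 1) + ((lay S s.succ).card - 1)) *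
      (mm H τ (lay S s.castSucc) (lay S s.succ) / τ)
    have e1 : ∀ i : Fin (n + 1) → I,
        (if layerSet i ⊆ S then chain H i * ee H σ τ (S \ layerSet i) else 0) =
        if ∀ s, i s ∈ lay S s then ∏ s : Fin n, T s (i s.castSucc) (i s.succ) else 0 := by
      intro i
      by_cases h : ∀ s, i s ∈ lay S s
      · rw [if_pos ((layerSet_subset_iff i).2 h), if_pos h, chain_eq, ee_eq, ← Finset.prod_mul_distrib]
        refine Finset.prod_congr rfl (fun s _ => ?_)
        simp only [lay_sdiff, T]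
        rw [Finset.card_erase_of_mem (h _), Finset.card_erase_of_mem (h _)]
        ring
      · rw [if_neg (fun hh => h ((layerSet_subset_iff i).1 hh)), if_neg h]
    have hT : ∀ s, ∀ i ∈ lay S s.castSucc, ∑ j ∈ lay S s.succ, T s i j = c s := by
      intro s a ha
      simp only [T, c]
      rw [← Finset.mul_sum]
      congr 1
      rw [mm_rec H τ (lay S s.succ) ha, mul_div_cancel_left₀ _ h0.ne']
      refine Finset.sum_congr rfl (fun b _ => ?_)
      rw [hsym.apply a b]
    rw [Finset.sum_congr rfl (fun i _ => e1 i), path_sum n (lay S) T c hT, mul_div_assoc]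
    congr 1
    rw [ee_eq]
    have e2 : (σ ^ 2 * τ) ^ n = ∏ s : Fin n, (σ ^ 2 * τ) := by simp
    rw [e2, ← Finset.prod_div_distrib]
    refine Finset.prod_congr rfl (fun s _ => ?_)
    obtain ⟨p, hp⟩ : ∃ p, (lay S s.castSucc).card = p + 1 :=
      ⟨_, (Nat.succ_pred_eq_of_pos (Finset.card_pos.2 (hne _))).symm⟩
    obtain ⟨q, hq⟩ : ∃ q, (lay S s.succ).card = q + 1 :=
      ⟨_, (Nat.succ_pred_eq_of_pos (Finset.card_pos.2 (hne _))).symm⟩
    simp only [c]
    rw [hp, hq]
    simp only [Nat.add_sub_cancel]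
    field_simp
    ring
  · push Not at hne
    obtain ⟨s, hs⟩ := hne
    have e1 : ∀ i : Fin (n + 1) → I,
        (if layerSet i ⊆ S then chain H i * ee H σ τ (S \ layerSet i) else 0) = 0 := by
      intro i
      rw [if_neg]
      intro hh
      have := (layerSet_subset_iff i).1 hh s
      rw [hs] at this
      exact absurd this (Finset.notMem_empty _)
    simp only [e1, Finset.sum_const_zero]
    by_cases h : ∀ s : Fin n, (lay S s.castSucc).card = (lay S s.succ).card
    · have := card_lay_const hsym horth h s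
      rw [hs, Finset.card_empty] at this
      rw [← this]
      simp
    · rw [ee_eq_zero hsym horth h0.le h1 h]
      simp

/-- value on a path -/
theorem ee_layerSet {H : Matrix I I ℝ} (hsym : H.IsSymm) {σ : ℝ}
    {n : ℕ} (i : Fin (n + 1) → I) : ee H σ 1 (layerSet i) = σ ^ (2 * n) * chain H i := by
  have hl : ∀ s, lay (layerSet i) s = {i s} := by
    intro s
    ext j
    rw [mem_lay, Finset.mem_singleton]
    simp only [layerSet, Finset.mem_image, Finset.mem_univ, true_and, Prod.mk.injEq]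
    constructor
    · rintro ⟨a, rfl, rfl⟩; rfl
    · rintro rfl; exact ⟨s, rfl, rfl⟩
  rw [ee_eq, chain_eq]
  simp only [hl, Finset.card_singleton]
  have : ∀ s : Fin n, σ ^ (1 + 1) * mm H 1 {i s.castSucc} {i s.succ} =
      σ ^ 2 * H (i s.castSucc) (i s.succ) := by
    intro s
    rw [mm_rec H 1 _ (Finset.mem_singleton_self _)]
    simp only [Finset.sum_singleton, Finset.erase_singleton, mm_empty]
    rw [hsym.apply]
    ring
  simp only [this]
  rw [Finset.prod_mul_distrib, Finset.prod_const, Finset.card_univ, Fintype.card_fin, ← pow_mul]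

theorem sum_chain_sq {H : Matrix I I ℝ} (hsym : H.IsSymm) (horth : H * H = 1) (n : ℕ) :
    ∑ i : Fin (n + 1) → I, chain H i ^ 2 = Fintype.card I := by
  have h := path_sum n (fun _ : Fin (n + 1) => (univ : Finset I)) (fun _ a b => H a b ^ 2) (fun _ => 1) (by
    intro s a _
    have := congrFun (congrFun horth a) a
    rw [Matrix.mul_apply, Matrix.one_apply_eq] at this
    rw [← this]
    refine Finset.sum_congr rfl (fun b _ => ?_)
    rw [hsym.apply a b, sq])
  simp only [Finset.mem_univ, implies_true, if_true, Finset.prod_const_one, mul_one,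
    Finset.card_univ] at h
  rw [← h]
  refine Finset.sum_congr rfl (fun i _ => ?_)
  rw [chain_eq, Finset.prod_pow]

/-! ### Fourier expansions -/

section fourier

variable {V : Type} [Fintype V] [DecidableEq V]

/-- Fourier coefficients -/
noncomputable def fc (f : (V → Bool) → ℝ) (S : Finset V) : ℝ :=
  ∑ x : V → Bool, f x * ((∏ v ∈ S, sg (x v)) * (1 / 2) ^ Fintype.card V)

theorem dext_expand (f : (V → Bool) → ℝ) (T : Finset V) (z : V → ℝ) :
    dext f T z = ∑ S : Finset V, if T ⊆ S then fc f S * ∏ v ∈ S \ T, z v else 0 := by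
  have h1 : ∀ x : V → Bool, ∏ v, (if v ∈ T then sg (x v) / 2 else (1 + sg (x v) * z v) / 2) =
      ∑ S : Finset V, if T ⊆ S then (∏ v ∈ S, sg (x v)) * (1 / 2) ^ Fintype.card V * ∏ v ∈ S \ T, z v
        else 0 := by
    intro x
    have e : ∀ v, (if v ∈ T then sg (x v) / 2 else (1 + sg (x v) * z v) / 2) =
        (if v ∈ T then sg (x v) / 2 else sg (x v) / 2 * z v) + (if v ∈ T then 0 else 1 / 2) := by
      intro v
      split_ifs
      · ring
      · ring
    simp only [e]
    rw [Finset.prod_add, Finset.powerset_univ]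
    refine Finset.sum_congr rfl (fun S _ => ?_)
    by_cases hTS : T ⊆ S
    · rw [if_pos hTS]
      have e1 : ∏ v ∈ univ \ S, (if v ∈ T then (0 : ℝ) else 1 / 2) = (1 / 2) ^ (univ \ S).card := by
        rw [← Finset.prod_const]
        refine Finset.prod_congr rfl (fun v hv => ?_)
        rw [if_neg]
        intro hvT
        exact (Finset.mem_sdiff.1 hv).2 (hTS hvT)
      have e2 : ∏ v ∈ S, (if v ∈ T then sg (x v) / 2 else sg (x v) / 2 * z v) =
          (∏ v ∈ S, sg (x v)) * (1 / 2) ^ S.card * ∏ v ∈ S \ T, z v := by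
        have e3 : ∏ v ∈ S \ T, z v = ∏ v ∈ S, (if v ∈ T then 1 else z v) := by
          rw [← Finset.prod_sdiff hTS]
          have : ∏ v ∈ T, (if v ∈ T then (1 : ℝ) else z v) = 1 := by
            refine Finset.prod_eq_one (fun v hv => by rw [if_pos hv])
          rw [this, mul_one]
          refine Finset.prod_congr rfl (fun v hv => ?_)
          rw [if_neg (Finset.mem_sdiff.1 hv).2]
        rw [e3, ← Finset.prod_const, ← Finset.prod_mul_distrib, ← Finset.prod_mul_distrib]
        refine Finset.prod_congr rfl (fun v _ => ?_)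
        split_ifs <;> ring
      rw [e1, e2]
      have e4 : (1 / 2 : ℝ) ^ Fintype.card V = (1 / 2) ^ S.card * (1 / 2) ^ (univ \ S).card := by
        rw [← pow_add, Finset.card_sdiff_of_subset (Finset.subset_univ S), Finset.card_univ,
          Nat.add_sub_cancel' (Finset.card_le_univ S)]
      rw [e4]
      ring
    · rw [if_neg hTS]
      obtain ⟨v, hvT, hvS⟩ := Finset.not_subset.1 hTS
      have : ∏ v ∈ univ \ S, (if v ∈ T then (0 : ℝ) else 1 / 2) = 0 :=
        Finset.prod_eq_zero (i := v) (Finset.mem_sdiff.2 ⟨Finset.mem_univ _, hvS⟩) (if_pos hvT)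
      rw [this, mul_zero]
  rw [dext]
  simp only [h1, Finset.mul_sum]
  rw [Finset.sum_comm]
  refine Finset.sum_congr rfl (fun S _ => ?_)
  by_cases hTS : T ⊆ S
  · simp only [if_pos hTS]
    rw [fc, Finset.sum_mul]
    refine Finset.sum_congr rfl (fun x _ => by ring)
  · simp only [if_neg hTS, mul_zero, Finset.sum_const_zero]

theorem ext_expand (f : (V → Bool) → ℝ) (z : V → ℝ) :
    ext f z = ∑ S : Finset V, fc f S * ∏ v ∈ S, z v := by
  have h : ext f z = dext f ∅ z := by simp [ext, dext]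
  rw [h, dext_expand]
  simp

/-- multilinear extension of a character -/
theorem ext_char (S : Finset V) (z : V → ℝ) :
    ext (fun x => ∏ v ∈ S, sg (x v)) z = ∏ v ∈ S, z v := by
  have h1 : ∀ x : V → Bool, (∏ v ∈ S, sg (x v)) * ∏ v, (1 + sg (x v) * z v) / 2 =
      ∏ v, (if v ∈ S then sg (x v) else 1) * ((1 + sg (x v) * z v) / 2) := by
    intro x
    rw [Finset.prod_mul_distrib, Fintype.prod_ite_mem]
  rw [ext]
  simp only [h1]
  rw [← Fintype.prod_sum (fun (v : V) (b : Bool) => (if v ∈ S then sg b else 1) * ((1 + sg b * z v) / 2)),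
    ← Fintype.prod_ite_mem S z]
  refine Finset.prod_congr rfl (fun v _ => ?_)
  rw [Fintype.sum_bool]
  by_cases h : v ∈ S
  · simp only [if_pos h, sg]; norm_num; ring
  · simp only [if_neg h, sg]; norm_num; ring

end fourier

end Crest.Agent.QG
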