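import Crest.Agent.QG.GaussMom

/-!
# Chunk D, part 2: the law of the second Gaussian vector and the mixed moments
-/

set_option autoImplicit false
set_option linter.unusedSectionVars false
set_option linter.unusedSimpArgs false

namespace Crest.Agent.QG

open Finset MeasureTheory ProbabilityTheory

section law

variable {I J : Type} [Fintype I] [Fintype J] [DecidableEq I] [DecidableEq J]

theorem gam_map_aux (L : I → J → ℝ) (h1 : ∀ b b', ∑ c, L b c * L b' c = if b = b' then 1 else 0)
    (t : EuclideanSpace ℝ I) :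
    ∑ c, (∑ b, L b c * t b) ^ 2 = ‖t‖ ^ 2 := by
  rw [EuclideanSpace.real_norm_sq_eq]
  calc ∑ c, (∑ b, L b c * t b) ^ 2 = ∑ c, ∑ b, ∑ b', (L b c * L b' c) * (t b * t b') := by
        refine Finset.sum_congr rfl (fun c _ => ?_)
        rw [sq, Finset.sum_mul_sum]
        refine Finset.sum_congr rfl (fun b _ => Finset.sum_congr rfl (fun b' _ => by ring))
    _ = ∑ b, ∑ b', (∑ c, L b c * L b' c) * (t b * t b') := by
        rw [Finset.sum_comm]
        refine Finset.sum_congr rfl (fun b _ => ?_)
        rw [Finset.sum_comm]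
        refine Finset.sum_congr rfl (fun b' _ => ?_)
        rw [Finset.sum_mul]
    _ = ∑ b, t b ^ 2 := by
        refine Finset.sum_congr rfl (fun b _ => ?_)
        rw [Finset.sum_eq_single b]
        · rw [h1, if_pos rfl]; ring
        · intro b' _ hb'
          rw [h1, if_neg (Ne.symm hb')]; ring
        · intro h; exact absurd (Finset.mem_univ _) h

theorem gam_map (L : I → J → ℝ) (hL : ∀ b b', ∑ c, L b c * L b' c = if b = b' then 1 else 0) :
    (gam J).map (fun x b => ∑ c, L b c * x c) = gam I := by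
  have key : (gam J).map (fun x => WithLp.toLp 2 (fun b => ∑ c, L b c * x c)) =
      (gam I).map (WithLp.toLp 2) := by
    rw [map_pi_eq_stdGaussian]
    apply Measure.ext_of_charFun (E := EuclideanSpace ℝ I)
    ext t
    rw [charFun_stdGaussian, charFun_apply, integral_map (Measurable.aemeasurable (by fun_prop))
      (Measurable.aestronglyMeasurable (by fun_prop))]
    have h1 : ∀ x : J → ℝ, Complex.exp ((inner ℝ (WithLp.toLp 2 (fun b => ∑ c, L b c * x c)) t : ℝ) * Complex.I) =
        ∏ c, Complex.exp (((∑ b, L b c * t b : ℝ) * x c) * Complex.I) := by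
      intro x
      rw [← Complex.exp_sum]
      congr 1
      have : (inner ℝ (WithLp.toLp 2 (fun b => ∑ c, L b c * x c)) t : ℝ) =
          ∑ c, (∑ b, L b c * t b) * x c := by
        rw [PiLp.inner_apply]
        simp only [Finset.sum_mul]
        rw [Finset.sum_comm]
        refine Finset.sum_congr rfl (fun b _ => ?_)
        simp only [RCLike.inner_apply, conj_trivial]
        rw [Finset.mul_sum]
        refine Finset.sum_congr rfl (fun c _ => by ring)
      rw [this]
      push_cast
      rw [Finset.sum_mul]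
    simp only [h1]
    rw [integral_fintype_prod_eq_prod (𝕜 := ℂ)
      (f := fun c (y : ℝ) => Complex.exp (((∑ b, L b c * t b : ℝ) * y) * Complex.I))]
    have h2 : ∀ c, ∫ y : ℝ, Complex.exp (((∑ b, L b c * t b : ℝ) * y) * Complex.I) ∂(gaussianReal 0 1) =
        Complex.exp (-((∑ b, L b c * t b : ℝ) ^ 2 / 2 : ℝ)) := by
      intro c
      rw [← charFun_apply_real, charFun_gaussianReal]
      congr 1
      push_cast
      simp
    simp only [h2]
    rw [← Complex.exp_sum]
    congr 1
    have h3 : ((‖t‖ : ℂ)) ^ 2 = ((∑ c, (∑ b, L b c * t b) ^ 2 : ℝ) : ℂ) := by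
      rw [gam_map_aux L hL t]; push_cast; rfl
    rw [h3]
    push_cast
    rw [Finset.sum_neg_distrib, ← Finset.sum_div]
    ring
  have h3 : Measure.map WithLp.ofLp ((gam J).map (fun x => WithLp.toLp 2 (fun b => ∑ c, L b c * x c))) =
      Measure.map WithLp.ofLp ((gam I).map (WithLp.toLp 2)) := by rw [key]
  rw [Measure.map_map (by fun_prop) (by fun_prop), Measure.map_map (by fun_prop) (by fun_prop)] at h3
  have e1 : (WithLp.ofLp ∘ fun x : J → ℝ => WithLp.toLp 2 (fun b => ∑ c, L b c * x c)) =
      fun x b => ∑ c, L b c * x c := rfl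
  have e2 : (WithLp.ofLp ∘ (WithLp.toLp 2) : (I → ℝ) → (I → ℝ)) = id := rfl
  rw [e1, e2, Measure.map_id] at h3
  exact h3

end law

section pair

variable {I : Type} [Fintype I] [DecidableEq I]

/-- the linear forms: coordinates `g_a` and `y_b = τ (H g)_b + sqrt(1-τ²) w_b` -/
noncomputable def yform (H : Matrix I I ℝ) (τ : ℝ) (b : I) : I ⊕ I → ℝ :=
  Sum.elim (fun c => τ * H b c) (fun c => if c = b then Real.sqrt (1 - τ ^ 2) else 0)

/-- the second Gaussian vector -/
noncomputable def yv (H : Matrix I I ℝ) (τ : ℝ) (x : I ⊕ I → ℝ) (b : I) : ℝ :=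
  ∑ c, yform H τ b c * x c

theorem yform_inner {H : Matrix I I ℝ} (hsym : H.IsSymm) (horth : H * H = 1) {τ : ℝ} (h0 : 0 ≤ τ)
    (h1 : τ ≤ 1) (b b' : I) :
    ∑ c, yform H τ b c * yform H τ b' c = if b = b' then 1 else 0 := by
  have hHH : ∑ c, H b c * H b' c = if b = b' then 1 else 0 := by
    have := congrFun (congrFun horth b) b'
    rw [Matrix.mul_apply, Matrix.one_apply] at this
    rw [← this]
    refine Finset.sum_congr rfl (fun c _ => ?_)
    rw [hsym.apply b' c]
  rw [Fintype.sum_sum_type]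
  simp only [yform, Sum.elim_inl, Sum.elim_inr]
  have e1 : ∑ c, τ * H b c * (τ * H b' c) = τ ^ 2 * ∑ c, H b c * H b' c := by
    rw [Finset.mul_sum]
    refine Finset.sum_congr rfl (fun c _ => by ring)
  have e2 : ∑ c, (if c = b then Real.sqrt (1 - τ ^ 2) else 0) * (if c = b' then Real.sqrt (1 - τ ^ 2) else 0) =
      if b = b' then 1 - τ ^ 2 else 0 := by
    rw [Finset.sum_eq_single b]
    · by_cases h : b = b'
      · rw [if_pos rfl, if_pos h, if_pos h, Real.mul_self_sqrt]
        nlinarith
      · rw [if_pos rfl, if_neg h, if_neg h, mul_zero]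
    · intro c _ hc
      rw [if_neg hc, zero_mul]
    · intro h; exact absurd (Finset.mem_univ _) h
  rw [e1, e2, hHH]
  split_ifs <;> ring

theorem gam_map_yv {H : Matrix I I ℝ} (hsym : H.IsSymm) (horth : H * H = 1) {τ : ℝ} (h0 : 0 ≤ τ)
    (h1 : τ ≤ 1) : (gam (I ⊕ I)).map (yv H τ) = gam I := by
  have := gam_map (yform H τ) (yform_inner hsym horth h0 h1)
  exact this

/-- all forms -/
noncomputable def xyform (H : Matrix I I ℝ) (τ : ℝ) : I ⊕ I → (I ⊕ I → ℝ) :=
  Sum.elim (fun a => Pi.single (Sum.inl a) 1) (yform H τ)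

/-- mixed moments -/
noncomputable def mm (H : Matrix I I ℝ) (τ : ℝ) (A B : Finset I) : ℝ :=
  ∫ x, (∏ a ∈ A, x (Sum.inl a)) * ∏ b ∈ B, yv H τ x b ∂(gam (I ⊕ I))

theorem eval_xy_prod (H : Matrix I I ℝ) (τ : ℝ) (A B : Finset I) (x : I ⊕ I → ℝ) :
    MvPolynomial.eval x (∏ i ∈ A.disjSum B, lf (xyform H τ i)) =
      (∏ a ∈ A, x (Sum.inl a)) * ∏ b ∈ B, yv H τ x b := by
  rw [Finset.prod_disjSum, map_mul, map_prod, map_prod]
  congr 1
  · refine Finset.prod_congr rfl (fun a _ => ?_)
    rw [eval_lf, xyform, Sum.elim_inl, Finset.sum_eq_single (Sum.inl a)]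
    · simp
    · intro c _ hc
      rw [Pi.single_eq_of_ne hc, zero_mul]
    · intro h; exact absurd (Finset.mem_univ _) h
  · refine Finset.prod_congr rfl (fun b _ => ?_)
    rw [eval_lf, xyform, Sum.elim_inr, yv]

theorem mm_eq (H : Matrix I I ℝ) (τ : ℝ) (A B : Finset I) :
    mm H τ A B = gE (∏ i ∈ A.disjSum B, lf (xyform H τ i)) := by
  rw [mm, gE]
  congr 1
  ext x
  exact (eval_xy_prod H τ A B x).symm

theorem integrable_xy (H : Matrix I I ℝ) (τ : ℝ) (A B : Finset I) :
    Integrable (fun x : I ⊕ I → ℝ => (∏ a ∈ A, x (Sum.inl a)) * ∏ b ∈ B, yv H τ x b) (gam (I ⊕ I)) := by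
  refine (gE_integrable (∏ i ∈ A.disjSum B, lf (xyform H τ i))).congr
    (Filter.Eventually.of_forall (fun x => ?_))
  exact eval_xy_prod H τ A B x

theorem mm_empty (H : Matrix I I ℝ) (τ : ℝ) : mm H τ ∅ ∅ = 1 := by
  simp [mm]

/-- Wick recursion for the mixed moments -/
theorem mm_rec (H : Matrix I I ℝ) (τ : ℝ) {A : Finset I} (B : Finset I) {a : I} (ha : a ∈ A) :
    mm H τ A B = τ * ∑ b ∈ B, H b a * mm H τ (A.erase a) (B.erase b) := by
  have e0 : A.disjSum B = insert (Sum.inl a) ((A.erase a).disjSum B) := by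
    ext c
    cases c with
    | inl c =>
      simp only [Finset.inl_mem_disjSum, Finset.mem_insert, Finset.mem_erase, Sum.inl.injEq]
      by_cases h : c = a
      · simp [h, ha]
      · simp [h]
    | inr c => simp
  have e1 : Sum.inl a ∉ (A.erase a).disjSum B := by simp
  rw [mm_eq, e0, Finset.prod_insert e1, gE_wick, Finset.sum_disjSum, Finset.mul_sum]
  have e2 : ∑ a' ∈ A.erase a, (∑ c, xyform H τ (Sum.inl a) c * xyform H τ (Sum.inl a') c) *
      gE (∏ i ∈ ((A.erase a).disjSum B).erase (Sum.inl a'), lf (xyform H τ i)) = 0 := by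
    refine Finset.sum_eq_zero (fun a' ha' => ?_)
    have : ∑ c, xyform H τ (Sum.inl a) c * xyform H τ (Sum.inl a') c = 0 := by
      refine Finset.sum_eq_zero (fun c _ => ?_)
      simp only [xyform, Sum.elim_inl, Pi.single_apply]
      have : a' ≠ a := Finset.ne_of_mem_erase ha'
      split_ifs with h1 h2
      · rw [h1] at h2
        exact absurd (Sum.inl.inj h2).symm this
      all_goals simp
    rw [this, zero_mul]
  rw [e2, zero_add]
  refine Finset.sum_congr rfl (fun b hb => ?_)
  have e3 : ∑ c, xyform H τ (Sum.inl a) c * xyform H τ (Sum.inr b) c = τ * H b a := by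
    rw [Finset.sum_eq_single (Sum.inl a)]
    · simp [xyform, yform]
    · intro c _ hc
      simp only [xyform, Sum.elim_inl]
      rw [Pi.single_eq_of_ne hc, zero_mul]
    · intro h; exact absurd (Finset.mem_univ _) h
  have e4 : ((A.erase a).disjSum B).erase (Sum.inr b) = (A.erase a).disjSum (B.erase b) := by
    ext c
    cases c <;> simp
  rw [e3, e4, mm_eq, mul_assoc]

theorem mm_empty_left {H : Matrix I I ℝ} (hsym : H.IsSymm) (horth : H * H = 1) {τ : ℝ} (h0 : 0 ≤ τ)
    (h1 : τ ≤ 1) {B : Finset I} (hB : B.Nonempty) : mm H τ ∅ B = 0 := by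
  obtain ⟨b, hb⟩ := hB
  have e0 : (∅ : Finset I).disjSum B = insert (Sum.inr b) ((∅ : Finset I).disjSum (B.erase b)) := by
    ext c
    cases c with
    | inl c => simp
    | inr c =>
      simp only [Finset.inr_mem_disjSum, Finset.mem_insert, Finset.mem_erase, Sum.inr.injEq]
      by_cases h : c = b
      · simp [h, hb]
      · simp [h]
  have e1 : Sum.inr b ∉ (∅ : Finset I).disjSum (B.erase b) := by simp
  rw [mm_eq, e0, Finset.prod_insert e1, gE_wick, Finset.sum_disjSum]
  rw [Finset.sum_empty, zero_add]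
  refine Finset.sum_eq_zero (fun b' hb' => ?_)
  have : ∑ c, xyform H τ (Sum.inr b) c * xyform H τ (Sum.inr b') c = 0 := by
    simp only [xyform, Sum.elim_inr]
    rw [yform_inner hsym horth h0 h1, if_neg (Finset.ne_of_mem_erase hb').symm]
  rw [this, zero_mul]

theorem mm_main {H : Matrix I I ℝ} (hsym : H.IsSymm) (horth : H * H = 1) {τ : ℝ} (h0 : 0 ≤ τ)
    (h1 : τ ≤ 1) (A B : Finset I) :
    mm H τ A B = if A.card = B.card then τ ^ A.card * mm H 1 A B else 0 := by
  induction hn : A.card generalizing A B with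
  | zero =>
    rw [Finset.card_eq_zero] at hn
    subst hn
    rcases B.eq_empty_or_nonempty with rfl | hB
    · simp [mm_empty]
    · rw [mm_empty_left hsym horth h0 h1 hB, if_neg]
      exact (Finset.card_pos.2 hB).ne
  | succ n ih =>
    obtain ⟨a, ha⟩ : A.Nonempty := Finset.card_pos.1 (by omega)
    have hA : (A.erase a).card = n := by rw [Finset.card_erase_of_mem ha, hn]; rfl
    rw [mm_rec H τ B ha, mm_rec H 1 B ha]
    by_cases hc : n + 1 = B.card
    · rw [if_pos hc, one_mul, Finset.mul_sum, Finset.mul_sum]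
      refine Finset.sum_congr rfl (fun b hb => ?_)
      have hBc : (B.erase b).card = n := by rw [Finset.card_erase_of_mem hb, ← hc]; rfl
      rw [ih (A.erase a) (B.erase b) hA, if_pos hBc.symm]
      ring
    · rw [if_neg hc]
      have : ∑ b ∈ B, H b a * mm H τ (A.erase a) (B.erase b) = 0 := by
        refine Finset.sum_eq_zero (fun b hb => ?_)
        have hBc : n ≠ (B.erase b).card := by
          rw [Finset.card_erase_of_mem hb]
          have := Finset.card_pos.2 ⟨b, hb⟩
          omega
        rw [ih (A.erase a) (B.erase b) hA, if_neg hBc, mul_zero]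
      rw [this, mul_zero]

end pair

end Crest.Agent.QG
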