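import Crest.Agent.QG.GaussTail

/-!
# Chunk D, part 1: moments of the standard Gaussian vector (Wick recursion)
-/

set_option autoImplicit false
set_option linter.unusedSectionVars false
set_option linter.unusedSimpArgs false

namespace Crest.Agent.QG

open Finset MeasureTheory ProbabilityTheory

/-! ### one-dimensional moments -/

theorem gm_pdf (x : ℝ) : gaussianPDFReal 0 1 x = (Real.sqrt (2 * Real.pi))⁻¹ * Real.exp (-(1 / 2) * x ^ 2) := by
  rw [gaussianPDFReal_def]
  simp only [NNReal.coe_one, mul_one, sub_zero]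
  congr 2
  ring

theorem gm_integrable_pow_pdf (n : ℕ) : Integrable (fun x : ℝ => x ^ n * gaussianPDFReal 0 1 x) := by
  have h1 := (integrable_rpow_mul_exp_neg_mul_sq (b := 1 / 2) (by norm_num) (s := (n : ℝ))
    (by have : (0 : ℝ) ≤ n := Nat.cast_nonneg n; linarith)).const_mul ((Real.sqrt (2 * Real.pi))⁻¹)
  refine h1.congr (Filter.Eventually.of_forall (fun x => ?_))
  simp only
  rw [gm_pdf, Real.rpow_natCast]
  ring

theorem gm_integrable_pow (n : ℕ) : Integrable (fun x : ℝ => x ^ n) (gaussianReal 0 1) := by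
  have h := integrable_abs_pow_gaussian n
  refine h.mono' (by fun_prop) (Filter.Eventually.of_forall (fun x => ?_))
  simp [abs_pow]

/-- moments of the standard Gaussian -/
noncomputable def gM (n : ℕ) : ℝ := ∫ x, x ^ n ∂(gaussianReal 0 1)

theorem gM_zero : gM 0 = 1 := by simp [gM]

theorem gM_eq (n : ℕ) : gM n = ∫ x : ℝ, x ^ n * gaussianPDFReal 0 1 x := by
  rw [gM, integral_gaussianReal_eq_integral_smul (by norm_num)]
  congr 1
  ext x
  rw [smul_eq_mul, mul_comm]

theorem gm_hasDeriv (x : ℝ) :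
    HasDerivAt (gaussianPDFReal 0 1) (-(x * gaussianPDFReal 0 1 x)) x := by
  have e : gaussianPDFReal 0 1 = fun x : ℝ => (Real.sqrt (2 * Real.pi))⁻¹ * Real.exp (-(1 / 2) * x ^ 2) := by
    ext x; exact gm_pdf x
  rw [e]
  have h1 : HasDerivAt (fun x : ℝ => -(1 / 2) * x ^ 2) (-(1 / 2) * (2 * x)) x := by
    have := (hasDerivAt_pow 2 x).const_mul (-(1 / 2) : ℝ)
    simpa using this
  have h2 := (h1.exp).const_mul ((Real.sqrt (2 * Real.pi))⁻¹)
  refine h2.congr_deriv ?_
  simp only
  ring

theorem gM_one : gM 1 = 0 := by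
  have := integral_id_gaussianReal (μ := 0) (v := 1)
  simpa [gM] using this

theorem gM_add_two (n : ℕ) : gM (n + 2) = (n + 1) * gM n := by
  have h := integral_mul_deriv_eq_deriv_mul_of_integrable (A := ℝ)
    (u := fun x : ℝ => x ^ (n + 1)) (u' := fun x : ℝ => ((n + 1 : ℕ) : ℝ) * x ^ n)
    (v := gaussianPDFReal 0 1) (v' := fun x => -(x * gaussianPDFReal 0 1 x))
    (fun x _ => by simpa using hasDerivAt_pow (n + 1) x) (fun x _ => gm_hasDeriv x)
    (by
      refine (gm_integrable_pow_pdf (n + 2)).neg.congr (Filter.Eventually.of_forall (fun x => ?_))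
      simp only [Pi.neg_apply, Pi.mul_apply]; ring)
    (by
      refine ((gm_integrable_pow_pdf n).const_mul ((n + 1 : ℕ) : ℝ)).congr
        (Filter.Eventually.of_forall (fun x => ?_))
      simp only [Pi.mul_apply]; ring)
    (by
      refine (gm_integrable_pow_pdf (n + 1)).congr (Filter.Eventually.of_forall (fun x => ?_))
      simp only [Pi.mul_apply])
  rw [gM_eq, gM_eq]
  have e1 : ∫ x : ℝ, x ^ (n + 1) * -(x * gaussianPDFReal 0 1 x) =
      -∫ x : ℝ, x ^ (n + 2) * gaussianPDFReal 0 1 x := by
    rw [← integral_neg]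
    congr 1
    ext x
    ring
  have e2 : ∫ x : ℝ, ((n + 1 : ℕ) : ℝ) * x ^ n * gaussianPDFReal 0 1 x =
      (n + 1) * ∫ x : ℝ, x ^ n * gaussianPDFReal 0 1 x := by
    rw [← integral_const_mul]
    congr 1
    ext x
    push_cast
    ring
  rw [e1, e2] at h
  linarith

theorem gM_succ (n : ℕ) : gM (n + 1) = n * gM (n - 1) := by
  cases n with
  | zero => simp [gM_one]
  | succ n =>
    rw [gM_add_two]
    simp

/-! ### several variables -/

section multi

variable {J : Type} [Fintype J] [DecidableEq J]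

/-- standard Gaussian measure on `J → ℝ` -/
noncomputable abbrev gam (J : Type) [Fintype J] : Measure (J → ℝ) :=
  Measure.pi (fun _ => gaussianReal 0 1)

open MvPolynomial

theorem gE_monomial_eval (s : J →₀ ℕ) (a : ℝ) (x : J → ℝ) :
    eval x (monomial s a) = a * ∏ i, x i ^ s i := by
  rw [eval_monomial, Finsupp.prod_fintype _ _ (fun i => pow_zero _)]

theorem gE_integrable (p : MvPolynomial J ℝ) : Integrable (fun x => eval x p) (gam J) := by
  induction p using MvPolynomial.induction_on' with
  | monomial s a =>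
    simp only [gE_monomial_eval]
    refine Integrable.const_mul ?_ a
    exact Integrable.fintype_prod (f := fun (i : J) (t : ℝ) => t ^ s i)
      (fun i => gm_integrable_pow (s i))
  | add p q hp hq =>
    simp only [map_add]
    exact hp.add hq

/-- Gaussian expectation of a polynomial -/
noncomputable def gE (p : MvPolynomial J ℝ) : ℝ := ∫ x, eval x p ∂(gam J)

theorem gE_add (p q : MvPolynomial J ℝ) : gE (p + q) = gE p + gE q := by
  simp only [gE, map_add]
  exact integral_add (gE_integrable p) (gE_integrable q)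

theorem gE_C_mul (a : ℝ) (p : MvPolynomial J ℝ) : gE (C a * p) = a * gE p := by
  simp only [gE, map_mul, eval_C]
  exact integral_const_mul _ _

theorem gE_zero : gE (0 : MvPolynomial J ℝ) = 0 := by simp [gE]

theorem gE_one : gE (1 : MvPolynomial J ℝ) = 1 := by simp [gE]

theorem gE_sum {κ : Type*} (s : Finset κ) (f : κ → MvPolynomial J ℝ) :
    gE (∑ i ∈ s, f i) = ∑ i ∈ s, gE (f i) := by
  classical
  induction s using Finset.induction_on with
  | empty => simp [gE_zero]
  | insert a s ha ih => rw [Finset.sum_insert ha, gE_add, ih, Finset.sum_insert ha]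

theorem gE_monomial (s : J →₀ ℕ) (a : ℝ) : gE (monomial s a) = a * ∏ i, gM (s i) := by
  simp only [gE, gE_monomial_eval]
  rw [integral_const_mul]
  congr 1
  exact integral_fintype_prod_eq_prod (𝕜 := ℝ) (fun (i : J) (t : ℝ) => t ^ s i)

/-- Stein's identity for polynomials -/
theorem gE_stein (c : J) (p : MvPolynomial J ℝ) : gE (X c * p) = gE (pderiv c p) := by
  induction p using MvPolynomial.induction_on' with
  | monomial s a =>
    rw [pderiv_monomial, X, monomial_mul, gE_monomial, gE_monomial, one_mul,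
      ← Finset.mul_prod_erase _ _ (Finset.mem_univ c), ← Finset.mul_prod_erase _ _ (Finset.mem_univ c)]
    have e1 : ((Finsupp.single c 1 + s : J →₀ ℕ)) c = s c + 1 := by
      simp [add_comm]
    have e2 : ((s - Finsupp.single c 1 : J →₀ ℕ)) c = s c - 1 := by
      simp
    have e3 : ∏ x ∈ Finset.univ.erase c, gM ((Finsupp.single c 1 + s : J →₀ ℕ) x) =
        ∏ x ∈ Finset.univ.erase c, gM ((s - Finsupp.single c 1 : J →₀ ℕ) x) := by
      refine Finset.prod_congr rfl (fun x hx => ?_)
      have hxc : c ≠ x := fun h => (Finset.ne_of_mem_erase hx) h.symm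
      simp [Finsupp.single_apply, hxc]
    rw [e1, e2, e3, gM_succ]
    ring
  | add p q hp hq => rw [mul_add, gE_add, hp, hq, map_add, gE_add]

/-- linear form -/
noncomputable def lf (l : J → ℝ) : MvPolynomial J ℝ := ∑ c, C (l c) * X c

theorem eval_lf (l : J → ℝ) (x : J → ℝ) : eval x (lf l) = ∑ c, l c * x c := by
  simp [lf]

theorem pderiv_lf (l : J → ℝ) (c : J) : pderiv c (lf l) = C (l c) := by
  rw [lf, map_sum, Finset.sum_eq_single c]
  · rw [pderiv_C_mul, pderiv_X_self, mul_one]
  · intro b _ hb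
    rw [pderiv_C_mul, pderiv_X_of_ne hb, mul_zero]
  · intro h; exact absurd (Finset.mem_univ _) h

theorem pderiv_prod_lf {κ : Type} [DecidableEq κ] (S : Finset κ) (l : κ → J → ℝ) (c : J) :
    pderiv c (∏ i ∈ S, lf (l i)) = ∑ j ∈ S, C (l j c) * ∏ i ∈ S.erase j, lf (l i) := by
  induction S using Finset.induction_on with
  | empty => simp
  | insert a S ha ih =>
    rw [Finset.prod_insert ha, pderiv_mul, ih, pderiv_lf, Finset.sum_insert ha,
      Finset.erase_insert ha, Finset.mul_sum]
    congr 1
    refine Finset.sum_congr rfl (fun j hj => ?_)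
    have hja : a ≠ j := fun h => ha (h ▸ hj)
    rw [Finset.erase_insert_of_ne hja, Finset.prod_insert (by
      intro h; exact ha (Finset.mem_of_mem_erase h))]
    ring

/-- Wick recursion -/
theorem gE_wick {κ : Type} [DecidableEq κ] (S : Finset κ) (l : κ → J → ℝ) (l₀ : J → ℝ) :
    gE (lf l₀ * ∏ i ∈ S, lf (l i)) =
      ∑ j ∈ S, (∑ c, l₀ c * l j c) * gE (∏ i ∈ S.erase j, lf (l i)) := by
  have e1 : lf l₀ * ∏ i ∈ S, lf (l i) = ∑ c, C (l₀ c) * (X c * ∏ i ∈ S, lf (l i)) := by
    rw [lf, Finset.sum_mul]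
    refine Finset.sum_congr rfl (fun c _ => by ring)
  rw [e1, gE_sum]
  simp only [gE_C_mul, gE_stein, pderiv_prod_lf, gE_sum]
  simp only [Finset.mul_sum, Finset.sum_mul]
  rw [Finset.sum_comm]
  refine Finset.sum_congr rfl (fun j _ => Finset.sum_congr rfl (fun c _ => ?_))
  ring

end multi

end Crest.Agent.QG
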