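import Crest.Agent.QG.Defs

/-!
# Chunk D, tail part
-/

set_option autoImplicit false
set_option linter.unusedSectionVars false

namespace Crest.Agent.QG

open Finset MeasureTheory ProbabilityTheory

/-- the one-dimensional moment controlling tails and clipping -/
noncomputable def tailMoment (σ : ℝ) : ℝ :=
  ∫ x, (max 1 (16 * (σ * x) ^ 4)) ^ 2 ∂(gaussianReal 0 1)

theorem tail_pointwise (p : ℕ) (hp : 4 ≤ p) (y : ℝ) :
    (max 1 (16 * y ^ 4)) ^ 2 ≤ 1 + 2 ^ (2 * p) * |y| ^ (2 * p) := by
  have h0 : 0 ≤ (2:ℝ) ^ (2 * p) * |y| ^ (2 * p) := by positivity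
  rcases le_total (16 * y ^ 4) 1 with h | h
  · rw [max_eq_left h]; linarith
  · rw [max_eq_right h]
    have h1 : 16 * y ^ 4 = (2 * |y|) ^ 4 := by
      rw [mul_pow, Even.pow_abs (by decide)]; norm_num
    have h2 : 1 ≤ 2 * |y| := by
      by_contra hcon
      push Not at hcon
      rw [h1] at h
      have : (2 * |y|) ^ 4 < 1 := pow_lt_one₀ (by positivity) hcon (by norm_num)
      linarith
    rw [h1, ← pow_mul, ← mul_pow]
    have : (2 * |y|) ^ (4 * 2) ≤ (2 * |y|) ^ (2 * p) := pow_le_pow_right₀ h2 (by omega)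
    linarith

theorem integrable_abs_pow_gaussian (n : ℕ) :
    Integrable (fun x : ℝ => |x| ^ n) (gaussianReal 0 1) := by
  have h := (memLp_id_gaussianReal (μ := 0) (v := 1) n).integrable_norm_pow'
  simpa using h

/-- the tail moment is `1 + O(σ^(2p))` -/
theorem tailMoment_le (p : ℕ) (hp : 4 ≤ p) :
    ∃ C : ℝ, 0 < C ∧ ∀ σ : ℝ, 0 < σ → σ ≤ 1 → tailMoment σ ≤ 1 + C * σ ^ (2 * p) := by
  have hint := integrable_abs_pow_gaussian (2 * p)
  have hM0 : 0 ≤ ∫ x, |x| ^ (2 * p) ∂(gaussianReal 0 1) :=
    integral_nonneg (fun x => by positivity)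
  refine ⟨2 ^ (2 * p) * (∫ x, |x| ^ (2 * p) ∂(gaussianReal 0 1)) + 1, by positivity, ?_⟩
  intro σ hσ hσ1
  have h1 : tailMoment σ ≤ ∫ x, (1 + 2 ^ (2 * p) * σ ^ (2 * p) * |x| ^ (2 * p))
      ∂(gaussianReal 0 1) := by
    unfold tailMoment
    apply integral_mono_of_nonneg
    · filter_upwards with x; positivity
    · exact (integrable_const _).add (hint.const_mul _)
    · filter_upwards with x
      have := tail_pointwise p hp (σ * x)
      rw [abs_mul, abs_of_pos hσ, mul_pow σ (|x|)] at this
      linarith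
  rw [integral_add (integrable_const _) (hint.const_mul _), integral_const_mul] at h1
  simp only [integral_const, probReal_univ, smul_eq_mul, mul_one] at h1
  have h2 : 0 ≤ σ ^ (2 * p) := by positivity
  nlinarith

/-! ### separately affine functions -/

/-- truncation to `[-1, 1]` -/
noncomputable def clip (t : ℝ) : ℝ := max (-1) (min 1 t)

theorem abs_clip_le (t : ℝ) : |clip t| ≤ 1 := by
  rw [abs_le, clip]
  exact ⟨le_max_left _ _, max_le (by norm_num) (min_le_left _ _)⟩

theorem clip_of_abs_le {t : ℝ} (h : |t| ≤ 1) : clip t = t := by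
  rw [abs_le] at h
  rw [clip, min_eq_right h.2, max_eq_right h.1]

section sep
variable {V : Type} [Fintype V] [DecidableEq V]

/-- affine in every variable -/
def SepAffine (G : (V → ℝ) → ℝ) : Prop :=
  ∀ (z : V → ℝ) (v : V) (t : ℝ), G (Function.update z v t) =
    (1 / 2 + t) * G (Function.update z v (1 / 2)) + (1 / 2 - t) * G (Function.update z v (-(1 / 2)))

theorem SepAffine.sum {κ : Type} (s : Finset κ) (G : κ → (V → ℝ) → ℝ)
    (h : ∀ i ∈ s, SepAffine (G i)) : SepAffine (fun z => ∑ i ∈ s, G i z) := by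
  intro z v t
  rw [Finset.mul_sum, Finset.mul_sum, ← Finset.sum_add_distrib]
  exact Finset.sum_congr rfl fun i hi => h i hi z v t

theorem SepAffine.const_mul (a : ℝ) {G : (V → ℝ) → ℝ} (h : SepAffine G) :
    SepAffine (fun z => a * G z) := by
  intro z v t
  show a * G _ = _ * (a * G _) + _ * (a * G _)
  rw [h z v t]; ring

/-- products of one-variable affine functions of distinct variables -/
theorem SepAffine.prod (a b : V → ℝ) : SepAffine (fun z : V → ℝ => ∏ v, (a v + b v * z v)) := by
  intro z v t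
  have key : ∀ s : ℝ, ∏ u, (a u + b u * Function.update z v s u) =
      (a v + b v * s) * ∏ u ∈ Finset.univ.erase v, (a u + b u * z u) := by
    intro s
    rw [← Finset.mul_prod_erase Finset.univ _ (Finset.mem_univ v)]
    congr 1
    · simp
    · apply Finset.prod_congr rfl
      intro u hu
      rw [Function.update_of_ne (Finset.ne_of_mem_erase hu)]
  simp only [key]
  ring

theorem sepAffine_ext (f : (V → Bool) → ℝ) : SepAffine (ext f) := by
  unfold ext
  apply SepAffine.sum
  intro x _
  apply SepAffine.const_mul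
  have := SepAffine.prod (fun _ : V => (1:ℝ) / 2) (fun v => sg (x v) / 2)
  convert this using 4
  ring

theorem sepAffine_dext (f : (V → Bool) → ℝ) (S : Finset V) : SepAffine (dext f S) := by
  unfold dext
  apply SepAffine.sum
  intro x _
  apply SepAffine.const_mul
  have := SepAffine.prod (fun v : V => if v ∈ S then sg (x v) / 2 else (1:ℝ) / 2)
    (fun v => if v ∈ S then 0 else sg (x v) / 2)
  convert this using 4
  split_ifs <;> ring

/-- the growth factor -/
noncomputable def Mx (z : V → ℝ) : ℝ := ∏ v, max 1 (2 * |z v|)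

theorem one_le_Mx (z : V → ℝ) : 1 ≤ Mx z := by
  unfold Mx
  have := Finset.prod_le_prod (s := Finset.univ) (f := fun _ : V => (1:ℝ))
    (g := fun v => max 1 (2 * |z v|)) (fun _ _ => zero_le_one) (fun _ _ => le_max_left _ _)
  simpa using this

theorem sepAffine_bound_aux {G : (V → ℝ) → ℝ} (hG : SepAffine G) {Λ : ℝ}
    (hb : ∀ z : V → ℝ, (∀ v, |z v| ≤ 1 / 2) → |G z| ≤ Λ) (S : Finset V) :
    ∀ z : V → ℝ, (∀ v ∉ S, |z v| ≤ 1 / 2) → |G z| ≤ Λ * ∏ v ∈ S, max 1 (2 * |z v|) := by
  have hΛ : 0 ≤ Λ := (abs_nonneg _).trans (hb 0 (by simp))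
  induction S using Finset.induction_on with
  | empty =>
    intro z hz
    simpa using hb z (fun v => hz v (by simp))
  | insert v S hv ih =>
    intro z hz
    rw [Finset.prod_insert hv]
    have hP : 0 ≤ ∏ u ∈ S, max 1 (2 * |z u|) := Finset.prod_nonneg fun u _ => by positivity
    rcases le_total (|z v|) (1 / 2) with h | h
    · have h1 := ih z (fun u hu => by
        by_cases huv : u = v
        · subst huv; exact h
        · exact hz u (by simp [huv, hu]))
      refine h1.trans ?_
      have h2 : (1:ℝ) ≤ max 1 (2 * |z v|) := le_max_left _ _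
      have : Λ * ∏ u ∈ S, max 1 (2 * |z u|) = Λ * (1 * ∏ u ∈ S, max 1 (2 * |z u|)) := by ring
      rw [this]
      gcongr
    · have hup : ∀ s : ℝ, |s| ≤ 1 / 2 → |G (Function.update z v s)| ≤
          Λ * ∏ u ∈ S, max 1 (2 * |z u|) := by
        intro s hs
        have h1 := ih (Function.update z v s) (fun u hu => by
          by_cases huv : u = v
          · subst huv; simpa using hs
          · rw [Function.update_of_ne huv]; exact hz u (by simp [huv, hu]))
        have h2 : ∏ u ∈ S, max 1 (2 * |Function.update z v s u|) =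
            ∏ u ∈ S, max 1 (2 * |z u|) := by
          apply Finset.prod_congr rfl
          intro u hu
          have : u ≠ v := fun h => hv (h ▸ hu)
          rw [Function.update_of_ne this]
        rwa [h2] at h1
      have e1 := hG z v (z v)
      rw [Function.update_eq_self] at e1
      rw [e1]
      have h1 := hup (1 / 2) (by norm_num)
      have h2 := hup (-(1 / 2)) (by norm_num)
      have h3 : max 1 (2 * |z v|) = 2 * |z v| := max_eq_right (by linarith)
      rw [h3]
      set B := Λ * ∏ u ∈ S, max 1 (2 * |z u|) with hB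
      have hB0 : 0 ≤ B := mul_nonneg hΛ hP
      have h4 : |1 / 2 + z v| + |1 / 2 - z v| ≤ 2 * |z v| := by
        rcases le_total 0 (z v) with h5 | h5
        · rw [abs_of_nonneg h5] at h ⊢
          rw [abs_of_nonneg (by linarith), abs_of_nonpos (by linarith)]
          linarith
        · rw [abs_of_nonpos h5] at h ⊢
          rw [abs_of_nonpos (by linarith), abs_of_nonneg (by linarith)]
          linarith
      calc |(1 / 2 + z v) * G (Function.update z v (1 / 2)) +
            (1 / 2 - z v) * G (Function.update z v (-(1 / 2)))|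
          ≤ |(1 / 2 + z v) * G (Function.update z v (1 / 2))| +
            |(1 / 2 - z v) * G (Function.update z v (-(1 / 2)))| := abs_add_le _ _
        _ = |1 / 2 + z v| * |G (Function.update z v (1 / 2))| +
            |1 / 2 - z v| * |G (Function.update z v (-(1 / 2)))| := by rw [abs_mul, abs_mul]
        _ ≤ |1 / 2 + z v| * B + |1 / 2 - z v| * B := by gcongr
        _ = (|1 / 2 + z v| + |1 / 2 - z v|) * B := by ring
        _ ≤ (2 * |z v|) * B := by gcongr
        _ = Λ * (2 * |z v| * ∏ u ∈ S, max 1 (2 * |z u|)) := by rw [hB]; ring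

/-- growth of separately affine functions bounded on the box `[-1/2, 1/2]^V` -/
theorem sepAffine_bound {G : (V → ℝ) → ℝ} (hG : SepAffine G) {Λ : ℝ}
    (hb : ∀ z : V → ℝ, (∀ v, |z v| ≤ 1 / 2) → |G z| ≤ Λ) (z : V → ℝ) : |G z| ≤ Λ * Mx z :=
  sepAffine_bound_aux hG hb Finset.univ z (fun v hv => absurd (Finset.mem_univ v) hv)

/-- the weights of the product law of bits sum to one -/
theorem sum_prod_bits (z : V → ℝ) : ∑ x : V → Bool, ∏ v, (1 + sg (x v) * z v) / 2 = 1 := by
  rw [← Fintype.prod_sum (fun (v : V) (b : Bool) => (1 + sg b * z v) / 2)]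
  apply Finset.prod_eq_one
  intro v _
  rw [Fintype.sum_bool]
  simp only [sg]
  norm_num
  ring

theorem prod_bits_nonneg {z : V → ℝ} (hz : ∀ v, |z v| ≤ 1) (x : V → Bool) :
    0 ≤ ∏ v, (1 + sg (x v) * z v) / 2 := by
  apply Finset.prod_nonneg
  intro v _
  have := abs_le.1 (hz v)
  unfold sg
  split_ifs <;> linarith

theorem abs_ext_le {f : (V → Bool) → ℝ} (hf : ∀ x, |f x| ≤ 1) {z : V → ℝ}
    (hz : ∀ v, |z v| ≤ 1) : |ext f z| ≤ 1 := by
  unfold ext
  calc |∑ x : V → Bool, f x * ∏ v, (1 + sg (x v) * z v) / 2|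
      ≤ ∑ x : V → Bool, |f x * ∏ v, (1 + sg (x v) * z v) / 2| := Finset.abs_sum_le_sum_abs _ _
    _ ≤ ∑ x : V → Bool, ∏ v, (1 + sg (x v) * z v) / 2 := by
        apply Finset.sum_le_sum
        intro x _
        have h0 := prod_bits_nonneg hz x
        rw [abs_mul, abs_of_nonneg h0]
        calc |f x| * ∏ v, (1 + sg (x v) * z v) / 2 ≤ 1 * ∏ v, (1 + sg (x v) * z v) / 2 := by
              gcongr; exact hf x
          _ = _ := one_mul _
    _ = 1 := sum_prod_bits z

theorem abs_ext_le_Mx {f : (V → Bool) → ℝ} (hf : ∀ x, |f x| ≤ 1) (z : V → ℝ) :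
    |ext f z| ≤ Mx z := by
  have := sepAffine_bound (sepAffine_ext f) (Λ := 1)
    (fun z hz => abs_ext_le hf (fun v => (hz v).trans (by norm_num))) z
  simpa using this

/-- clipping error -/
theorem abs_ext_clip_sub_le {f : (V → Bool) → ℝ} (hf : ∀ x, |f x| ≤ 1) (z : V → ℝ) :
    |ext f (fun v => clip (z v)) - ext f z| ≤ Mx z ^ 2 - 1 := by
  by_cases h : ∀ v, |z v| ≤ 1
  · have : (fun v => clip (z v)) = z := funext fun v => clip_of_abs_le (h v)
    rw [this, sub_self, abs_zero]
    have := one_le_Mx z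
    nlinarith
  · push Not at h
    obtain ⟨v, hv⟩ := h
    have h2 : 2 ≤ Mx z := by
      unfold Mx
      rw [← Finset.mul_prod_erase Finset.univ _ (Finset.mem_univ v)]
      have h3 : (2:ℝ) ≤ max 1 (2 * |z v|) := le_max_of_le_right (by linarith)
      have h4 : 1 ≤ ∏ u ∈ Finset.univ.erase v, max 1 (2 * |z u|) := by
        have := Finset.prod_le_prod (s := Finset.univ.erase v) (f := fun _ : V => (1:ℝ))
          (g := fun v => max 1 (2 * |z v|)) (fun _ _ => zero_le_one) (fun _ _ => le_max_left _ _)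
        simpa using this
      nlinarith
    have h3 := abs_ext_le hf (z := fun v => clip (z v)) (fun v => abs_clip_le (z v))
    have h4 := abs_ext_le_Mx hf z
    calc |ext f (fun v => clip (z v)) - ext f z| ≤
        |ext f (fun v => clip (z v))| + |ext f z| := abs_sub _ _
      _ ≤ 1 + Mx z := by linarith
      _ ≤ Mx z ^ 2 - 1 := by nlinarith

end sep

/-- one-variable majorant -/
noncomputable def hh (u : ℝ) : ℝ := max 1 (16 * u ^ 4)

theorem one_le_hh (u : ℝ) : 1 ≤ hh u := le_max_left _ _

theorem four_sq_le_hh (u : ℝ) : 4 * u ^ 2 ≤ hh u := by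
  unfold hh
  rcases le_total (4 * u ^ 2) 1 with h | h
  · exact h.trans (le_max_left _ _)
  · apply le_max_of_le_right
    nlinarith

theorem max_sq_le_hh (u : ℝ) : (max 1 (2 * |u|)) ^ 2 ≤ hh u := by
  rcases le_total (2 * |u|) 1 with h | h
  · rw [max_eq_left h]
    simpa using one_le_hh u
  · rw [max_eq_right h, mul_pow, sq_abs]
    have := four_sq_le_hh u
    linarith

theorem max_mul_sq_le_hh (u v : ℝ) : (max 1 (2 * |u * v|)) ^ 2 ≤ hh u * hh v := by
  have hu := one_le_hh u
  have hv := one_le_hh v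
  rcases le_total (2 * |u * v|) 1 with h | h
  · rw [max_eq_left h]
    nlinarith
  · rw [max_eq_right h, mul_pow, sq_abs, mul_pow]
    have h1 := four_sq_le_hh u
    have h2 := four_sq_le_hh v
    have h3 : 0 ≤ u ^ 2 := sq_nonneg u
    have h4 : 0 ≤ v ^ 2 := sq_nonneg v
    have h5 : (4 * u ^ 2) * (4 * v ^ 2) ≤ hh u * hh v := by gcongr
    nlinarith [mul_nonneg h3 h4]

theorem tailMoment_eq (σ : ℝ) : tailMoment σ = ∫ x, hh (σ * x) ^ 2 ∂(gaussianReal 0 1) := rfl

end Crest.Agent.QG
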