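import Crest.Agent.QG.ProcLib

/-!
# Abstract hint schemes and the gap function: statements of chunks F and G
-/

set_option autoImplicit false

namespace Crest.Agent.QG

open Finset

/-- `x` is the hint, `y` the certificate, `lam` the address. `bad e lam` are the local checks of the
certificate, `pa` is the address extraction, `D lam` the hard distribution of hints for `lam`. -/
def HasHint (X Y Lam : Type) [Fintype X] [DecidableEq X] [DecidableEq Lam]
    (nE Tc Ta t : ℕ) (δ : ℝ) : Prop :=
  ∃ (E : Type) (_ : Fintype E) (_ : DecidableEq E) (bad : E → Lam → (X ⊕ Y → Bool) → Bool)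
    (pa : (X → Bool) → Lam → ℝ) (D : Lam → (X → Bool) → ℝ),
    Fintype.card E ≤ nE ∧ (∀ e lam, Proc Tc (det (bad e lam))) ∧ Proc Ta pa ∧
    (∀ x lam y, (∀ e, bad e lam (Sum.elim x y) = false) → 1 - δ ≤ pa x lam) ∧
    (∀ lam x, 0 ≤ D lam x) ∧ (∀ lam, ∑ x, D lam x = 1) ∧
    (∀ lam (G : Finset (X → Bool)), (∀ x, (∃ y, ∀ e, bad e lam (Sum.elim x y) = false) → x ∈ G) →
      99 / 100 ≤ ∑ x ∈ G, D lam x) ∧
    (∀ lam (T : Tr X), T.depth ≤ t → |∑ x, D lam x * T.fn x - ext T.fn 0| ≤ 1 / 100)

/-- index type of the input bits of the gap function -/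
abbrev GIdx (Col X Y Lam : Type) (kw : ℕ) : Type :=
  Col × (X ⊕ ((Fin kw → Bool) ⊕ (Lam × ((Col × Fin kw) ⊕ Y))))

section GF
variable {Col X Y Lam E : Type} {kw : ℕ}

/-- the hint bits of column `b` -/
def gHint (x : GIdx Col X Y Lam kw → Bool) (b : Col) : X → Bool := fun v => x (b, Sum.inl v)
/-- the kill bits of column `b` -/
def gKill (x : GIdx Col X Y Lam kw → Bool) (b : Col) (u : Fin kw → Bool) : Bool :=
  x (b, Sum.inr (Sum.inl u))
/-- the pointer to column `i` in the cell of column `b` with address `lam` -/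
def gPtr (x : GIdx Col X Y Lam kw → Bool) (b : Col) (lam : Lam) (i : Col) : Fin kw → Bool :=
  fun l => x (b, Sum.inr (Sum.inr (lam, Sum.inl (i, l))))
/-- the certificate in the cell of column `b` with address `lam` -/
def gCert (x : GIdx Col X Y Lam kw → Bool) (b : Col) (lam : Lam) : Y → Bool :=
  fun v => x (b, Sum.inr (Sum.inr (lam, Sum.inr v)))

/-- the property defining the gap function -/
def GProp (bad : E → Lam → (X ⊕ Y → Bool) → Bool) (x : GIdx Col X Y Lam kw → Bool) : Prop :=
  ∃ (b : Col) (lam : Lam), (∀ u, gKill x b u = true) ∧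
    (∀ i, i ≠ b → gKill x i (gPtr x b lam i) = false) ∧
    (∀ e, bad e lam (Sum.elim (gHint x b) (gCert x b lam)) = false)

open Classical in
/-- the gap function -/
noncomputable def GFun (bad : E → Lam → (X ⊕ Y → Bool) → Bool) (x : GIdx Col X Y Lam kw → Bool) :
    Bool := decide (GProp bad x)

end GF

/-- mean over the copies of the Forrelation of the bit `β` -/
noncomputable def meanForr {c κ ρ a : ℕ}
    (x : (Fin c × (Fin ρ → Bool)) × (Fin κ × (Fin a → Bool)) → Bool) (β : Fin c) : ℝ :=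
  (1 / (2 : ℝ) ^ ρ) * ∑ r : Fin ρ → Bool, forr (had a) (fun v => x ((β, r), v))

/-- the hint `x` encodes the address `lam` with margin `θ` -/
def Encodes {c κ ρ a : ℕ} (θ : ℝ)
    (x : (Fin c × (Fin ρ → Bool)) × (Fin κ × (Fin a → Bool)) → Bool) (lam : Fin c → Bool) : Prop :=
  ∀ β, (lam β = true → θ ≤ meanForr x β) ∧ (lam β = false → meanForr x β ≤ -θ)

end Crest.Agent.QG
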