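import Crest.Agent.QG.Defs

/-!
# Chunk C: level-`k` bound for decision trees (biased measures), by `2p`-th moments of martingales
-/

set_option autoImplicit false

namespace Crest.Agent.QG

open Finset

namespace Level

/-! ### scalar inequalities -/

theorem term_le (q m : ℕ) (hm : m ≤ 2 * q) (X y : ℝ) :
    y ^ (m + 2) * X ^ (2 * q - m) ≤ X ^ (2 * q) * y ^ 2 + y ^ (2 * (q + 1)) := by
  have h1 : y ^ (m + 2) * X ^ (2 * q - m) ≤ |y| ^ (m + 2) * |X| ^ (2 * q - m) := by
    rw [← abs_pow, ← abs_pow, ← abs_mul]; exact le_abs_self _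
  have e1 : X ^ (2 * q) = |X| ^ (2 * q) := by rw [pow_mul, pow_mul, sq_abs]
  have e2 : y ^ 2 = |y| ^ 2 := (sq_abs y).symm
  have e3 : y ^ (2 * (q + 1)) = |y| ^ (2 * (q + 1)) := by rw [pow_mul, pow_mul, sq_abs]
  rw [e1, e2, e3]
  refine h1.trans ?_
  have hy := abs_nonneg y
  have hX := abs_nonneg X
  rcases le_total |y| |X| with h | h
  · have h2 : |y| ^ (m + 2) * |X| ^ (2 * q - m) ≤ |X| ^ (2 * q) * |y| ^ 2 := by
      have h3 : |y| ^ m ≤ |X| ^ m := pow_le_pow_left₀ hy h m
      calc |y| ^ (m + 2) * |X| ^ (2 * q - m) = |y| ^ m * |X| ^ (2 * q - m) * |y| ^ 2 := by ring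
        _ ≤ |X| ^ m * |X| ^ (2 * q - m) * |y| ^ 2 := by gcongr
        _ = |X| ^ (2 * q) * |y| ^ 2 := by rw [← pow_add]; congr 2; omega
    have h4 : 0 ≤ |y| ^ (2 * (q + 1)) := by positivity
    linarith
  · have h2 : |y| ^ (m + 2) * |X| ^ (2 * q - m) ≤ |y| ^ (2 * (q + 1)) := by
      have h3 : |X| ^ (2 * q - m) ≤ |y| ^ (2 * q - m) := pow_le_pow_left₀ hX h _
      calc |y| ^ (m + 2) * |X| ^ (2 * q - m) ≤ |y| ^ (m + 2) * |y| ^ (2 * q - m) := by gcongr
        _ = |y| ^ (2 * (q + 1)) := by rw [← pow_add]; congr 1; omega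
    have h4 : 0 ≤ |X| ^ (2 * q) * |y| ^ 2 := by positivity
    linarith

theorem taylor (q : ℕ) (X y : ℝ) :
    (X + y) ^ (2 * (q + 1)) ≤ X ^ (2 * (q + 1)) + (2 * (q + 1)) * X ^ (2 * q + 1) * y +
      4 ^ (q + 1) * (X ^ (2 * q) * y ^ 2 + y ^ (2 * (q + 1))) := by
  have hB : 0 ≤ X ^ (2 * q) * y ^ 2 + y ^ (2 * (q + 1)) := by
    rw [pow_mul, pow_mul]; positivity
  rw [add_comm X y, add_pow]
  have e : 2 * (q + 1) + 1 = (2 * q + 1) + 1 + 1 := by ring
  rw [e, sum_range_succ', sum_range_succ']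
  have h1 : ∑ m ∈ range (2 * q + 1), y ^ (m + 1 + 1) * X ^ (2 * (q + 1) - (m + 1 + 1)) *
      ((2 * (q + 1)).choose (m + 1 + 1) : ℝ) ≤
      4 ^ (q + 1) * (X ^ (2 * q) * y ^ 2 + y ^ (2 * (q + 1))) := by
    calc ∑ m ∈ range (2 * q + 1), y ^ (m + 1 + 1) * X ^ (2 * (q + 1) - (m + 1 + 1)) *
        ((2 * (q + 1)).choose (m + 1 + 1) : ℝ)
        ≤ ∑ m ∈ range (2 * q + 1), (X ^ (2 * q) * y ^ 2 + y ^ (2 * (q + 1))) *
          ((2 * (q + 1)).choose (m + 1 + 1) : ℝ) := by
          apply sum_le_sum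
          intro m hm
          rw [mem_range] at hm
          have h2 := term_le q m (by omega) X y
          have h3 : 2 * (q + 1) - (m + 1 + 1) = 2 * q - m := by omega
          rw [h3]
          gcongr
      _ = (X ^ (2 * q) * y ^ 2 + y ^ (2 * (q + 1))) *
          ∑ m ∈ range (2 * q + 1), ((2 * (q + 1)).choose (m + 1 + 1) : ℝ) := by
          rw [mul_sum]
      _ ≤ (X ^ (2 * q) * y ^ 2 + y ^ (2 * (q + 1))) * 4 ^ (q + 1) := by
          gcongr
          have h4 := Nat.sum_range_choose (2 * (q + 1))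
          rw [e, sum_range_succ', sum_range_succ'] at h4
          have h5 : ∑ m ∈ range (2 * q + 1), ((2 * (q + 1)).choose (m + 1 + 1)) ≤ 2 ^ (2 * (q + 1)) := by
            omega
          calc ∑ m ∈ range (2 * q + 1), ((2 * (q + 1)).choose (m + 1 + 1) : ℝ)
              = ((∑ m ∈ range (2 * q + 1), ((2 * (q + 1)).choose (m + 1 + 1)) : ℕ) : ℝ) := by
                push_cast; rfl
            _ ≤ ((2 ^ (2 * (q + 1)) : ℕ) : ℝ) := by exact_mod_cast h5
            _ = 4 ^ (q + 1) := by push_cast; rw [pow_mul]; norm_num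
      _ = 4 ^ (q + 1) * (X ^ (2 * q) * y ^ 2 + y ^ (2 * (q + 1))) := by ring
  have h6 : 2 * (q + 1) - (0 + 1) = 2 * q + 1 := by omega
  have h7 : y ^ (0 + 1) * X ^ (2 * (q + 1) - (0 + 1)) * ((2 * (q + 1)).choose (0 + 1) : ℝ) =
      (2 * (q + 1)) * X ^ (2 * q + 1) * y := by
    rw [h6, zero_add, Nat.choose_one_right]; push_cast; ring
  have h8 : y ^ 0 * X ^ (2 * (q + 1) - 0) * ((2 * (q + 1)).choose 0 : ℝ) = X ^ (2 * (q + 1)) := by
    simp
  rw [h7, h8]
  linarith

/-- the constant -/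
noncomputable def KK (q : ℕ) : ℝ := (4 ^ (q + 2)) ^ (q + 1) + 16 ^ (q + 1)

theorem KK_pos (q : ℕ) : 0 < KK q := by unfold KK; positivity

theorem young (q t : ℕ) (ht : 1 ≤ t) (X c : ℝ) :
    4 ^ (q + 2) * (X ^ (2 * q) * c ^ 2) ≤
      (1 / (t : ℝ)) * X ^ (2 * (q + 1)) + (4 ^ (q + 2)) ^ (q + 1) * (t : ℝ) ^ q * c ^ (2 * (q + 1)) := by
  have ht0 : (0:ℝ) < t := by exact_mod_cast ht
  set A : ℝ := 4 ^ (q + 2) with hA
  have hA0 : 0 < A := by positivity
  have e1 : X ^ (2 * (q + 1)) = (X ^ 2) ^ q * X ^ 2 := by rw [← pow_mul, ← pow_add]; ring_nf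
  have e2 : c ^ (2 * (q + 1)) = (c ^ 2) ^ q * c ^ 2 := by rw [← pow_mul, ← pow_add]; ring_nf
  have e3 : X ^ (2 * q) = (X ^ 2) ^ q := pow_mul X 2 q
  rw [e1, e2, e3]
  have hX : 0 ≤ X ^ 2 := sq_nonneg X
  have hc : 0 ≤ c ^ 2 := sq_nonneg c
  rcases le_total (A * t * c ^ 2) (X ^ 2) with h | h
  · have h1 : A * c ^ 2 ≤ (1 / (t : ℝ)) * X ^ 2 := by
      rw [one_div, inv_mul_eq_div, le_div_iff₀ ht0]; linarith
    have h2 : A * ((X ^ 2) ^ q * c ^ 2) ≤ (1 / (t : ℝ)) * ((X ^ 2) ^ q * X ^ 2) := by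
      have := mul_le_mul_of_nonneg_left h1 (pow_nonneg hX q)
      nlinarith
    have h3 : 0 ≤ A ^ (q + 1) * (t : ℝ) ^ q * ((c ^ 2) ^ q * c ^ 2) := by positivity
    linarith
  · have h1 : (X ^ 2) ^ q ≤ (A * t * c ^ 2) ^ q := pow_le_pow_left₀ hX h q
    have h2 : A * ((X ^ 2) ^ q * c ^ 2) ≤ A ^ (q + 1) * (t : ℝ) ^ q * ((c ^ 2) ^ q * c ^ 2) := by
      calc A * ((X ^ 2) ^ q * c ^ 2) ≤ A * ((A * t * c ^ 2) ^ q * c ^ 2) := by gcongr
        _ = A ^ (q + 1) * (t : ℝ) ^ q * ((c ^ 2) ^ q * c ^ 2) := by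
          rw [mul_pow, mul_pow]; ring
    have h3 : 0 ≤ (1 / (t : ℝ)) * ((X ^ 2) ^ q * X ^ 2) := by positivity
    linarith

theorem two_point (q t : ℕ) (ht : 1 ≤ t) (w0 w1 y0 y1 X c : ℝ) (hw0 : 0 ≤ w0) (hw1 : 0 ≤ w1)
    (h0 : w0 * y0 + w1 * y1 = 0) (hy0 : |y0| ≤ 2) (hy1 : |y1| ≤ 2) :
    w0 * (X + y0 * c) ^ (2 * (q + 1)) + w1 * (X + y1 * c) ^ (2 * (q + 1)) ≤
      (w0 + w1) * ((1 + 1 / (t : ℝ)) * X ^ (2 * (q + 1)) +
        KK q * (t : ℝ) ^ q * c ^ (2 * (q + 1))) := by
  have ht0 : (1:ℝ) ≤ t := by exact_mod_cast ht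
  have hone : ∀ w y : ℝ, 0 ≤ w → |y| ≤ 2 → w * (X + y * c) ^ (2 * (q + 1)) ≤
      w * (X ^ (2 * (q + 1)) + 4 ^ (q + 2) * (X ^ (2 * q) * c ^ 2) +
        16 ^ (q + 1) * c ^ (2 * (q + 1))) +
      (w * y) * ((2 * (q + 1)) * X ^ (2 * q + 1) * c) := by
    intro w y hw hy
    have h1 := taylor q X (y * c)
    have hy2 : y ^ 2 ≤ 4 := by
      have := sq_abs y
      nlinarith [abs_nonneg y]
    have h2 : X ^ (2 * q) * (y * c) ^ 2 ≤ 4 * (X ^ (2 * q) * c ^ 2) := by
      have h3 : 0 ≤ X ^ (2 * q) * c ^ 2 := by rw [pow_mul]; positivity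
      calc X ^ (2 * q) * (y * c) ^ 2 = y ^ 2 * (X ^ (2 * q) * c ^ 2) := by ring
        _ ≤ 4 * (X ^ (2 * q) * c ^ 2) := by gcongr
    have h4 : (y * c) ^ (2 * (q + 1)) ≤ 4 ^ (q + 1) * c ^ (2 * (q + 1)) := by
      rw [mul_pow]
      have h5 : y ^ (2 * (q + 1)) ≤ 4 ^ (q + 1) := by
        rw [pow_mul]; exact pow_le_pow_left₀ (sq_nonneg y) hy2 _
      have h6 : 0 ≤ c ^ (2 * (q + 1)) := by rw [pow_mul]; positivity
      gcongr
    have h7 : (X + y * c) ^ (2 * (q + 1)) ≤ X ^ (2 * (q + 1)) + (2 * (q + 1)) * X ^ (2 * q + 1) * (y * c) +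
        4 ^ (q + 1) * (4 * (X ^ (2 * q) * c ^ 2) + 4 ^ (q + 1) * c ^ (2 * (q + 1))) := by
      refine h1.trans ?_
      gcongr
    have h8 : (4:ℝ) ^ (q + 1) * 4 ^ (q + 1) = 16 ^ (q + 1) := by
      rw [← mul_pow]; norm_num
    have h9 := mul_le_mul_of_nonneg_left h7 hw
    have h10 : (4:ℝ) ^ (q + 2) = 4 ^ (q + 1) * 4 := by ring
    rw [h10, ← h8]
    linarith
  have a0 := hone w0 y0 hw0 hy0
  have a1 := hone w1 y1 hw1 hy1
  have hy := young q t ht X c
  have hsum : (w0 * y0) * ((2 * (q + 1)) * X ^ (2 * q + 1) * c) +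
      (w1 * y1) * ((2 * (q + 1)) * X ^ (2 * q + 1) * c) = 0 := by
    rw [← add_mul, h0, zero_mul]
  have hc6 : 0 ≤ c ^ (2 * (q + 1)) := by rw [pow_mul]; positivity
  have htq : (1:ℝ) ≤ (t : ℝ) ^ q := one_le_pow₀ ht0
  have h16 : 16 ^ (q + 1) * c ^ (2 * (q + 1)) ≤ 16 ^ (q + 1) * (t : ℝ) ^ q * c ^ (2 * (q + 1)) := by
    have : (0:ℝ) ≤ 16 ^ (q + 1) * c ^ (2 * (q + 1)) := by positivity
    nlinarith
  have hfin : X ^ (2 * (q + 1)) + 4 ^ (q + 2) * (X ^ (2 * q) * c ^ 2) +
        16 ^ (q + 1) * c ^ (2 * (q + 1)) ≤ (1 + 1 / (t : ℝ)) * X ^ (2 * (q + 1)) +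
        KK q * (t : ℝ) ^ q * c ^ (2 * (q + 1)) := by
    unfold KK
    nlinarith
  have hW := mul_le_mul_of_nonneg_left hfin (add_nonneg hw0 hw1)
  nlinarith

/-! ### queried variables -/

variable {V : Type} [DecidableEq V]

/-- flip one bit -/
def flp (v : V) (x : V → Bool) : V → Bool := Function.update x v (!(x v))

theorem flp_self (v : V) (x : V → Bool) : flp v x v = !(x v) := by simp [flp]

theorem flp_ne {v u : V} (h : u ≠ v) (x : V → Bool) : flp v x u = x u := by simp [flp, h]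

theorem flp_flp (v : V) (x : V → Bool) : flp v (flp v x) = x := by
  funext u
  by_cases h : u = v
  · subst h; simp [flp]
  · simp [flp, h]

/-- variables queried in the first `i` steps -/
def qs : ℕ → Tr V → (V → Bool) → Finset V
  | 0, _, _ => ∅
  | _ + 1, .leaf _, _ => ∅
  | i + 1, .node v t₀ t₁, x => insert v (if x v then qs i t₁ x else qs i t₀ x)

/-- the variable queried at step `i` -/
def nxt : ℕ → Tr V → (V → Bool) → Option V
  | _, .leaf _, _ => none
  | 0, .node v _ _, _ => some v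
  | i + 1, .node v t₀ t₁, x => if x v then nxt i t₁ x else nxt i t₀ x

theorem qs_leaf (i : ℕ) (b : Bool) (x : V → Bool) : qs i (.leaf b) x = ∅ := by
  cases i <;> rfl

theorem nxt_leaf (i : ℕ) (b : Bool) (x : V → Bool) : nxt i (.leaf b) x = none := by
  cases i <;> rfl

theorem qs_succ_none (i : ℕ) : ∀ (T : Tr V) (x : V → Bool), nxt i T x = none →
    qs (i + 1) T x = qs i T x := by
  induction i with
  | zero =>
    intro T x h
    cases T with
    | leaf b => rfl
    | node v t₀ t₁ => simp [nxt] at h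
  | succ i ih =>
    intro T x h
    cases T with
    | leaf b => rfl
    | node v t₀ t₁ =>
      simp only [qs, nxt] at h ⊢
      by_cases hx : x v
      · simp only [hx, if_true] at h ⊢
        rw [← ih t₁ x h]
      · simp only [hx, if_false, Bool.false_eq_true] at h ⊢
        rw [← ih t₀ x h]

theorem qs_succ_some (i : ℕ) : ∀ (T : Tr V) (x : V → Bool) (v : V), nxt i T x = some v →
    qs (i + 1) T x = insert v (qs i T x) := by
  induction i with
  | zero =>
    intro T x v h
    cases T with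
    | leaf b => simp [nxt] at h
    | node u t₀ t₁ =>
      simp only [nxt, Option.some.injEq] at h
      subst h
      simp [qs]
  | succ i ih =>
    intro T x v h
    cases T with
    | leaf b => simp [nxt] at h
    | node u t₀ t₁ =>
      simp only [nxt] at h
      by_cases hx : x u
      · simp only [hx, if_true] at h
        have h1 := ih t₁ x v h
        show insert u (if x u then qs (i + 1) t₁ x else qs (i + 1) t₀ x) =
          insert v (insert u (if x u then qs i t₁ x else qs i t₀ x))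
        simp only [hx, if_true]
        rw [h1, Finset.insert_comm]
      · simp only [hx, if_false, Bool.false_eq_true] at h
        have h1 := ih t₀ x v h
        show insert u (if x u then qs (i + 1) t₁ x else qs (i + 1) t₀ x) =
          insert v (insert u (if x u then qs i t₁ x else qs i t₀ x))
        simp only [hx, if_false, Bool.false_eq_true]
        rw [h1, Finset.insert_comm]

theorem qs_flp (i : ℕ) : ∀ (T : Tr V) (x : V → Bool) (v : V), v ∉ qs i T x →
    qs i T (flp v x) = qs i T x ∧ nxt i T (flp v x) = nxt i T x := by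
  induction i with
  | zero =>
    intro T x v _
    cases T <;> exact ⟨rfl, rfl⟩
  | succ i ih =>
    intro T x v h
    cases T with
    | leaf b => exact ⟨rfl, rfl⟩
    | node u t₀ t₁ =>
      have h1 : v ∉ insert u (if x u then qs i t₁ x else qs i t₀ x) := h
      rw [Finset.mem_insert, not_or] at h1
      have hu : flp v x u = x u := flp_ne (Ne.symm h1.1) x
      show insert u (if flp v x u then qs i t₁ (flp v x) else qs i t₀ (flp v x)) =
          insert u (if x u then qs i t₁ x else qs i t₀ x) ∧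
        (if flp v x u then nxt i t₁ (flp v x) else nxt i t₀ (flp v x)) =
          (if x u then nxt i t₁ x else nxt i t₀ x)
      rw [hu]
      by_cases hx : x u
      · simp only [hx, if_true] at h1 ⊢
        have := ih t₁ x v h1.2
        rw [this.1, this.2]
        exact ⟨rfl, rfl⟩
      · simp only [hx, if_false, Bool.false_eq_true] at h1 ⊢
        have := ih t₀ x v h1.2
        rw [this.1, this.2]
        exact ⟨rfl, rfl⟩

theorem eval_flp (i : ℕ) : ∀ (T : Tr V) (x : V → Bool) (v : V), T.depth ≤ i → v ∉ qs i T x →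
    T.eval (flp v x) = T.eval x := by
  induction i with
  | zero =>
    intro T x v hd _
    cases T with
    | leaf b => rfl
    | node u t₀ t₁ => simp [Tr.depth] at hd
  | succ i ih =>
    intro T x v hd h
    cases T with
    | leaf b => rfl
    | node u t₀ t₁ =>
      have h1 : v ∉ insert u (if x u then qs i t₁ x else qs i t₀ x) := h
      rw [Finset.mem_insert, not_or] at h1
      have hu : flp v x u = x u := flp_ne (Ne.symm h1.1) x
      simp only [Tr.depth] at hd
      have hd0 : t₀.depth ≤ i := by omega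
      have hd1 : t₁.depth ≤ i := by omega
      simp only [Tr.eval, hu]
      by_cases hx : x u
      · simp only [hx, if_true] at h1 ⊢
        exact ih t₁ x v hd1 h1.2
      · simp only [hx, if_false, Bool.false_eq_true] at h1 ⊢
        exact ih t₀ x v hd0 h1.2

/-! ### weights -/

/-- one-variable weight -/
noncomputable def mu (z : V → ℝ) (v : V) (b : Bool) : ℝ := (1 + sg b * z v) / 2

/-- normalised one-variable martingale difference -/
noncomputable def ph (z : V → ℝ) (v : V) (b : Bool) : ℝ := (sg b - z v) / (1 - z v ^ 2)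

/-- product weight -/
noncomputable def wt [Fintype V] (z : V → ℝ) (x : V → Bool) : ℝ := ∏ v, mu z v (x v)

omit [DecidableEq V] in
theorem mu_nonneg {z : V → ℝ} (hz : ∀ v, |z v| ≤ 1 / 2) (v : V) (b : Bool) : 0 ≤ mu z v b := by
  have h := abs_le.mp (hz v)
  unfold mu sg
  cases b
  · simp only [Bool.false_eq_true, if_false]; linarith
  · simp only [if_true]; linarith

omit [DecidableEq V] in
theorem mu_mul_ph {z : V → ℝ} (hz : ∀ v, |z v| ≤ 1 / 2) (v : V) (b : Bool) :
    mu z v b * ph z v b = sg b / 2 := by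
  have h := abs_le.mp (hz v)
  have h1 : 0 < 1 - z v ^ 2 := by nlinarith
  unfold mu ph sg
  cases b
  · simp only [Bool.false_eq_true, if_false]; field_simp; ring
  · simp only [if_true]; field_simp; ring

omit [DecidableEq V] in
theorem abs_ph_le {z : V → ℝ} (hz : ∀ v, |z v| ≤ 1 / 2) (v : V) (b : Bool) : |ph z v b| ≤ 2 := by
  have h := abs_le.mp (hz v)
  have h1 : 0 < 1 - z v ^ 2 := by nlinarith
  unfold ph
  rw [abs_div, abs_of_pos h1, div_le_iff₀ h1]
  unfold sg
  cases b
  · simp only [Bool.false_eq_true, if_false]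
    rw [abs_of_nonneg (by linarith)]; nlinarith
  · simp only [if_true]
    rw [abs_of_nonpos (by linarith)]; nlinarith

theorem sg_not (b : Bool) : sg (!b) = - sg b := by cases b <;> simp [sg]

variable [Fintype V]

theorem wt_nonneg {z : V → ℝ} (hz : ∀ v, |z v| ≤ 1 / 2) (x : V → Bool) : 0 ≤ wt z x :=
  Finset.prod_nonneg (fun v _ => mu_nonneg hz v _)

theorem wt_sum (z : V → ℝ) : ∑ x : V → Bool, wt z x = 1 := by
  have h1 := Finset.prod_univ_sum (fun _ : V => (Finset.univ : Finset Bool)) (fun v b => mu z v b)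
  rw [Fintype.piFinset_univ] at h1
  unfold wt
  rw [← h1]
  apply Finset.prod_eq_one
  intro v _
  simp [mu, sg]
  ring

/-- the rest of the weight -/
noncomputable def wr (z : V → ℝ) (v : V) (x : V → Bool) : ℝ :=
  ∏ u ∈ Finset.univ.erase v, mu z u (x u)

theorem wt_eq (z : V → ℝ) (v : V) (x : V → Bool) : wt z x = mu z v (x v) * wr z v x := by
  unfold wt wr
  rw [Finset.mul_prod_erase _ (fun u => mu z u (x u)) (Finset.mem_univ v)]

theorem wr_flp (z : V → ℝ) (v : V) (x : V → Bool) : wr z v (flp v x) = wr z v x := by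
  unfold wr
  apply Finset.prod_congr rfl
  intro u hu
  rw [flp_ne (Finset.ne_of_mem_erase hu)]

theorem wt_ph_flp {z : V → ℝ} (hz : ∀ v, |z v| ≤ 1 / 2) (v : V) (x : V → Bool) :
    wt z x * ph z v (x v) + wt z (flp v x) * ph z v (flp v x v) = 0 := by
  rw [wt_eq z v x, wt_eq z v (flp v x), wr_flp, flp_self]
  have h1 := mu_mul_ph hz v (x v)
  have h2 := mu_mul_ph hz v (!(x v))
  rw [sg_not] at h2
  linear_combination wr z v x * h1 + wr z v x * h2

/-! ### the path polynomials -/

/-- the path polynomial -/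
noncomputable def PP (z : V → ℝ) (a : Finset V → ℝ) (k i : ℕ) (T : Tr V) (x : V → Bool) : ℝ :=
  ∑ S ∈ Finset.powersetCard k (qs i T x), a S * ∏ v ∈ S, ph z v (x v)

omit [Fintype V] in
theorem PP_zero_level (z : V → ℝ) (a : Finset V → ℝ) (i : ℕ) (T : Tr V) (x : V → Bool) :
    PP z a 0 i T x = a ∅ := by
  simp [PP]

omit [Fintype V] in
theorem PP_zero_step (z : V → ℝ) (a : Finset V → ℝ) (k : ℕ) (T : Tr V) (x : V → Bool) :
    PP z a (k + 1) 0 T x = 0 := by
  unfold PP
  rw [show qs 0 T x = ∅ from rfl, Finset.powersetCard_eq_empty.mpr (by simp)]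
  simp

omit [Fintype V] in
/-- the path polynomial does not change when an unqueried variable is flipped -/
theorem PP_flp (z : V → ℝ) (a : Finset V → ℝ) (k i : ℕ) (T : Tr V) (x : V → Bool) (v : V)
    (hv : v ∉ qs i T x) : PP z a k i T (flp v x) = PP z a k i T x := by
  unfold PP
  rw [(qs_flp i T x v hv).1]
  apply Finset.sum_congr rfl
  intro S hS
  congr 1
  apply Finset.prod_congr rfl
  intro u hu
  have : u ≠ v := by
    rintro rfl
    exact hv ((Finset.mem_powersetCard.mp hS).1 hu)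
  rw [flp_ne this]

/-- derived coefficients -/
def der (a : Finset V → ℝ) (v : V) : Finset V → ℝ := fun S => a (insert v S)

omit [Fintype V] in
theorem PP_succ_some (z : V → ℝ) (a : Finset V → ℝ) (k i : ℕ) (T : Tr V) (x : V → Bool) (v : V)
    (hn : nxt i T x = some v) (hv : v ∉ qs i T x) :
    PP z a (k + 1) (i + 1) T x = PP z a (k + 1) i T x + ph z v (x v) * PP z (der a v) k i T x := by
  unfold PP
  rw [qs_succ_some i T x v hn, Finset.powersetCard_succ_insert hv, Finset.sum_union]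
  · congr 1
    rw [Finset.sum_image, Finset.mul_sum]
    · apply Finset.sum_congr rfl
      intro S hS
      have hvS : v ∉ S := fun h => hv ((Finset.mem_powersetCard.mp hS).1 h)
      rw [Finset.prod_insert hvS, der]
      ring
    · intro S hS S' hS' h
      have h1 : v ∉ S := fun h => hv ((Finset.mem_powersetCard.mp hS).1 h)
      have h2 : v ∉ S' := fun h => hv ((Finset.mem_powersetCard.mp hS').1 h)
      rw [← Finset.erase_insert h1, ← Finset.erase_insert h2]
      have h3 : insert v S = insert v S' := h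
      rw [h3]
  · rw [Finset.disjoint_left]
    intro S hS hS'
    rw [Finset.mem_image] at hS'
    obtain ⟨S', _, rfl⟩ := hS'
    exact hv ((Finset.mem_powersetCard.mp hS).1 (Finset.mem_insert_self v S'))

omit [Fintype V] in
theorem PP_succ_old (z : V → ℝ) (a : Finset V → ℝ) (k i : ℕ) (T : Tr V) (x : V → Bool)
    (h : ∀ v, nxt i T x = some v → v ∈ qs i T x) :
    PP z a k (i + 1) T x = PP z a k i T x := by
  unfold PP
  have : qs (i + 1) T x = qs i T x := by
    rcases hn : nxt i T x with _ | v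
    · exact qs_succ_none i T x hn
    · rw [qs_succ_some i T x v hn, Finset.insert_eq_of_mem (h v hn)]
  rw [this]

/-- the new variable queried at step `i`, if any -/
def newv (i : ℕ) (T : Tr V) (x : V → Bool) : Option V :=
  (nxt i T x).filter (fun v => decide (v ∉ qs i T x))

omit [Fintype V] in
theorem newv_some {i : ℕ} {T : Tr V} {x : V → Bool} {v : V} :
    newv i T x = some v ↔ nxt i T x = some v ∧ v ∉ qs i T x := by
  unfold newv
  rw [Option.filter_eq_some_iff]
  simp

omit [Fintype V] in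
theorem newv_none {i : ℕ} {T : Tr V} {x : V → Bool} (h : newv i T x = none) :
    ∀ v, nxt i T x = some v → v ∈ qs i T x := by
  intro v hv
  by_contra hn
  have := newv_some.mpr ⟨hv, hn⟩
  rw [h] at this
  exact absurd this (by simp)

omit [Fintype V] in
theorem newv_flp {i : ℕ} {T : Tr V} {x : V → Bool} {v : V} (h : newv i T x = some v) :
    newv i T (flp v x) = some v := by
  rw [newv_some] at h ⊢
  have := qs_flp i T x v h.2
  rw [this.1, this.2]
  exact h

/-- reindexing a fibre by the flip -/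
theorem sum_flp (i : ℕ) (T : Tr V) (v : V) (g : (V → Bool) → ℝ) :
    ∑ x ∈ Finset.univ.filter (fun x => newv i T x = some v), g (flp v x) =
      ∑ x ∈ Finset.univ.filter (fun x => newv i T x = some v), g x := by
  apply Finset.sum_nbij' (flp v) (flp v)
  · intro x hx
    rw [Finset.mem_filter] at hx ⊢
    exact ⟨Finset.mem_univ _, newv_flp hx.2⟩
  · intro x hx
    rw [Finset.mem_filter] at hx ⊢
    exact ⟨Finset.mem_univ _, newv_flp hx.2⟩
  · intro x _; exact flp_flp v x
  · intro x _; exact flp_flp v x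
  · intro x _; rfl

/-- one step of the moment recursion -/
theorem step (q t : ℕ) (ht : 1 ≤ t) {z : V → ℝ} (hz : ∀ v, |z v| ≤ 1 / 2) (a : Finset V → ℝ)
    (k i : ℕ) (T : Tr V) :
    ∑ x, wt z x * PP z a (k + 1) (i + 1) T x ^ (2 * (q + 1)) ≤
      (1 + 1 / (t : ℝ)) * ∑ x, wt z x * PP z a (k + 1) i T x ^ (2 * (q + 1)) +
      KK q * (t : ℝ) ^ q * ∑ v, ∑ x, wt z x * PP z (der a v) k i T x ^ (2 * (q + 1)) := by
  have ht0 : (0:ℝ) < t := by exact_mod_cast ht
  have heven : ∀ y : ℝ, 0 ≤ y ^ (2 * (q + 1)) := fun y => by rw [pow_mul]; positivity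
  -- fibre over `some v`
  have hsome : ∀ v : V, ∑ x ∈ Finset.univ.filter (fun x => newv i T x = some v),
      wt z x * PP z a (k + 1) (i + 1) T x ^ (2 * (q + 1)) ≤
      ∑ x ∈ Finset.univ.filter (fun x => newv i T x = some v),
        wt z x * ((1 + 1 / (t : ℝ)) * PP z a (k + 1) i T x ^ (2 * (q + 1)) +
        KK q * (t : ℝ) ^ q * PP z (der a v) k i T x ^ (2 * (q + 1))) := by
    intro v
    set s := Finset.univ.filter (fun x => newv i T x = some v) with hs
    let F : (V → Bool) → ℝ := fun x => wt z x * PP z a (k + 1) (i + 1) T x ^ (2 * (q + 1))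
    let G : (V → Bool) → ℝ := fun x => (1 + 1 / (t : ℝ)) * PP z a (k + 1) i T x ^ (2 * (q + 1)) +
        KK q * (t : ℝ) ^ q * PP z (der a v) k i T x ^ (2 * (q + 1))
    have h1 : ∑ x ∈ s, (F x + F (flp v x)) ≤ ∑ x ∈ s, (wt z x * G x + wt z (flp v x) * G (flp v x)) := by
      apply Finset.sum_le_sum
      intro x hx
      have hx' := newv_some.mp (Finset.mem_filter.mp hx).2
      have hxf := newv_some.mp (newv_flp (Finset.mem_filter.mp hx).2)
      have e1 := PP_succ_some z a k i T x v hx'.1 hx'.2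
      have e2 := PP_succ_some z a k i T (flp v x) v hxf.1 hxf.2
      rw [PP_flp z a (k + 1) i T x v hx'.2, PP_flp z (der a v) k i T x v hx'.2] at e2
      have hG : G (flp v x) = G x := by
        simp only [G]
        rw [PP_flp z a (k + 1) i T x v hx'.2, PP_flp z (der a v) k i T x v hx'.2]
      simp only [F]
      rw [e1, e2, hG, ← add_mul]
      exact two_point q t ht _ _ _ _ _ _ (wt_nonneg hz x) (wt_nonneg hz _) (wt_ph_flp hz v x)
        (abs_ph_le hz v _) (abs_ph_le hz v _)
    rw [Finset.sum_add_distrib, Finset.sum_add_distrib, sum_flp i T v F,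
      sum_flp i T v (fun x => wt z x * G x)] at h1
    simp only [F, G] at h1
    linarith
  -- fibre over `none`
  have hnone : ∑ x ∈ Finset.univ.filter (fun x => newv i T x = none),
      wt z x * PP z a (k + 1) (i + 1) T x ^ (2 * (q + 1)) ≤
      ∑ x ∈ Finset.univ.filter (fun x => newv i T x = none),
        wt z x * ((1 + 1 / (t : ℝ)) * PP z a (k + 1) i T x ^ (2 * (q + 1))) := by
    apply Finset.sum_le_sum
    intro x hx
    rw [PP_succ_old z a (k + 1) i T x (newv_none (Finset.mem_filter.mp hx).2)]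
    apply mul_le_mul_of_nonneg_left _ (wt_nonneg hz x)
    have h1 : (0:ℝ) ≤ 1 / t := by positivity
    nlinarith [heven (PP z a (k + 1) i T x)]
  rw [← Finset.sum_fiberwise Finset.univ (fun x => newv i T x)
    (fun x => wt z x * PP z a (k + 1) (i + 1) T x ^ (2 * (q + 1))), Fintype.sum_option]
  have h2 := add_le_add hnone (Finset.sum_le_sum (fun v (_ : v ∈ Finset.univ) => hsome v))
  refine h2.trans ?_
  have h3 : ∑ v : V, ∑ x ∈ Finset.univ.filter (fun x => newv i T x = some v),
        wt z x * ((1 + 1 / (t : ℝ)) * PP z a (k + 1) i T x ^ (2 * (q + 1)) +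
        KK q * (t : ℝ) ^ q * PP z (der a v) k i T x ^ (2 * (q + 1))) ≤
      (∑ v : V, ∑ x ∈ Finset.univ.filter (fun x => newv i T x = some v),
        wt z x * ((1 + 1 / (t : ℝ)) * PP z a (k + 1) i T x ^ (2 * (q + 1)))) +
      ∑ v : V, ∑ x, wt z x * (KK q * (t : ℝ) ^ q * PP z (der a v) k i T x ^ (2 * (q + 1))) := by
    rw [← Finset.sum_add_distrib]
    apply Finset.sum_le_sum
    intro v _
    rw [Finset.sum_congr rfl (fun x (_ : x ∈ Finset.univ.filter (fun x => newv i T x = some v)) =>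
      mul_add (wt z x) ((1 + 1 / (t : ℝ)) * PP z a (k + 1) i T x ^ (2 * (q + 1)))
        (KK q * (t : ℝ) ^ q * PP z (der a v) k i T x ^ (2 * (q + 1)))), Finset.sum_add_distrib]
    have h4 : ∑ x ∈ Finset.univ.filter (fun x => newv i T x = some v),
        wt z x * (KK q * (t : ℝ) ^ q * PP z (der a v) k i T x ^ (2 * (q + 1))) ≤
        ∑ x, wt z x * (KK q * (t : ℝ) ^ q * PP z (der a v) k i T x ^ (2 * (q + 1))) := by
      apply Finset.sum_le_univ_sum_of_nonneg
      intro x
      have := KK_pos q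
      have := heven (PP z (der a v) k i T x)
      have := wt_nonneg hz x
      positivity
    linarith
  have h5 : ∑ x, wt z x * ((1 + 1 / (t : ℝ)) * PP z a (k + 1) i T x ^ (2 * (q + 1))) =
      (∑ x ∈ Finset.univ.filter (fun x => newv i T x = none),
        wt z x * ((1 + 1 / (t : ℝ)) * PP z a (k + 1) i T x ^ (2 * (q + 1)))) +
      ∑ v : V, ∑ x ∈ Finset.univ.filter (fun x => newv i T x = some v),
        wt z x * ((1 + 1 / (t : ℝ)) * PP z a (k + 1) i T x ^ (2 * (q + 1))) := by
    rw [← Finset.sum_fiberwise Finset.univ (fun x => newv i T x)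
      (fun x => wt z x * ((1 + 1 / (t : ℝ)) * PP z a (k + 1) i T x ^ (2 * (q + 1)))),
      Fintype.sum_option]
  have h6 : (1 + 1 / (t : ℝ)) * ∑ x, wt z x * PP z a (k + 1) i T x ^ (2 * (q + 1)) =
      ∑ x, wt z x * ((1 + 1 / (t : ℝ)) * PP z a (k + 1) i T x ^ (2 * (q + 1))) := by
    rw [Finset.mul_sum]
    apply Finset.sum_congr rfl
    intro x _; ring
  have h7 : KK q * (t : ℝ) ^ q * ∑ v, ∑ x, wt z x * PP z (der a v) k i T x ^ (2 * (q + 1)) =
      ∑ v : V, ∑ x, wt z x * (KK q * (t : ℝ) ^ q * PP z (der a v) k i T x ^ (2 * (q + 1))) := by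
    rw [Finset.mul_sum]
    apply Finset.sum_congr rfl
    intro v _
    rw [Finset.mul_sum]
    apply Finset.sum_congr rfl
    intro x _; ring
  rw [h6, h7]
  linarith

theorem one_le_KK (q : ℕ) : 1 ≤ KK q := by
  unfold KK
  have h1 : (1:ℝ) ≤ 16 ^ (q + 1) := one_le_pow₀ (by norm_num)
  have h2 : (0:ℝ) ≤ (4 ^ (q + 2)) ^ (q + 1) := by positivity
  linarith

theorem e_bound (t : ℕ) (ht : 1 ≤ t) : (1 + 1 / (t : ℝ)) ^ t ≤ 3 := by
  have ht0 : (0:ℝ) < t := by exact_mod_cast ht
  have h1 : 1 + 1 / (t : ℝ) ≤ Real.exp (1 / t) := by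
    have := Real.add_one_le_exp (1 / (t : ℝ)); linarith
  calc (1 + 1 / (t : ℝ)) ^ t ≤ (Real.exp (1 / t)) ^ t :=
        pow_le_pow_left₀ (by positivity) h1 t
    _ = Real.exp 1 := by rw [← Real.exp_nat_mul]; congr 1; field_simp
    _ ≤ 3 := Real.exp_one_lt_three.le

theorem moment (q t : ℕ) (ht : 1 ≤ t) {z : V → ℝ} (hz : ∀ v, |z v| ≤ 1 / 2) (k : ℕ) :
    ∀ (a : Finset V → ℝ) (α : ℝ), (∀ S, |a S| ≤ α) → ∀ (T : Tr V) (i : ℕ), i ≤ t →
      ∑ x, wt z x * PP z a k i T x ^ (2 * (q + 1)) ≤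
        α ^ (2 * (q + 1)) * ((Fintype.card V : ℝ) * (3 * KK q * t) ^ (q + 1)) ^ k := by
  have ht1 : (1:ℝ) ≤ t := by exact_mod_cast ht
  have ht0 : (0:ℝ) < t := by linarith
  have hK := one_le_KK q
  induction k with
  | zero =>
    intro a α ha T i _
    simp only [PP_zero_level, pow_zero, mul_one]
    rw [← Finset.sum_mul, wt_sum, one_mul]
    have h1 : a ∅ ^ (2 * (q + 1)) = |a ∅| ^ (2 * (q + 1)) := by
      rw [pow_mul, pow_mul, sq_abs]
    rw [h1]
    exact pow_le_pow_left₀ (abs_nonneg _) (ha ∅) _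
  | succ k ih =>
    intro a α ha T i hi
    set B : ℝ := α ^ (2 * (q + 1)) * ((Fintype.card V : ℝ) * (3 * KK q * t) ^ (q + 1)) ^ k with hB
    have hB0 : 0 ≤ B := by
      rw [hB, pow_mul]; positivity
    set D : ℝ := KK q * (t : ℝ) ^ q * (Fintype.card V * B) with hD
    have hD0 : 0 ≤ D := by positivity
    have hder : ∀ j, j ≤ t → ∑ v, ∑ x, wt z x * PP z (der a v) k j T x ^ (2 * (q + 1)) ≤
        Fintype.card V * B := by
      intro j hj
      calc ∑ v, ∑ x, wt z x * PP z (der a v) k j T x ^ (2 * (q + 1)) ≤ ∑ _v : V, B :=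
            Finset.sum_le_sum (fun v _ => ih (der a v) α (fun S => ha _) T j hj)
        _ = Fintype.card V * B := by simp
    have hrec : ∀ j, j ≤ t → ∑ x, wt z x * PP z a (k + 1) j T x ^ (2 * (q + 1)) ≤
        j * (1 + 1 / (t : ℝ)) ^ j * D := by
      intro j
      induction j with
      | zero =>
        intro _
        simp only [PP_zero_step]
        simp
      | succ j ihj =>
        intro hj
        have h1 := ihj (by omega)
        have h2 := step q t ht hz a k j T
        have h3 := hder j (by omega)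
        have h4 : (0:ℝ) ≤ 1 + 1 / t := by positivity
        have h5 : (1:ℝ) ≤ 1 + 1 / t := by
          have : (0:ℝ) ≤ 1 / t := by positivity
          linarith
        have h6 : (1:ℝ) ≤ (1 + 1 / (t:ℝ)) ^ (j + 1) := one_le_pow₀ h5
        have h7 : KK q * (t : ℝ) ^ q * ∑ v, ∑ x, wt z x * PP z (der a v) k j T x ^ (2 * (q + 1)) ≤ D := by
          rw [hD]
          have : 0 ≤ KK q * (t : ℝ) ^ q := by positivity
          exact mul_le_mul_of_nonneg_left h3 this
        have h8 := mul_le_mul_of_nonneg_left h1 h4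
        have h9 : D ≤ (1 + 1 / (t:ℝ)) ^ (j + 1) * D := by nlinarith
        calc ∑ x, wt z x * PP z a (k + 1) (j + 1) T x ^ (2 * (q + 1))
            ≤ (1 + 1 / (t:ℝ)) * (j * (1 + 1 / (t : ℝ)) ^ j * D) + (1 + 1 / (t:ℝ)) ^ (j + 1) * D := by
              linarith
          _ = ((j + 1 : ℕ) : ℝ) * (1 + 1 / (t : ℝ)) ^ (j + 1) * D := by push_cast; ring
    have h1 := hrec i hi
    have h4 : (1:ℝ) ≤ 1 + 1 / t := by
      have : (0:ℝ) ≤ 1 / t := by positivity
      linarith
    have h5 : (i : ℝ) * (1 + 1 / (t : ℝ)) ^ i ≤ t * 3 := by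
      have h6 : (1 + 1 / (t : ℝ)) ^ i ≤ (1 + 1 / (t : ℝ)) ^ t := pow_le_pow_right₀ h4 hi
      have h7 := e_bound t ht
      have h8 : (i : ℝ) ≤ t := by exact_mod_cast hi
      exact mul_le_mul h8 (h6.trans h7) (by positivity) ht0.le
    have h6 : (i : ℝ) * (1 + 1 / (t : ℝ)) ^ i * D ≤ t * 3 * D := mul_le_mul_of_nonneg_right h5 hD0
    refine h1.trans (h6.trans ?_)
    have hpow : α ^ (2 * (q + 1)) * ((Fintype.card V : ℝ) * (3 * KK q * t) ^ (q + 1)) ^ (k + 1) =
        B * (Fintype.card V * (3 * KK q * t) ^ (q + 1)) := by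
      rw [hB, pow_succ ((Fintype.card V : ℝ) * (3 * KK q * t) ^ (q + 1)) k]; ring
    rw [hpow, hD]
    have h7 : (3 * KK q : ℝ) ≤ (3 * KK q) ^ (q + 1) := by
      have : (1:ℝ) ≤ 3 * KK q := by linarith
      exact le_self_pow₀ this (by omega)
    have h8 : (0:ℝ) ≤ (t:ℝ) ^ (q + 1) * (Fintype.card V * B) := by positivity
    calc t * 3 * (KK q * (t : ℝ) ^ q * (Fintype.card V * B))
        = (3 * KK q) * ((t:ℝ) ^ (q + 1) * (Fintype.card V * B)) := by ring
      _ ≤ (3 * KK q) ^ (q + 1) * ((t:ℝ) ^ (q + 1) * (Fintype.card V * B)) :=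
          mul_le_mul_of_nonneg_right h7 h8
      _ = B * (Fintype.card V * (3 * KK q * t) ^ (q + 1)) := by rw [mul_pow]; ring

/-! ### the identity -/

theorem dext_eq {z : V → ℝ} (hz : ∀ v, |z v| ≤ 1 / 2) (f : (V → Bool) → ℝ) (S : Finset V) :
    dext f S z = ∑ x, wt z x * f x * ∏ v ∈ S, ph z v (x v) := by
  unfold dext
  apply Finset.sum_congr rfl
  intro x _
  have h1 : ∏ v, (if v ∈ S then sg (x v) / 2 else (1 + sg (x v) * z v) / 2) =
      (∏ v, mu z v (x v)) * ∏ v, (if v ∈ S then ph z v (x v) else 1) := by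
    rw [← Finset.prod_mul_distrib]
    apply Finset.prod_congr rfl
    intro v _
    split_ifs with h
    · rw [mu_mul_ph hz]
    · rw [mul_one]; rfl
  rw [h1, Finset.prod_ite_mem, Finset.univ_inter]
  unfold wt
  ring

/-- choose an element of a set, if any -/
noncomputable def pick (A : Finset V) : Option V :=
  open Classical in if h : A.Nonempty then some h.choose else none

omit [DecidableEq V] [Fintype V] in
theorem pick_mem {A : Finset V} {v : V} (h : pick A = some v) : v ∈ A := by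
  unfold pick at h
  split_ifs at h with hA
  rw [Option.some.injEq] at h
  rw [← h]
  exact hA.choose_spec

omit [DecidableEq V] [Fintype V] in
theorem pick_none {A : Finset V} (h : pick A = none) : A = ∅ := by
  unfold pick at h
  split_ifs at h with hA
  exact Finset.not_nonempty_iff_eq_empty.mp hA

/-- unqueried variables contribute nothing -/
theorem sum_unq {z : V → ℝ} (hz : ∀ v, |z v| ≤ 1 / 2) (T : Tr V) (t : ℕ) (hT : T.depth ≤ t)
    (S : Finset V) :
    ∑ x ∈ Finset.univ.filter (fun x => ¬ S ⊆ qs t T x), wt z x * T.fn x * ∏ v ∈ S, ph z v (x v)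
      = 0 := by
  let g : (V → Bool) → (V → Bool) := fun x =>
    match pick (S \ qs t T x) with
    | some v => flp v x
    | none => x
  have key : ∀ x, ¬ S ⊆ qs t T x → ∃ v, v ∈ S ∧ v ∉ qs t T x ∧ pick (S \ qs t T x) = some v ∧
      g x = flp v x ∧ qs t T (g x) = qs t T x := by
    intro x hx
    rcases hp : pick (S \ qs t T x) with _ | v
    · have := pick_none hp
      rw [Finset.sdiff_eq_empty_iff_subset] at this
      exact absurd this hx
    · have h1 := pick_mem hp
      rw [Finset.mem_sdiff] at h1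
      have h2 : g x = flp v x := by
        simp only [g]
        rw [hp]
      exact ⟨v, h1.1, h1.2, rfl, h2, by rw [h2]; exact (qs_flp t T x v h1.2).1⟩
  apply Finset.sum_involution (fun x _ => g x)
  · intro x hx
    obtain ⟨v, hvS, hvq, hp, hg, hq⟩ := key x (Finset.mem_filter.mp hx).2
    rw [hg]
    have h1 : T.fn (flp v x) = T.fn x := by
      unfold Tr.fn
      rw [eval_flp t T x v hT hvq]
    have h2 : ∏ u ∈ S, ph z u (flp v x u) = ph z v (flp v x v) * ∏ u ∈ S.erase v, ph z u (x u) := by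
      rw [← Finset.mul_prod_erase S _ hvS]
      congr 1
      apply Finset.prod_congr rfl
      intro u hu
      rw [flp_ne (Finset.ne_of_mem_erase hu)]
    rw [h1, h2, ← Finset.mul_prod_erase S _ hvS]
    have h3 := wt_ph_flp hz v x
    linear_combination (T.fn x * ∏ u ∈ S.erase v, ph z u (x u)) * h3
  · intro x hx _ h
    obtain ⟨v, hvS, hvq, hp, hg, hq⟩ := key x (Finset.mem_filter.mp hx).2
    have h1 := congrFun (hg.symm.trans h) v
    rw [flp_self] at h1
    cases hxv : x v <;> rw [hxv] at h1 <;> exact absurd h1 (by simp)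
  · intro x hx
    obtain ⟨v, hvS, hvq, hp, hg, hq⟩ := key x (Finset.mem_filter.mp hx).2
    rw [Finset.mem_filter, hq]
    exact ⟨Finset.mem_univ _, (Finset.mem_filter.mp hx).2⟩
  · intro x hx
    obtain ⟨v, hvS, hvq, hp, hg, hq⟩ := key x (Finset.mem_filter.mp hx).2
    show g (g x) = x
    have h1 : g (g x) = flp v (g x) := by
      show (match pick (S \ qs t T (g x)) with
        | some v => flp v (g x)
        | none => g x) = flp v (g x)
      rw [hq, hp]
    rw [h1, hg, flp_flp]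

theorem identity {z : V → ℝ} (hz : ∀ v, |z v| ≤ 1 / 2) (T : Tr V) (t : ℕ) (hT : T.depth ≤ t)
    (a : Finset V → ℝ) (k : ℕ) :
    ∑ S ∈ Finset.powersetCard k (Finset.univ : Finset V), a S * dext T.fn S z =
      ∑ x, wt z x * (T.fn x * PP z a k t T x) := by
  have h1 : ∀ S : Finset V, dext T.fn S z =
      ∑ x ∈ Finset.univ.filter (fun x => S ⊆ qs t T x), wt z x * T.fn x * ∏ v ∈ S, ph z v (x v) := by
    intro S
    rw [dext_eq hz, ← Finset.sum_filter_add_sum_filter_not Finset.univ (fun x => S ⊆ qs t T x),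
      sum_unq hz T t hT S, add_zero]
  have h2 : ∀ x : V → Bool, Finset.powersetCard k (qs t T x) =
      (Finset.powersetCard k (Finset.univ : Finset V)).filter (fun S => S ⊆ qs t T x) := by
    intro x
    ext S
    simp only [Finset.mem_powersetCard, Finset.mem_filter]
    constructor
    · rintro ⟨h, h'⟩
      exact ⟨⟨Finset.subset_univ _, h'⟩, h⟩
    · rintro ⟨⟨_, h'⟩, h⟩
      exact ⟨h, h'⟩
  calc ∑ S ∈ Finset.powersetCard k (Finset.univ : Finset V), a S * dext T.fn S z
      = ∑ S ∈ Finset.powersetCard k (Finset.univ : Finset V), ∑ x,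
          (if S ⊆ qs t T x then a S * (wt z x * T.fn x * ∏ v ∈ S, ph z v (x v)) else 0) := by
        apply Finset.sum_congr rfl
        intro S _
        rw [h1, Finset.mul_sum, Finset.sum_filter]
    _ = ∑ x, ∑ S ∈ Finset.powersetCard k (Finset.univ : Finset V),
          (if S ⊆ qs t T x then a S * (wt z x * T.fn x * ∏ v ∈ S, ph z v (x v)) else 0) :=
        Finset.sum_comm
    _ = ∑ x, wt z x * (T.fn x * PP z a k t T x) := by
        apply Finset.sum_congr rfl
        intro x _
        unfold PP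
        rw [h2 x, ← Finset.sum_filter, ← mul_assoc, Finset.mul_sum]
        apply Finset.sum_congr rfl
        intro S _
        ring

end Level

/-- For every even moment order `2p` there is a constant `C` such that for a decision tree of
depth at most `t ≥ 1`, biases `|z v| ≤ 1/2` and coefficients `|a S| ≤ α`, the level-`k` form of the
derivatives of the multilinear extension is at most `α (|V| (C t)^p)^{k/(2p)}` in absolute value. -/
theorem level_bound (p : ℕ) (hp : 1 ≤ p) :
    ∃ C : ℝ, 0 < C ∧ ∀ (V : Type) (_ : Fintype V) (_ : DecidableEq V) (T : Tr V) (t : ℕ)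
      (_ : 1 ≤ t) (_ : T.depth ≤ t) (z : V → ℝ) (_ : ∀ v, |z v| ≤ 1 / 2) (k : ℕ)
      (a : Finset V → ℝ) (α : ℝ) (_ : 0 ≤ α) (_ : ∀ S, |a S| ≤ α),
      (∑ S ∈ Finset.powersetCard k (Finset.univ : Finset V), a S * dext T.fn S z) ^ (2 * p)
        ≤ α ^ (2 * p) * ((Fintype.card V : ℝ) * (C * t) ^ p) ^ k := by
  obtain ⟨q, rfl⟩ : ∃ q, p = q + 1 := ⟨p - 1, by omega⟩
  refine ⟨3 * Level.KK q, by have := Level.KK_pos q; positivity, ?_⟩
  intro V _ _ T t ht hT z hz k a α hα ha
  rw [Level.identity hz T t hT a k]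
  have h1 : (∑ x, Level.wt z x * (T.fn x * Level.PP z a k t T x)) ^ (2 * (q + 1)) ≤
      ∑ x, Level.wt z x * (T.fn x * Level.PP z a k t T x) ^ (2 * (q + 1)) :=
    Real.pow_arith_mean_le_arith_mean_pow_of_even Finset.univ _ _
      (fun x _ => Level.wt_nonneg hz x) (Level.wt_sum z) ⟨q + 1, by ring⟩
  refine h1.trans (le_trans ?_ (Level.moment q t ht hz k a α ha T t le_rfl))
  apply Finset.sum_le_sum
  intro x _
  apply mul_le_mul_of_nonneg_left _ (Level.wt_nonneg hz x)
  have h2 : 0 ≤ Level.PP z a k t T x ^ (2 * (q + 1)) := by rw [pow_mul]; positivity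
  unfold Tr.fn
  split_ifs
  · rw [one_mul]
  · rw [zero_mul, zero_pow (by omega)]; exact h2

namespace Level

theorem layerSet_inj {I : Type} [DecidableEq I] {k : ℕ} :
    Function.Injective (layerSet : (Fin k → I) → Finset (Fin k × I)) := by
  intro i j h
  funext s
  have h1 : (s, i s) ∈ layerSet j := by
    rw [← h]; exact Finset.mem_image_of_mem _ (Finset.mem_univ s)
  rw [layerSet, Finset.mem_image] at h1
  obtain ⟨s', _, h2⟩ := h1
  rw [Prod.mk.injEq] at h2
  obtain ⟨rfl, h3⟩ := h2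
  exact h3.symm

theorem card_layerSet {I : Type} [DecidableEq I] {k : ℕ} (i : Fin k → I) :
    (layerSet i).card = k := by
  rw [layerSet, Finset.card_image_of_injective _ (fun s s' h => (Prod.mk.injEq _ _ _ _ ▸ h).1),
    Finset.card_univ, Fintype.card_fin]

end Level

/-- the same for layered tuples -/
theorem level_bound_layers (p : ℕ) (hp : 1 ≤ p) :
    ∃ C : ℝ, 0 < C ∧ ∀ (I : Type) (_ : Fintype I) (_ : DecidableEq I) (k : ℕ)
      (T : Tr (Fin k × I)) (t : ℕ) (_ : 1 ≤ t) (_ : T.depth ≤ t)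
      (z : Fin k × I → ℝ) (_ : ∀ v, |z v| ≤ 1 / 2)
      (h : (Fin k → I) → ℝ) (α : ℝ) (_ : 0 ≤ α) (_ : ∀ i, |h i| ≤ α),
      (∑ i : Fin k → I, h i * dext T.fn (layerSet i) z) ^ (2 * p)
        ≤ α ^ (2 * p) * (((k : ℝ) * Fintype.card I) * (C * t) ^ p) ^ k := by
  obtain ⟨C, hC, H⟩ := level_bound p hp
  refine ⟨C, hC, ?_⟩
  intro I _ _ k T t ht hT z hz h α hα hh
  classical
  let a : Finset (Fin k × I) → ℝ := fun S =>
    if hS : ∃ i : Fin k → I, layerSet i = S then h hS.choose else 0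
  have ha : ∀ i : Fin k → I, a (layerSet i) = h i := by
    intro i
    have hS : ∃ j : Fin k → I, layerSet j = layerSet i := ⟨i, rfl⟩
    simp only [a]
    rw [dif_pos hS, Level.layerSet_inj hS.choose_spec]
  have hal : ∀ S, |a S| ≤ α := by
    intro S
    simp only [a]
    split_ifs
    · exact hh _
    · simpa using hα
  have h1 := H (Fin k × I) inferInstance inferInstance T t ht hT z hz k a α hα hal
  have h2 : (Fintype.card (Fin k × I) : ℝ) = (k : ℝ) * Fintype.card I := by
    rw [Fintype.card_prod, Fintype.card_fin]; push_cast; rfl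
  rw [h2] at h1
  have h3 : ∑ i : Fin k → I, h i * dext T.fn (layerSet i) z =
      ∑ S ∈ Finset.powersetCard k (Finset.univ : Finset (Fin k × I)), a S * dext T.fn S z := by
    have h4 : ∑ i : Fin k → I, h i * dext T.fn (layerSet i) z =
        ∑ S ∈ Finset.univ.image (layerSet : (Fin k → I) → Finset (Fin k × I)),
          a S * dext T.fn S z := by
      rw [Finset.sum_image (fun i _ j _ e => Level.layerSet_inj e)]
      apply Finset.sum_congr rfl
      intro i _
      rw [ha]
    rw [h4]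
    apply Finset.sum_subset
    · intro S hS
      rw [Finset.mem_image] at hS
      obtain ⟨i, _, rfl⟩ := hS
      rw [Finset.mem_powersetCard]
      exact ⟨Finset.subset_univ _, Level.card_layerSet i⟩
    · intro S _ hS
      have : a S = 0 := by
        simp only [a]
        rw [dif_neg]
        rintro ⟨i, rfl⟩
        exact hS (Finset.mem_image_of_mem _ (Finset.mem_univ i))
      rw [this, zero_mul]
  rw [h3]
  exact h1

end Crest.Agent.QG
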