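import Crest.Agent.QG.QFam
import Crest.Agent.QG.Amplify
import Crest.Agent.QG.Convert
import Crest.Agent.QG.Derived

/-! Library of quantum procedures (all parts). -/
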