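import Crest.Agent.QG.Defs

/-!
# Chunk A1: closure properties of `QFam` and basic operations on `Proc`
-/

set_option autoImplicit false

namespace Crest.Agent.QG

open Finset Crest.MathPhysics.Query

variable {ι O O' J K : Type}

/-! ### auxiliary lemmas -/

theorem star_phaseOracle [DecidableEq J] (x : ι → Bool) (q : J → Option ι) :
    (phaseOracle x q).conjTranspose = phaseOracle x q := by
  unfold phaseOracle
  rw [Matrix.diagonal_conjTranspose]
  congr 1
  funext j
  simp only [Pi.star_apply]
  cases q j with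
  | none => simp
  | some i => dsimp only; split_ifs <;> simp

theorem phaseOracle_mem [Fintype J] [DecidableEq J] (x : ι → Bool) (q : J → Option ι) :
    phaseOracle x q ∈ Matrix.unitaryGroup J ℂ := by
  rw [Matrix.mem_unitaryGroup_iff, Matrix.star_eq_conjTranspose, star_phaseOracle]
  unfold phaseOracle
  rw [Matrix.diagonal_mul_diagonal, ← Matrix.diagonal_one]
  congr 1
  funext j
  cases q j with
  | none => simp
  | some i => dsimp only; split_ifs <;> simp

theorem phaseOracle_none [DecidableEq J] (x : ι → Bool) :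
    phaseOracle x (fun _ : J => none) = 1 := by
  unfold phaseOracle
  simp

theorem QFam.congr' [Fintype J] [DecidableEq J] {T T' : ℕ} {A B : (ι → Bool) → Matrix J J ℂ}
    (hA : QFam T A) (hT : T = T') (h : ∀ x, A x = B x) : QFam T' B := by
  have : A = B := funext h
  subst this
  subst hT
  exact hA

theorem QFam.zero_inv [Fintype J] [DecidableEq J] {A : (ι → Bool) → Matrix J J ℂ}
    (hA : QFam 0 A) : ∃ V ∈ Matrix.unitaryGroup J ℂ, A = fun _ => V := by
  cases hA with
  | const V hV => exact ⟨V, hV, rfl⟩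

theorem QFam.succ_inv [Fintype J] [DecidableEq J] {T : ℕ} {A : (ι → Bool) → Matrix J J ℂ}
    (hA : QFam (T + 1) A) : ∃ (A' : (ι → Bool) → Matrix J J ℂ) (q : J → Option ι)
      (V : Matrix J J ℂ), QFam T A' ∧ V ∈ Matrix.unitaryGroup J ℂ ∧
        A = fun x => V * phaseOracle x q * A' x := by
  cases hA with
  | step hA' q V hV => exact ⟨_, q, V, hA', hV, rfl⟩

/-! ### QFam closure properties -/

theorem QFam.unitary [Fintype J] [DecidableEq J] {T : ℕ} {A : (ι → Bool) → Matrix J J ℂ}
    (hA : QFam T A) (x : ι → Bool) : A x ∈ Matrix.unitaryGroup J ℂ := by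
  induction hA with
  | const V hV => exact hV
  | step hA q V hV ih =>
    exact mul_mem (mul_mem hV (phaseOracle_mem x q)) ih

theorem QFam.mono [Fintype J] [DecidableEq J] {T T' : ℕ} {A : (ι → Bool) → Matrix J J ℂ}
    (hA : QFam T A) (h : T ≤ T') : QFam T' A := by
  induction h with
  | refl => exact hA
  | step _ ih =>
    refine (QFam.step ih (fun _ => none) 1 (one_mem _)).congr' rfl ?_
    intro x
    rw [phaseOracle_none, one_mul, one_mul]

theorem QFam.mul_const_left [Fintype J] [DecidableEq J] {T : ℕ} {B : (ι → Bool) → Matrix J J ℂ}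
    (hB : QFam T B) {V : Matrix J J ℂ} (hV : V ∈ Matrix.unitaryGroup J ℂ) :
    QFam T (fun x => V * B x) := by
  cases hB with
  | const W hW => exact QFam.const _ (mul_mem hV hW)
  | step hA q W hW =>
    refine (QFam.step hA q (V * W) (mul_mem hV hW)).congr' rfl ?_
    intro x
    simp only [mul_assoc]

theorem QFam.mul [Fintype J] [DecidableEq J] {T T' : ℕ} {A B : (ι → Bool) → Matrix J J ℂ}
    (hA : QFam T A) (hB : QFam T' B) : QFam (T + T') (fun x => A x * B x) := by
  induction hA with
  | const V hV => exact (hB.mul_const_left hV).congr' (by omega) (fun _ => rfl)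
  | step hA q V hV ih =>
    refine (QFam.step ih q V hV).congr' (by omega) ?_
    intro x
    simp only [mul_assoc]

theorem star_mem_unitaryGroup [Fintype J] [DecidableEq J] {V : Matrix J J ℂ}
    (hV : V ∈ Matrix.unitaryGroup J ℂ) : V.conjTranspose ∈ Matrix.unitaryGroup J ℂ :=
  Unitary.star_mem hV

theorem QFam.adjoint [Fintype J] [DecidableEq J] {T : ℕ} {A : (ι → Bool) → Matrix J J ℂ}
    (hA : QFam T A) : QFam T (fun x => (A x).conjTranspose) := by
  induction hA with
  | const V hV => exact QFam.const _ (star_mem_unitaryGroup hV)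
  | step hA q V hV ih =>
    refine (ih.mul (QFam.step (QFam.const (ι := ι) _ (star_mem_unitaryGroup hV)) q 1
      (one_mem _))).congr' (by omega) ?_
    intro x
    simp only [Matrix.conjTranspose_mul, star_phaseOracle, one_mul]

theorem blockDiagonal'_mem {S : Type} [Fintype S] [DecidableEq S] {J : S → Type}
    [∀ s, Fintype (J s)] [∀ s, DecidableEq (J s)] {V : ∀ s, Matrix (J s) (J s) ℂ}
    (hV : ∀ s, V s ∈ Matrix.unitaryGroup (J s) ℂ) :
    Matrix.blockDiagonal' V ∈ Matrix.unitaryGroup (Σ s, J s) ℂ := by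
  rw [Matrix.mem_unitaryGroup_iff, Matrix.star_eq_conjTranspose,
    Matrix.blockDiagonal'_conjTranspose, ← Matrix.blockDiagonal'_mul]
  rw [← Matrix.blockDiagonal'_one]
  congr 1
  funext s
  exact Matrix.mem_unitaryGroup_iff.1 (hV s)

theorem phaseOracle_sigma {S : Type} [Fintype S] [DecidableEq S] {J : S → Type}
    [∀ s, Fintype (J s)] [∀ s, DecidableEq (J s)] (x : ι → Bool) (q : ∀ s, J s → Option ι) :
    phaseOracle x (fun p : Σ s, J s => q p.1 p.2) =
      Matrix.blockDiagonal' (fun s => phaseOracle x (q s)) := by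
  unfold phaseOracle
  rw [Matrix.blockDiagonal'_diagonal]

/-- controlled families (the control register is the first component of the sigma type) -/
theorem QFam.blockDiagonal' {S : Type} [Fintype S] [DecidableEq S] {J : S → Type}
    [∀ s, Fintype (J s)] [∀ s, DecidableEq (J s)] {T : ℕ}
    {A : ∀ s, (ι → Bool) → Matrix (J s) (J s) ℂ} (hA : ∀ s, QFam T (A s)) :
    QFam T (fun x => Matrix.blockDiagonal' fun s => A s x) := by
  induction T generalizing A with
  | zero =>
    choose V hV hAV using fun s => (hA s).zero_inv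
    refine (QFam.const _ (blockDiagonal'_mem hV)).congr' rfl ?_
    intro x
    congr 1
    funext s
    rw [hAV s]
  | succ T ih =>
    choose A' q V hA' hV hAV using fun s => (hA s).succ_inv
    refine (QFam.step (ih hA') (fun p : Σ s, J s => q p.1 p.2) _
      (blockDiagonal'_mem hV)).congr' rfl ?_
    intro x
    rw [phaseOracle_sigma, ← Matrix.blockDiagonal'_mul, ← Matrix.blockDiagonal'_mul]
    congr 1
    funext s
    rw [hAV s]

theorem reindex_mem [Fintype J] [DecidableEq J] [Fintype K] [DecidableEq K] (e : J ≃ K)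
    {V : Matrix J J ℂ} (hV : V ∈ Matrix.unitaryGroup J ℂ) :
    Matrix.reindex e e V ∈ Matrix.unitaryGroup K ℂ := by
  rw [Matrix.mem_unitaryGroup_iff, Matrix.star_eq_conjTranspose,
    Matrix.reindex_apply, Matrix.conjTranspose_submatrix, Matrix.submatrix_mul_equiv]
  have h := Matrix.mem_unitaryGroup_iff.1 hV
  rw [Matrix.star_eq_conjTranspose] at h
  rw [h, Matrix.submatrix_one_equiv]

theorem phaseOracle_reindex [Fintype J] [DecidableEq J] [Fintype K] [DecidableEq K] (e : J ≃ K)
    (x : ι → Bool) (q : J → Option ι) :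
    Matrix.reindex e e (phaseOracle x q) = phaseOracle x (fun k => q (e.symm k)) := by
  unfold phaseOracle
  rw [Matrix.reindex_apply, Matrix.submatrix_diagonal_equiv]
  rfl

theorem QFam.reindex [Fintype J] [DecidableEq J] [Fintype K] [DecidableEq K] (e : J ≃ K) {T : ℕ}
    {A : (ι → Bool) → Matrix J J ℂ} (hA : QFam T A) :
    QFam T (fun x => Matrix.reindex e e (A x)) := by
  induction hA with
  | const V hV => exact QFam.const _ (reindex_mem e hV)
  | step hA q V hV ih =>
    refine (QFam.step ih (fun k => q (e.symm k)) _ (reindex_mem e hV)).congr' rfl ?_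
    intro x
    rw [← phaseOracle_reindex]
    simp only [Matrix.reindex_apply, Matrix.submatrix_mul_equiv]

/-- one phase query -/
theorem QFam.phase [Fintype J] [DecidableEq J] (q : J → Option ι) :
    QFam 1 (fun x : ι → Bool => phaseOracle x q) := by
  refine (QFam.step (QFam.const 1 (one_mem _)) q 1 (one_mem _)).congr' rfl ?_
  intro x
  simp

/-- a change of the input variables: if each `y`-variable is an `x`-variable -/
theorem QFam.comap {ι' : Type} [Fintype J] [DecidableEq J] {T : ℕ}
    {A : (ι → Bool) → Matrix J J ℂ} (hA : QFam T A) (f : ι → ι') :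
    QFam T (fun x : ι' → Bool => A (x ∘ f)) := by
  induction hA with
  | const V hV => exact QFam.const _ hV
  | step hA q V hV ih =>
    refine (QFam.step ih (fun j => (q j).map f) _ hV).congr' rfl ?_
    intro x
    congr 2
    unfold phaseOracle
    congr 1
    funext j
    cases h : q j <;> simp [h]

/-! ### tensor products with the identity -/

open scoped Kronecker

theorem QFam.kron_one [Fintype J] [DecidableEq J] [Fintype K] [DecidableEq K] {T : ℕ}
    {A : (ι → Bool) → Matrix J J ℂ} (hA : QFam T A) :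
    QFam T (fun x => A x ⊗ₖ (1 : Matrix K K ℂ)) := by
  induction hA with
  | const V hV => exact QFam.const _ (Matrix.kronecker_mem_unitary hV (one_mem _))
  | step hA q V hV ih =>
    refine (QFam.step ih (fun p => q p.1) _
      (Matrix.kronecker_mem_unitary hV (one_mem _))).congr' rfl ?_
    intro x
    have h : phaseOracle x (fun p : J × K => q p.1) = phaseOracle x q ⊗ₖ (1 : Matrix K K ℂ) := by
      unfold phaseOracle
      rw [← Matrix.diagonal_one, Matrix.diagonal_kronecker_diagonal]
      simp
    rw [h, ← Matrix.mul_kronecker_mul, ← Matrix.mul_kronecker_mul]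
    simp

theorem QFam.one_kron [Fintype J] [DecidableEq J] [Fintype K] [DecidableEq K] {T : ℕ}
    {A : (ι → Bool) → Matrix K K ℂ} (hA : QFam T A) :
    QFam T (fun x => (1 : Matrix J J ℂ) ⊗ₖ A x) := by
  induction hA with
  | const V hV => exact QFam.const _ (Matrix.kronecker_mem_unitary (one_mem _) hV)
  | step hA q V hV ih =>
    refine (QFam.step ih (fun p => q p.2) _
      (Matrix.kronecker_mem_unitary (one_mem _) hV)).congr' rfl ?_
    intro x
    have h : phaseOracle x (fun p : J × K => q p.2) = (1 : Matrix J J ℂ) ⊗ₖ phaseOracle x q := by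
      unfold phaseOracle
      rw [← Matrix.diagonal_one, Matrix.diagonal_kronecker_diagonal]
      simp
    rw [h, ← Matrix.mul_kronecker_mul, ← Matrix.mul_kronecker_mul]
    simp

/-! ### Proc -/

theorem Proc.nonneg [DecidableEq O] {T : ℕ} {p : (ι → Bool) → O → ℝ} (hp : Proc T p)
    (x : ι → Bool) (o : O) : 0 ≤ p x o := by
  obtain ⟨J, _, _, A, j₀, out, hA, hpA⟩ := hp
  rw [hpA]
  refine Finset.sum_nonneg fun j _ => ?_
  split_ifs
  · positivity
  · exact le_refl _

theorem column_norm [Fintype J] [DecidableEq J] {V : Matrix J J ℂ}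
    (hV : V ∈ Matrix.unitaryGroup J ℂ) (j₀ : J) : ∑ j, ‖V j j₀‖ ^ 2 = 1 := by
  have h := Matrix.mem_unitaryGroup_iff'.1 hV
  have h2 := congrFun (congrFun h j₀) j₀
  rw [Matrix.mul_apply, Matrix.one_apply_eq] at h2
  have h3 : ((∑ j, ‖V j j₀‖ ^ 2 : ℝ) : ℂ) = 1 := by
    rw [← h2]
    push_cast
    refine Finset.sum_congr rfl fun j _ => ?_
    rw [Matrix.star_apply, Complex.star_def, ← Complex.normSq_eq_conj_mul_self,
      Complex.normSq_eq_norm_sq]
    push_cast
    rfl
  exact_mod_cast h3

theorem sum_fiber [Fintype O] [DecidableEq O] [Fintype J] (out : J → O) (a : J → ℝ) :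
    ∑ o, ∑ j, (if out j = o then a j else 0) = ∑ j, a j := by
  rw [Finset.sum_comm]
  refine Finset.sum_congr rfl fun j _ => ?_
  simp

theorem Proc.sum_one [Fintype O] [DecidableEq O] {T : ℕ} {p : (ι → Bool) → O → ℝ}
    (hp : Proc T p) (x : ι → Bool) : ∑ o, p x o = 1 := by
  obtain ⟨J, _, _, A, j₀, out, hA, hpA⟩ := hp
  simp only [hpA]
  rw [sum_fiber]
  exact column_norm (hA.unitary x) j₀

theorem Proc.mono [DecidableEq O] {T T' : ℕ} {p : (ι → Bool) → O → ℝ} (hp : Proc T p)
    (h : T ≤ T') : Proc T' p := by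
  obtain ⟨J, _, _, A, j₀, out, hA, hpA⟩ := hp
  exact ⟨J, _, _, A, j₀, out, hA.mono h, hpA⟩

theorem Proc.comap {ι' : Type} [DecidableEq O] {T : ℕ} {p : (ι → Bool) → O → ℝ} (hp : Proc T p)
    (f : ι → ι') : Proc T (fun x : ι' → Bool => p (x ∘ f)) := by
  obtain ⟨J, _, _, A, j₀, out, hA, hpA⟩ := hp
  exact ⟨J, _, _, _, j₀, out, hA.comap f, fun x o => hpA _ o⟩

theorem Proc.congr' [DecidableEq O] {T T' : ℕ} {p p' : (ι → Bool) → O → ℝ}
    (hp : Proc T p) (hT : T = T') (h : ∀ x o, p x o = p' x o) : Proc T' p' := by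
  have : p = p' := funext fun x => funext fun o => h x o
  subst this
  subst hT
  exact hp

/-- the vector `√d - e_none` -/
noncomputable def refVec (d : O → ℝ) : Option O → ℂ
  | none => -1
  | some o => ((Real.sqrt (d o) : ℝ) : ℂ)

theorem refVec_real (d : O → ℝ) (i : Option O) : star (refVec d i) = refVec d i := by
  cases i with
  | none => simp [refVec]
  | some o => simp [refVec]

theorem refVec_sq [Fintype O] (d : O → ℝ) (hd : ∀ o, 0 ≤ d o)
    (hs : ∑ o, d o = 1) : ∑ i, refVec d i * refVec d i = 2 := by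
  rw [Fintype.sum_option]
  have : ∑ o, refVec d (some o) * refVec d (some o) = ((∑ o, d o : ℝ) : ℂ) := by
    push_cast
    refine Finset.sum_congr rfl fun o _ => ?_
    simp only [refVec]
    rw [← Complex.ofReal_mul, Real.mul_self_sqrt (hd o)]
  rw [this, hs]
  simp only [refVec]
  norm_num

/-- Householder reflection -/
noncomputable def refMat [DecidableEq O] (d : O → ℝ) : Matrix (Option O) (Option O) ℂ :=
  fun i j => (if i = j then 1 else 0) - refVec d i * refVec d j

theorem refMat_mem [Fintype O] [DecidableEq O] (d : O → ℝ) (hd : ∀ o, 0 ≤ d o)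
    (hs : ∑ o, d o = 1) : refMat d ∈ Matrix.unitaryGroup (Option O) ℂ := by
  rw [Matrix.mem_unitaryGroup_iff]
  ext i j
  rw [Matrix.mul_apply, Matrix.one_apply]
  have h1 : ∀ k, refMat d i k * (star (refMat d)) k j =
      (if i = k then (if j = k then 1 else 0) else 0) - (if j = k then refVec d i * refVec d k else 0)
        - (if i = k then refVec d j * refVec d k else 0)
        + refVec d i * refVec d j * (refVec d k * refVec d k) := by
    intro k
    rw [Matrix.star_apply]
    simp only [refMat, star_sub, star_mul', refVec_real]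
    split_ifs <;> simp <;> ring
  rw [Finset.sum_congr rfl fun k _ => h1 k]
  rw [Finset.sum_add_distrib, Finset.sum_sub_distrib, Finset.sum_sub_distrib, ← Finset.mul_sum,
    refVec_sq d hd hs]
  simp only [Finset.sum_ite_eq, Finset.mem_univ, if_true]
  by_cases h : i = j
  · subst h; simp; ring
  · rw [if_neg (fun h' => h h'.symm), if_neg h]; ring

/-- sampling from a fixed distribution costs nothing -/
theorem Proc.pure [Fintype O] [DecidableEq O] (d : O → ℝ) (hd : ∀ o, 0 ≤ d o)
    (hs : ∑ o, d o = 1) : Proc (ι := ι) 0 (fun _ => d) := by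
  have hne : Nonempty O := by
    by_contra h
    rw [not_nonempty_iff] at h
    simp at hs
  obtain ⟨o₀⟩ := hne
  refine ⟨Option O, inferInstance, inferInstance, _, none, fun i => i.getD o₀,
    QFam.const _ (refMat_mem d hd hs), ?_⟩
  intro x o
  rw [Fintype.sum_option]
  have h0 : refMat d none none = 0 := by
    simp [refMat, refVec]
  have h1 : ∀ o, refMat d (some o) none = ((Real.sqrt (d o) : ℝ) : ℂ) := by
    intro o
    simp [refMat, refVec]
  simp only [h0, h1, Option.getD_some]
  simp [Real.sq_sqrt (hd o)]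

/-- the Hadamard gate -/
noncomputable def hgate : Matrix Bool Bool ℂ :=
  fun a b => (((if a && b then -1 else 1) / Real.sqrt 2 : ℝ) : ℂ)

theorem hgate_mem : hgate ∈ Matrix.unitaryGroup Bool ℂ := by
  rw [Matrix.mem_unitaryGroup_iff]
  ext i j
  have h2 : ((Real.sqrt 2 : ℝ) : ℂ) ^ 2 = 2 := by
    rw [← Complex.ofReal_pow, Real.sq_sqrt (by norm_num)]; norm_num
  have h3 : ((Real.sqrt 2 : ℝ) : ℂ) ≠ 0 := by
    intro h; rw [h] at h2; norm_num at h2
  rw [Matrix.mul_apply, Matrix.one_apply]
  simp only [Fintype.sum_bool, Matrix.star_apply, hgate]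
  cases i <;> cases j <;> simp <;> field_simp <;> rw [h2] <;> norm_num

/-- reading an input bit -/
theorem Proc.query (i : ι) : Proc 1 (det fun x : ι → Bool => x i) := by
  refine ⟨Bool, inferInstance, inferInstance, _, false, id,
    ((QFam.const (ι := ι) _ hgate_mem).mul
      ((QFam.phase (fun b : Bool => if b then some i else none)).mul
        (QFam.const (ι := ι) _ hgate_mem))).congr' (by norm_num) (fun _ => rfl), ?_⟩
  intro x o
  have h2 : ((Real.sqrt 2 : ℝ) : ℂ) ^ 2 = 2 := by
    rw [← Complex.ofReal_pow, Real.sq_sqrt (by norm_num)]; norm_num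
  have h3 : ((Real.sqrt 2 : ℝ) : ℂ) ≠ 0 := by
    intro h; rw [h] at h2; norm_num at h2
  have hcol : ∀ b : Bool, (hgate * (phaseOracle x (fun b : Bool => if b then some i else none) *
      hgate)) b false = if x i = b then 1 else 0 := by
    intro b
    rw [Matrix.mul_apply]
    simp only [Fintype.sum_bool, phaseOracle, Matrix.diagonal_mul, hgate]
    rcases Bool.eq_false_or_eq_true (x i) with hx | hx <;> cases b <;> simp [hx] <;>
      field_simp <;> rw [h2] <;> norm_num
  simp only [hcol, det, Fintype.sum_bool, id]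
  rcases Bool.eq_false_or_eq_true (x i) with hx | hx <;> cases o <;> simp [hx]

/-- post-processing of the outcome -/
theorem Proc.map [Fintype O] [DecidableEq O] [DecidableEq O'] {T : ℕ} {p : (ι → Bool) → O → ℝ}
    (hp : Proc T p) (g : O → O') :
    Proc T (fun x o' => ∑ o, if g o = o' then p x o else 0) := by
  obtain ⟨J, _, _, A, j₀, out, hA, hpA⟩ := hp
  refine ⟨J, _, _, A, j₀, fun j => g (out j), hA, ?_⟩
  intro x o'
  simp only [hpA]
  have h1 : ∀ o, (if g o = o' then ∑ j, (if out j = o then ‖A x j j₀‖ ^ 2 else 0) else 0)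
      = ∑ j, (if out j = o then (if g (out j) = o' then ‖A x j j₀‖ ^ 2 else 0) else 0) := by
    intro o
    split_ifs with h
    · refine Finset.sum_congr rfl fun j _ => ?_
      split_ifs with h1 h2
      · rfl
      · exact absurd (h1 ▸ h) h2
      · rfl
    · symm
      refine Finset.sum_eq_zero fun j _ => ?_
      split_ifs with h1 h2
      · exact absurd (h1 ▸ h2) h
      · rfl
      · rfl
  rw [Finset.sum_congr rfl fun o _ => h1 o, sum_fiber]

/-- the permutation `(j, k) ↦ (j, swap s₀ (tgt j) k)` -/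
def swapEquiv [DecidableEq K] (s₀ : K) (tgt : J → K) : J × K ≃ J × K where
  toFun p := (p.1, Equiv.swap s₀ (tgt p.1) p.2)
  invFun p := (p.1, Equiv.swap s₀ (tgt p.1) p.2)
  left_inv p := by simp
  right_inv p := by simp

/-- the permutation matrix sending `e_k` to `e_(σ k)` -/
def permMat [DecidableEq K] (σ : K ≃ K) : Matrix K K ℂ := fun a b => if a = σ b then 1 else 0

theorem permMat_mem [Fintype K] [DecidableEq K] (σ : K ≃ K) :
    permMat σ ∈ Matrix.unitaryGroup K ℂ := by
  rw [Matrix.mem_unitaryGroup_iff']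
  ext i j
  rw [Matrix.mul_apply, Matrix.one_apply]
  simp only [Matrix.star_apply, permMat]
  rw [Finset.sum_eq_single (σ j)]
  · by_cases h : i = j
    · subst h; simp
    · have : σ j ≠ σ i := fun h' => h (σ.injective h').symm
      simp [h, this]
  · intro k _ hk
    simp [hk]
  · simp

/-- sequential composition -/
theorem Proc.bind [Fintype O] [DecidableEq O] [DecidableEq O'] {T T' : ℕ}
    {p : (ι → Bool) → O → ℝ} (hp : Proc T p) {p' : O → (ι → Bool) → O' → ℝ}
    (hp' : ∀ o, Proc T' (p' o)) :
    Proc (T + T') (fun x o' => ∑ o, p x o * p' o x o') := by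
  obtain ⟨J, iJ, dJ, A, j₀, out, hA, hpA⟩ := hp
  choose J' iJ' dJ' A' j₀' out' hA' hpA' using hp'
  let s₀ : Σ o, J' o := ⟨out j₀, j₀' (out j₀)⟩
  let tgt : J → Σ o, J' o := fun j => ⟨out j, j₀' (out j)⟩
  have h1 : QFam T (fun x => A x ⊗ₖ (1 : Matrix (Σ o, J' o) (Σ o, J' o) ℂ)) := hA.kron_one
  have h2 : QFam T' (fun x => (1 : Matrix J J ℂ) ⊗ₖ Matrix.blockDiagonal' (fun o => A' o x)) :=
    (QFam.blockDiagonal' hA').one_kron
  have h3 : QFam (ι := ι) 0 (fun _ => permMat (swapEquiv s₀ tgt)) := QFam.const _ (permMat_mem _)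
  refine ⟨J × (Σ o, J' o), inferInstance, inferInstance, _, (j₀, s₀), fun r => out' r.2.1 r.2.2,
    (h2.mul (h3.mul h1)).congr' (by omega) (fun _ => rfl), ?_⟩
  intro x o'
  have hcol1 : ∀ j k, (permMat (swapEquiv s₀ tgt) * A x ⊗ₖ (1 : Matrix (Σ o, J' o) (Σ o, J' o) ℂ))
      (j, k) (j₀, s₀) = if k = tgt j then A x j j₀ else 0 := by
    intro j k
    rw [Matrix.mul_apply, Finset.sum_eq_single (j, Equiv.swap s₀ (tgt j) k)]
    · simp only [permMat, swapEquiv, Equiv.coe_fn_mk, Equiv.swap_apply_self, if_true, one_mul,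
        Matrix.kroneckerMap_apply, Matrix.one_apply]
      have : Equiv.swap s₀ (tgt j) k = s₀ ↔ k = tgt j := by
        constructor
        · intro h
          have := congrArg (Equiv.swap s₀ (tgt j)) h
          simpa using this
        · intro h
          rw [h]; simp
      by_cases hk : k = tgt j
      · rw [if_pos hk, if_pos (this.2 hk), mul_one]
      · rw [if_neg hk, if_neg (fun h => hk (this.1 h)), mul_zero]
    · rintro ⟨j', k'⟩ _ hne
      have : ¬ ((j, k) = swapEquiv s₀ tgt (j', k')) := by
        intro h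
        apply hne
        simp only [swapEquiv, Equiv.coe_fn_mk, Prod.mk.injEq] at h
        obtain ⟨h1, h2⟩ := h
        subst h1
        rw [h2]; simp
      simp [permMat, this]
    · simp
  have hcol : ∀ j k, (((1 : Matrix J J ℂ) ⊗ₖ Matrix.blockDiagonal' (fun o => A' o x)) *
      (permMat (swapEquiv s₀ tgt) * A x ⊗ₖ (1 : Matrix (Σ o, J' o) (Σ o, J' o) ℂ)))
      (j, k) (j₀, s₀) = A x j j₀ * Matrix.blockDiagonal' (fun o => A' o x) k (tgt j) := by
    intro j k
    rw [Matrix.mul_apply, Finset.sum_eq_single (j, tgt j)]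
    · rw [hcol1, if_pos rfl, Matrix.kroneckerMap_apply, Matrix.one_apply_eq, one_mul, mul_comm]
    · rintro ⟨j', k'⟩ _ hne
      rw [hcol1, Matrix.kroneckerMap_apply]
      by_cases hj : j = j'
      · subst hj
        have : k' ≠ tgt j := fun h => hne (by rw [h])
        rw [if_neg this, mul_zero]
      · rw [Matrix.one_apply_ne hj, zero_mul, zero_mul]
    · simp
  have hsum : ∀ j, (∑ k, if out' k.1 k.2 = o' then
      ‖A x j j₀ * Matrix.blockDiagonal' (fun o => A' o x) k (tgt j)‖ ^ 2 else 0)
      = ‖A x j j₀‖ ^ 2 * p' (out j) x o' := by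
    intro j
    rw [hpA', Finset.mul_sum, ← Finset.univ_sigma_univ, Finset.sum_sigma,
      Finset.sum_eq_single (out j)]
    · refine Finset.sum_congr rfl fun j' _ => ?_
      simp only [tgt, Matrix.blockDiagonal'_apply_eq]
      split_ifs
      · rw [norm_mul, mul_pow]
      · simp
    · intro o _ ho
      refine Finset.sum_eq_zero fun j' _ => ?_
      rw [Matrix.blockDiagonal'_apply_ne _ _ _ ho]
      simp
    · simp
  simp only [hcol]
  rw [Fintype.sum_prod_type]
  simp only [hsum, hpA]
  have h4 : ∀ o, (∑ j, (if out j = o then ‖A x j j₀‖ ^ 2 else 0)) * p' o x o' =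
      ∑ j, (if out j = o then ‖A x j j₀‖ ^ 2 * p' (out j) x o' else 0) := by
    intro o
    rw [Finset.sum_mul]
    refine Finset.sum_congr rfl fun j _ => ?_
    split_ifs with h
    · rw [h]
    · simp
  rw [Finset.sum_congr rfl fun o _ => h4 o, sum_fiber]

/-- Hadamard test -/
theorem Proc.hadamardTest [Fintype J] [DecidableEq J] {T : ℕ} {A : (ι → Bool) → Matrix J J ℂ}
    (hA : QFam T A) (j₀ : J) :
    Proc T (fun x (b : Bool) =>
      if b then (1 - (A x j₀ j₀).re) / 2 else (1 + (A x j₀ j₀).re) / 2) := by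
  have hc : QFam T (fun x => Matrix.blockDiagonal' fun b : Bool => if b then A x else 1) := by
    refine QFam.blockDiagonal' (J := fun _ : Bool => J)
      (A := fun b x => if b then A x else 1) ?_
    intro b
    cases b with
    | false => exact (QFam.const (ι := ι) (1 : Matrix J J ℂ) (one_mem _)).mono (Nat.zero_le _)
    | true => exact hA
  have hh : QFam (ι := ι) 0 (fun _ => Matrix.reindex (Equiv.sigmaEquivProd Bool J).symm
      (Equiv.sigmaEquivProd Bool J).symm (hgate ⊗ₖ (1 : Matrix J J ℂ))) :=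
    QFam.const _ (reindex_mem _ (Matrix.kronecker_mem_unitary hgate_mem (one_mem _)))
  refine ⟨Σ _ : Bool, J, inferInstance, inferInstance, _, ⟨false, j₀⟩, Sigma.fst,
    (hh.mul (hc.mul hh)).congr' (by omega) (fun _ => rfl), ?_⟩
  intro x b
  have h2 : ((Real.sqrt 2 : ℝ) : ℂ) ^ 2 = 2 := by
    rw [← Complex.ofReal_pow, Real.sq_sqrt (by norm_num)]; norm_num
  have h3 : ((Real.sqrt 2 : ℝ) : ℂ) ≠ 0 := by
    intro h; rw [h] at h2; norm_num at h2
  have hc1 : ∀ c k, ((Matrix.blockDiagonal' fun b : Bool => if b then A x else 1) *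
      Matrix.reindex (Equiv.sigmaEquivProd Bool J).symm
      (Equiv.sigmaEquivProd Bool J).symm (hgate ⊗ₖ (1 : Matrix J J ℂ))) ⟨c, k⟩ ⟨false, j₀⟩
      = (if c then A x else 1) k j₀ * (((1 / Real.sqrt 2 : ℝ)) : ℂ) := by
    intro c k
    rw [Matrix.mul_apply, Finset.sum_eq_single ⟨c, j₀⟩]
    · rw [Matrix.blockDiagonal'_apply_eq]
      simp [hgate]
    · rintro ⟨c', k'⟩ _ hne
      by_cases hc' : c = c'
      · subst hc'
        have : k' ≠ j₀ := fun h => hne (by rw [h])
        simp [Matrix.one_apply_ne this]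
      · rw [Matrix.blockDiagonal'_apply_ne _ _ _ hc', zero_mul]
    · simp
  have hc2 : ∀ c k, (Matrix.reindex (Equiv.sigmaEquivProd Bool J).symm
      (Equiv.sigmaEquivProd Bool J).symm (hgate ⊗ₖ (1 : Matrix J J ℂ)) *
      ((Matrix.blockDiagonal' fun b : Bool => if b then A x else 1) *
      Matrix.reindex (Equiv.sigmaEquivProd Bool J).symm
      (Equiv.sigmaEquivProd Bool J).symm (hgate ⊗ₖ (1 : Matrix J J ℂ)))) ⟨c, k⟩ ⟨false, j₀⟩
      = ((if k = j₀ then 1 else 0) + (if c then -1 else 1) * A x k j₀) / 2 := by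
    intro c k
    rw [Matrix.mul_apply, ← Finset.univ_sigma_univ, Finset.sum_sigma, Fintype.sum_bool]
    simp only [hc1]
    rw [Finset.sum_eq_single k, Finset.sum_eq_single k]
    · by_cases hk : k = j₀
      · subst hk
        cases c <;> simp [hgate] <;> field_simp <;> rw [h2] <;> ring
      · cases c <;> simp [hgate, Matrix.one_apply_ne hk, hk] <;> field_simp <;> rw [h2] <;> ring
    · intro k' _ hne
      simp [Matrix.one_apply_ne hne.symm]
    · simp
    · intro k' _ hne
      simp [Matrix.one_apply_ne hne.symm]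
    · simp
  rw [← Finset.univ_sigma_univ, Finset.sum_sigma, Finset.sum_eq_single b]
  · simp only [if_true, hc2]
    have h4 : ∀ j, ‖((if j = j₀ then (1 : ℂ) else 0) + (if b then -1 else 1) * A x j j₀) / 2‖ ^ 2
        = (if j = j₀ then (1 + (if b then -2 else 2) * (A x j₀ j₀).re) / 4 else 0)
          + ‖A x j j₀‖ ^ 2 / 4 := by
      intro j
      rw [← Complex.normSq_eq_norm_sq, ← Complex.normSq_eq_norm_sq, map_div₀]
      by_cases h : j = j₀
      · subst h
        cases b <;> simp [Complex.normSq_apply] <;> ring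
      · cases b <;> simp [Complex.normSq_apply, h] <;> ring
    rw [Finset.sum_congr rfl fun j _ => h4 j, Finset.sum_add_distrib, ← Finset.sum_div,
      column_norm (hA.unitary x) j₀]
    simp only [Finset.sum_ite_eq', Finset.mem_univ, if_true]
    cases b <;> simp <;> ring
  · intro c _ hc
    refine Finset.sum_eq_zero fun j _ => ?_
    rw [if_neg hc]
  · simp

end Crest.Agent.QG
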