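import Crest.Agent.QG.Level
import Crest.Agent.QG.Gauss
import Crest.Agent.QG.Forr

/-!
# Chunk E: the single-instance hard distribution with explicit parameters
-/

set_option autoImplicit false

namespace Crest.Agent.QG

open Finset

theorem tailMoment_nonneg (σ : ℝ) : 0 ≤ tailMoment σ := by
  unfold tailMoment
  apply MeasureTheory.integral_nonneg
  intro x
  positivity

theorem single_pow_le {y : ℝ} (hy : 0 ≤ y) (n : ℕ) (h : n * y ≤ 1) :
    (1 + y) ^ n ≤ 1 + 2 * (n * y) := by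
  have h1 : (1 + y) ^ n ≤ Real.exp (n * y) := by
    calc (1 + y) ^ n ≤ (Real.exp y) ^ n := by
          apply pow_le_pow_left₀ (by positivity)
          linarith [Real.add_one_le_exp y]
      _ = Real.exp (n * y) := by rw [← Real.exp_nat_mul]
  have hny : 0 ≤ (n : ℝ) * y := by positivity
  have h2 := Real.abs_exp_sub_one_sub_id_le (x := n * y) (by rw [abs_of_nonneg hny]; exact h)
  have h3 := (abs_le.mp h2).2
  nlinarith

theorem Tr.abs_fn_le {V : Type} (T : Tr V) (x : V → Bool) : |T.fn x| ≤ 1 := by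
  unfold Tr.fn
  split <;> simp

theorem chain_abs_le {a k : ℕ} (i : Fin k → (Fin a → Bool)) :
    |chain (had a) i| ≤ (1 / Real.sqrt (2 ^ a)) ^ (k - 1) := by
  unfold chain
  rw [Finset.abs_prod]
  apply le_of_eq
  rw [Finset.prod_congr rfl (fun s _ => had_abs a _ _)]
  simp

theorem single_instance (κ A b : ℕ) (hκ : 2 ≤ κ) (hb : b + 2 ≤ A * (κ - 1)) :
    ∃ s₀ : ℕ, ∀ s : ℕ, s₀ ≤ s →
      ∃ D : (Fin κ × (Fin (κ * A * s) → Bool) → Bool) → ℝ,
        (∀ x, 0 ≤ D x) ∧ ∑ x, D x = 1 ∧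
        (∀ T : Tr (Fin κ × (Fin (κ * A * s) → Bool)),
          T.depth ≤ 2 ^ ((A * (κ - 1) - (b + 2)) * s) →
          |∑ x, D x * T.fn x - ext T.fn 0| ≤ 1 / 2 ^ (b * s)) ∧
        1 / (2 * 2 ^ ((κ - 1) * s)) ≤ ∑ x, D x * forr (had (κ * A * s)) x := by
  obtain ⟨p, hpdef⟩ : ∃ p : ℕ, p = κ ^ 2 * A + 1 := ⟨_, rfl⟩
  obtain ⟨p', hp'def⟩ : ∃ p' : ℕ, p' = κ * A + (b + κ + 4) := ⟨_, rfl⟩
  have hp : 1 ≤ p := by omega
  have hp' : 4 ≤ p' := by omega
  obtain ⟨C, hC, hlevel⟩ := level_bound_layers p hp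
  obtain ⟨C', hC', htail⟩ := tailMoment_le p' hp'
  set E₀ : ℝ := 1 + (κ : ℝ) ^ κ * C ^ (p * κ) with hE₀
  have hE₀1 : 1 ≤ E₀ := by
    have : 0 ≤ (κ : ℝ) ^ κ * C ^ (p * κ) := by positivity
    linarith
  have hκ1 : (1 : ℝ) ≤ ((κ - 1 : ℕ) : ℝ) := by
    have : 1 ≤ κ - 1 := by omega
    exact_mod_cast this
  obtain ⟨s₀, hs₀⟩ := pow_unbounded_of_one_lt
    (2 * ((κ - 1 : ℕ) : ℝ) * E₀ + 8 * C' * ((κ - 1 : ℕ) : ℝ) + 1) (one_lt_two : (1 : ℝ) < 2)
  refine ⟨s₀, fun s hs => ?_⟩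
  have hq : 2 * ((κ - 1 : ℕ) : ℝ) * E₀ + 8 * C' * ((κ - 1 : ℕ) : ℝ) + 1 ≤ (2 : ℝ) ^ s :=
    hs₀.le.trans (pow_le_pow_right₀ one_le_two hs)
  set Q : ℝ := (2 : ℝ) ^ s with hQ
  have hQn : ∀ n : ℕ, (2 : ℝ) ^ (n * s) = Q ^ n := by
    intro n
    rw [hQ, ← pow_mul, Nat.mul_comm]
  have hQ1 : 1 ≤ Q := one_le_pow₀ one_le_two
  have hQ0 : 0 < Q := by positivity
  set a := κ * A * s with ha
  set σ : ℝ := Real.sqrt (1 / Q) with hσdef
  have hσ2 : σ ^ 2 = 1 / Q := Real.sq_sqrt (by positivity)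
  have hσ0 : 0 < σ := Real.sqrt_pos.mpr (by positivity)
  have hσ1 : σ ≤ 1 := by
    rw [hσdef]
    apply Real.sqrt_le_one.mpr |> fun h => h
    rw [div_le_one hQ0]
    exact hQ1
  -- card
  have hcard : Fintype.card (Fin a → Bool) = 2 ^ a := by simp
  have h2a : (2 : ℝ) ^ a = Q ^ (κ * A) := by
    rw [ha]; exact hQn _
  set y : ℝ := C' * (1 / Q) ^ p' with hy
  have hy0 : 0 ≤ y := by positivity
  have hny : ((Fintype.card (Fin a → Bool) * (κ - 1) : ℕ) : ℝ) * y =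
      C' * ((κ - 1 : ℕ) : ℝ) / Q ^ (b + κ + 4) := by
    rw [hcard, hy, hp'def]
    push_cast
    rw [h2a, pow_add, one_div, inv_pow, inv_pow]
    field_simp
  set δ : ℝ := 2 * (C' * ((κ - 1 : ℕ) : ℝ) / Q ^ (b + κ + 4)) with hδdef
  have hCκ : 0 < C' * ((κ - 1 : ℕ) : ℝ) := by positivity
  have hδ0 : 0 ≤ δ := by positivity
  have hQpow : ∀ n : ℕ, 1 ≤ n → Q ≤ Q ^ n := fun n hn => le_self_pow₀ hQ1 (by omega)
  have hE0κ : 0 < ((κ - 1 : ℕ) : ℝ) * E₀ := by positivity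
  have hδ_small : C' * ((κ - 1 : ℕ) : ℝ) / Q ^ (b + κ + 4) ≤ 1 / 8 := by
    rw [div_le_iff₀ (by positivity)]
    have := hQpow (b + κ + 4) (by omega)
    nlinarith
  have htm : tailMoment σ ^ (Fintype.card (Fin a → Bool) * (κ - 1)) ≤ 1 + δ := by
    have h1 : tailMoment σ ≤ 1 + y := by
      have := htail σ hσ0 hσ1
      rwa [pow_mul, hσ2] at this
    calc tailMoment σ ^ (Fintype.card (Fin a → Bool) * (κ - 1))
        ≤ (1 + y) ^ (Fintype.card (Fin a → Bool) * (κ - 1)) :=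
          pow_le_pow_left₀ (tailMoment_nonneg σ) h1 _
      _ ≤ 1 + 2 * (((Fintype.card (Fin a → Bool) * (κ - 1) : ℕ) : ℝ) * y) := by
          apply single_pow_le hy0
          rw [hny]; linarith
      _ = 1 + δ := by rw [hny]
  obtain ⟨D, hD0, hD1, hDadv, hDmean⟩ := gaussian_distribution (had a) (had_isSymm a)
    (had_mul_had a) κ hκ σ hσ0 hσ1 δ hδ0 htm
  refine ⟨D, hD0, hD1, ?_, ?_⟩
  · intro T hT
    set Λ : ℝ := E₀ / Q ^ (b + 1) with hΛ
    have hΛ0 : 0 ≤ Λ := by positivity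
    have key := hDadv T.fn T.abs_fn_le Λ hΛ0 ?_
    · refine key.trans ?_
      have hσk : σ ^ (2 * (κ - 1)) ≤ 1 := pow_le_one₀ hσ0.le hσ1
      have hδ1 : δ ≤ 1 := by rw [hδdef]; linarith
      have h1 : ((κ - 1 : ℕ) : ℝ) * σ ^ (2 * (κ - 1)) * (Λ * (1 + δ)) ≤
          ((κ - 1 : ℕ) : ℝ) * 1 * (Λ * 2) := by
        apply mul_le_mul
        · apply mul_le_mul_of_nonneg_left hσk (by positivity)
        · apply mul_le_mul_of_nonneg_left (by linarith) hΛ0
        · positivity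
        · positivity
      have h2 : 2 * δ ≤ 4 * C' * ((κ - 1 : ℕ) : ℝ) / Q ^ (b + 1) := by
        rw [hδdef]
        have h3 : C' * ((κ - 1 : ℕ) : ℝ) / Q ^ (b + κ + 4) ≤
            C' * ((κ - 1 : ℕ) : ℝ) / Q ^ (b + 1) := by
          apply div_le_div_of_nonneg_left hCκ.le (by positivity)
          exact pow_le_pow_right₀ hQ1 (by omega)
        calc 2 * (2 * (C' * ((κ - 1 : ℕ) : ℝ) / Q ^ (b + κ + 4))) =
            4 * (C' * ((κ - 1 : ℕ) : ℝ) / Q ^ (b + κ + 4)) := by ring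
          _ ≤ 4 * (C' * ((κ - 1 : ℕ) : ℝ) / Q ^ (b + 1)) := by linarith
          _ = _ := by ring
      have h4 : (1 : ℝ) / 2 ^ (b * s) = Q / Q ^ (b + 1) := by
        rw [hQn, pow_succ]
        field_simp
      rw [h4]
      calc ((κ - 1 : ℕ) : ℝ) * σ ^ (2 * (κ - 1)) * (Λ * (1 + δ)) + 2 * δ
          ≤ ((κ - 1 : ℕ) : ℝ) * 1 * (Λ * 2) + 4 * C' * ((κ - 1 : ℕ) : ℝ) / Q ^ (b + 1) :=
            add_le_add h1 h2
        _ = (2 * ((κ - 1 : ℕ) : ℝ) * E₀ + 4 * C' * ((κ - 1 : ℕ) : ℝ)) / Q ^ (b + 1) := by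
            rw [hΛ]; ring
        _ ≤ Q / Q ^ (b + 1) := by
            apply div_le_div_of_nonneg_right _ (by positivity)
            nlinarith
    · intro z hz
      have hl := hlevel (Fin a → Bool) inferInstance inferInstance κ T
        (2 ^ ((A * (κ - 1) - (b + 2)) * s)) Nat.one_le_two_pow hT z hz (fun i => chain (had a) i)
        ((1 / Real.sqrt (2 ^ a)) ^ (κ - 1)) (by positivity) (fun i => chain_abs_le i)
      have hcardR : ((Fintype.card (Fin a → Bool) : ℕ) : ℝ) = Q ^ (κ * A) := by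
        rw [hcard]; push_cast; exact h2a
      have h5 : ((1 / Real.sqrt (2 ^ a)) ^ (κ - 1)) ^ (2 * p) = 1 / Q ^ (κ * A * (κ - 1) * p) := by
        have e1 : ((1 / Real.sqrt (2 ^ a)) ^ (κ - 1)) ^ (2 * p) =
            ((1 / Real.sqrt (2 ^ a)) ^ 2) ^ ((κ - 1) * p) := by
          rw [← pow_mul, ← pow_mul]; congr 1; ring
        rw [e1, div_pow, Real.sq_sqrt (by positivity), one_pow, h2a, div_pow, one_pow, ← pow_mul]
        congr 2
        ring
      have h6 : (((2 ^ ((A * (κ - 1) - (b + 2)) * s) : ℕ)) : ℝ) = Q ^ (A * (κ - 1) - (b + 2)) := by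
        push_cast
        exact hQn _
      have h7 : ((∑ i : Fin κ → (Fin a → Bool), chain (had a) i * dext T.fn (layerSet i) z)) ^ (2 * p)
          ≤ Λ ^ (2 * p) := by
        refine hl.trans ?_
        rw [h5, hcardR, h6]
        obtain ⟨τ, hτ⟩ : ∃ τ, A * (κ - 1) = τ + (b + 2) := ⟨A * (κ - 1) - (b + 2), by omega⟩
        rw [show A * (κ - 1) - (b + 2) = τ by omega]
        have e2 : ((κ : ℝ) * Q ^ (κ * A) * (C * Q ^ τ) ^ p) ^ κ =
            ((κ : ℝ) ^ κ * C ^ (p * κ)) * Q ^ (κ * A * κ + τ * p * κ) := by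
          rw [mul_pow, mul_pow, mul_pow, mul_pow, ← pow_mul, ← pow_mul, ← pow_mul, ← pow_mul,
            pow_add]
          ring
        rw [e2, hΛ, div_pow, ← pow_mul Q (b + 1), one_div, inv_mul_eq_div]
        rw [div_le_div_iff₀ (by positivity) (by positivity)]
        have e3 : κ * A * (κ - 1) * p = κ * τ * p + κ * (b + 2) * p := by
          calc κ * A * (κ - 1) * p = κ * (A * (κ - 1)) * p := by ring
            _ = _ := by rw [hτ]; ring
        have e4 : κ * A * κ + τ * p * κ + (b + 1) * (2 * p) ≤ κ * A * (κ - 1) * p := by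
          rw [e3]
          have e5 : 2 * ((b + 2) * p) ≤ κ * ((b + 2) * p) := Nat.mul_le_mul_right _ hκ
          have e6 : κ * A * κ ≤ 2 * p := by rw [hpdef]; nlinarith
          nlinarith
        have e7 : E₀ ≤ E₀ ^ (2 * p) := le_self_pow₀ hE₀1 (by omega)
        calc (κ : ℝ) ^ κ * C ^ (p * κ) * Q ^ (κ * A * κ + τ * p * κ) * Q ^ ((b + 1) * (2 * p))
            = ((κ : ℝ) ^ κ * C ^ (p * κ)) * Q ^ (κ * A * κ + τ * p * κ + (b + 1) * (2 * p)) := by
              rw [pow_add Q (κ * A * κ + τ * p * κ)]; ring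
          _ ≤ E₀ ^ (2 * p) * Q ^ (κ * A * (κ - 1) * p) := by
              apply mul_le_mul
              · refine le_trans ?_ e7
                rw [hE₀]; linarith
              · exact pow_le_pow_right₀ hQ1 e4
              · positivity
              · positivity
      have h8 : |∑ i : Fin κ → (Fin a → Bool), chain (had a) i * dext T.fn (layerSet i) z| ^ (2 * p)
          ≤ Λ ^ (2 * p) := by
        rw [Even.pow_abs (by simp)]
        exact h7
      exact le_of_pow_le_pow_left₀ (by omega) hΛ0 h8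
  · refine le_trans ?_ hDmean
    have h9 : σ ^ (2 * (κ - 1)) = 1 / Q ^ (κ - 1) := by
      rw [pow_mul, hσ2, div_pow, one_pow]
    have h10 : (2 : ℝ) ^ ((κ - 1) * s) = Q ^ (κ - 1) := by
      exact hQn _
    rw [h9, h10, hδdef]
    have h11 : C' * ((κ - 1 : ℕ) : ℝ) / Q ^ (b + κ + 4) ≤ 1 / 8 / Q ^ (κ - 1) := by
      rw [div_le_div_iff₀ (by positivity) (by positivity)]
      have : Q ^ (b + κ + 4) = Q ^ (κ - 1) * Q ^ (b + 5) := by
        rw [← pow_add]; congr 1; omega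
      rw [this]
      have h12 := hQpow (b + 5) (by omega)
      have h13 : 0 < Q ^ (κ - 1) := by positivity
      nlinarith [mul_le_mul_of_nonneg_left h12 h13.le, mul_pos h13 hQ0]
    have h14 : 1 / (2 * Q ^ (κ - 1)) = 1 / Q ^ (κ - 1) - 2 * (2 * (1 / 8 / Q ^ (κ - 1))) := by
      field_simp; norm_num
    rw [h14]
    linarith

end Crest.Agent.QG
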