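import Crest.Agent.QG.Hint
import Crest.Agent.QG.Forr

/-!
# Chunk F1: transcripts of the fast Walsh-Hadamard transform as certificates
-/

set_option autoImplicit false

namespace Crest.Agent.QG

open Finset

/-! ### circuits and local checks -/

section circuit

theorem exists_decoder (B : ℕ) (hB : 1 ≤ B) :
    ∃ dec : (Fin B → Bool) → ℤ, ∀ z : ℤ, |z| < 2 ^ (B - 1) → ∃ u, dec u = z := by
  have hcard : Fintype.card (Fin B → Bool) = 2 ^ B := by simp
  let e : (Fin B → Bool) ≃ Fin (2 ^ B) := Fintype.equivFinOfCardEq hcard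
  refine ⟨fun u => ((e u).1 : ℤ) - 2 ^ (B - 1), fun z hz => ?_⟩
  rw [abs_lt] at hz
  have hpow : (2:ℤ) ^ B = 2 * 2 ^ (B - 1) := by
    conv_lhs => rw [show B = (B - 1) + 1 by omega]
    rw [pow_succ]; ring
  have h0 : 0 ≤ z + 2 ^ (B - 1) := by linarith
  have h1 : (z + 2 ^ (B - 1)).toNat < 2 ^ B := by
    have : ((z + 2 ^ (B - 1)).toNat : ℤ) < ((2 ^ B : ℕ) : ℤ) := by
      rw [Int.toNat_of_nonneg h0]; push_cast; linarith
    exact_mod_cast this
  refine ⟨e.symm ⟨(z + 2 ^ (B - 1)).toNat, h1⟩, ?_⟩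
  simp only [Equiv.apply_symm_apply]
  rw [Int.toNat_of_nonneg h0]; ring

theorem Proc.det_of_vars {ι K O : Type} [Fintype K] [Fintype O] [DecidableEq O] {m : ℕ}
    (hm : Fintype.card K ≤ m) (v : K → ι) (h : (K → Bool) → O) :
    Proc m (det fun x : ι → Bool => h (fun k => x (v k))) := by
  let e := Fintype.equivFin K
  have h1 : Proc (Fintype.card K) (det fun x : ι → Bool => fun i => x ((v ∘ e.symm) i)) :=
    Proc.readBits (v ∘ e.symm)
  have h2 := (Proc.det_map h1 (fun u => h (fun k => u (e k)))).mono hm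
  simpa using h2

variable {X W : Type}

/-- the local check of a wire -/
def wcheck {B : ℕ} (dec : (Fin B → Bool) → ℤ) (inp : W → X) (p1 p2 : W → W)
    (rule : W → Bool → ℤ → ℤ → ℤ) (w : W) (xy : X ⊕ (W × Fin B) → Bool) : Bool :=
  !decide (dec (fun b => xy (Sum.inr (w, b))) =
    rule w (xy (Sum.inl (inp w))) (dec fun b => xy (Sum.inr (p1 w, b)))
      (dec fun b => xy (Sum.inr (p2 w, b))))

theorem wcheck_proc {B : ℕ} (dec : (Fin B → Bool) → ℤ) (inp : W → X) (p1 p2 : W → W)
    (rule : W → Bool → ℤ → ℤ → ℤ) (w : W) :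
    Proc (3 * B + 1) (det (wcheck dec inp p1 p2 rule w)) := by
  have h := Proc.det_of_vars (ι := X ⊕ (W × Fin B)) (K := (Fin 3 × Fin B) ⊕ Unit)
    (m := 3 * B + 1) (by simp)
    (Sum.elim (fun jb => Sum.inr ((if jb.1 = 0 then w else if jb.1 = 1 then p1 w else p2 w), jb.2))
      (fun _ => Sum.inl (inp w)))
    (fun u => !decide (dec (fun b => u (Sum.inl (0, b))) =
      rule w (u (Sum.inr ())) (dec fun b => u (Sum.inl (1, b))) (dec fun b => u (Sum.inl (2, b)))))
  simp at h
  exact h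

theorem wcheck_iff {B : ℕ} (dec : (Fin B → Bool) → ℤ) (inp : W → X) (p1 p2 : W → W)
    (rule : W → Bool → ℤ → ℤ → ℤ) (rank : W → ℕ) (val : (X → Bool) → W → ℤ)
    (h1 : ∀ w, rank (p1 w) < rank w ∨ ∀ b u u' v, rule w b u v = rule w b u' v)
    (h2 : ∀ w, rank (p2 w) < rank w ∨ ∀ b u v v', rule w b u v = rule w b u v')
    (hval : ∀ x w, val x w = rule w (x (inp w)) (val x (p1 w)) (val x (p2 w)))
    (x : X → Bool) (y : W × Fin B → Bool) :
    (∀ w, wcheck dec inp p1 p2 rule w (Sum.elim x y) = false) ↔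
      ∀ w, dec (fun b => y (w, b)) = val x w := by
  have key : ∀ w, wcheck dec inp p1 p2 rule w (Sum.elim x y) = false ↔
      dec (fun b => y (w, b)) =
        rule w (x (inp w)) (dec fun b => y (p1 w, b)) (dec fun b => y (p2 w, b)) := by
    intro w
    show (!decide (_ = _)) = false ↔ _
    rw [Bool.not_eq_false', decide_eq_true_iff]
    rfl
  constructor
  · intro h
    have hind : ∀ n w, rank w < n → dec (fun b => y (w, b)) = val x w := by
      intro n
      induction n with
      | zero => intro w hw; omega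
      | succ n ih =>
        intro w hw
        rw [(key w).1 (h w), hval x w]
        have e1 : rule w (x (inp w)) (dec fun b => y (p1 w, b)) (dec fun b => y (p2 w, b)) =
            rule w (x (inp w)) (val x (p1 w)) (dec fun b => y (p2 w, b)) := by
          rcases h1 w with h3 | h3
          · rw [ih (p1 w) (by omega)]
          · exact h3 _ _ _ _
        rw [e1]
        rcases h2 w with h3 | h3
        · rw [ih (p2 w) (by omega)]
        · exact h3 _ _ _ _
    exact fun w => hind (rank w + 1) w (by omega)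
  · intro h w
    rw [key, h w, h (p1 w), h (p2 w)]
    exact hval x w

end circuit

/-! ### butterflies -/

section butterfly

/-- `l` butterfly steps -/
def bfly {n : ℕ} (T : (Fin n → Bool) → ℤ) : ℕ → (Fin n → Bool) → ℤ
  | 0 => T
  | l + 1 => fun v =>
      if h : l < n then
        bfly T l (Function.update v ⟨l, h⟩ false) +
          (if v ⟨l, h⟩ then -1 else 1) * bfly T l (Function.update v ⟨l, h⟩ true)
      else bfly T l v

/-- kernel after `l` steps -/
def bker (l l' : ℕ) (b b' : Bool) : ℤ :=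
  if l' < l then (if b && b' then -1 else 1) else (if b = b' then 1 else 0)

theorem bfly_eq {n : ℕ} (T : (Fin n → Bool) → ℤ) (l : ℕ) (hl : l ≤ n) (v : Fin n → Bool) :
    bfly T l v = ∑ j : Fin n → Bool, (∏ l' : Fin n, bker l l'.1 (v l') (j l')) * T j := by
  induction l generalizing v with
  | zero =>
    rw [Finset.sum_eq_single v]
    · simp [bfly, bker]
    · intro j _ hj
      obtain ⟨l', hl'⟩ := Function.ne_iff.1 hj.symm
      rw [Finset.prod_eq_zero (Finset.mem_univ l')]
      · simp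
      · simp [bker, hl']
    · simp
  | succ l ih =>
    have hln : l < n := by omega
    have h1 : bfly T (l + 1) v = bfly T l (Function.update v ⟨l, hln⟩ false) +
          (if v ⟨l, hln⟩ then -1 else 1) * bfly T l (Function.update v ⟨l, hln⟩ true) := by
      show (if h : l < n then _ else _) = _
      rw [dif_pos hln]
    rw [h1, ih (by omega), ih (by omega), Finset.mul_sum, ← Finset.sum_add_distrib]
    apply Finset.sum_congr rfl
    intro j _
    rw [← mul_assoc, ← add_mul]
    congr 1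
    have hsplit : ∀ f : Fin n → ℤ, ∏ l', f l' =
        f ⟨l, hln⟩ * ∏ l' ∈ Finset.univ.erase ⟨l, hln⟩, f l' := fun f =>
      (Finset.mul_prod_erase Finset.univ f (Finset.mem_univ _)).symm
    rw [hsplit, hsplit, hsplit]
    have hrest : ∀ b : Bool, ∏ l' ∈ Finset.univ.erase (⟨l, hln⟩ : Fin n),
        bker l l'.1 (Function.update v ⟨l, hln⟩ b l') (j l') =
        ∏ l' ∈ Finset.univ.erase (⟨l, hln⟩ : Fin n), bker (l + 1) l'.1 (v l') (j l') := by
      intro b
      apply Finset.prod_congr rfl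
      intro l' hl'
      have hne : l' ≠ ⟨l, hln⟩ := Finset.ne_of_mem_erase hl'
      rw [Function.update_of_ne hne]
      have hne' : l'.1 ≠ l := fun h => hne (Fin.ext h)
      have h4 : (l'.1 < l + 1) ↔ (l'.1 < l) := by omega
      simp only [bker, h4]
    rw [hrest, hrest, ← mul_assoc, ← add_mul]
    congr 1
    simp only [Function.update_self]
    unfold bker
    rw [if_neg (lt_irrefl l), if_neg (lt_irrefl l), if_pos (Nat.lt_succ_self l)]
    cases v ⟨l, hln⟩ <;> cases j ⟨l, hln⟩ <;> simp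

theorem bfly_full {n : ℕ} (T : (Fin n → Bool) → ℤ) (v : Fin n → Bool) :
    bfly T n v = ∑ j : Fin n → Bool,
      (∏ l' : Fin n, (if v l' && j l' then (-1 : ℤ) else 1)) * T j := by
  rw [bfly_eq T n le_rfl v]
  apply Finset.sum_congr rfl
  intro j _
  congr 1
  apply Finset.prod_congr rfl
  intro l' _
  simp [bker, l'.2]

theorem bfly_full_zero {n : ℕ} (T : (Fin n → Bool) → ℤ) :
    bfly T n (fun _ => false) = ∑ j : Fin n → Bool, T j := by
  rw [bfly_full]
  simp

theorem bfly_had (a : ℕ) (T : (Fin a → Bool) → ℤ) (v : Fin a → Bool) :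
    ((bfly T a v : ℤ) : ℝ) = Real.sqrt (2 ^ a) * ∑ j, had a j v * (T j : ℝ) := by
  have hs : Real.sqrt (2 ^ a) ≠ 0 := by positivity
  rw [bfly_full, Finset.mul_sum]
  push_cast
  apply Finset.sum_congr rfl
  intro j _
  unfold had
  have : ∀ l, (if v l && j l then (-1:ℝ) else 1) = (if j l && v l then (-1:ℝ) else 1) := by
    intro l; rw [Bool.and_comm]
  rw [Finset.prod_congr rfl (fun l _ => this l)]
  field_simp

end butterfly

/-! ### the transform with two kinds of coordinates -/

section two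

variable {ρ a : ℕ}

/-- one level: the two parents and the coefficient -/
def stepP (last : Bool) (l : ℕ) (v : (Fin ρ → Bool) × (Fin a → Bool)) :
    ((Fin ρ → Bool) × (Fin a → Bool)) × ((Fin ρ → Bool) × (Fin a → Bool)) × ℤ :=
  if h : l < a then
    ((v.1, Function.update v.2 ⟨l, h⟩ false), (v.1, Function.update v.2 ⟨l, h⟩ true),
      if v.2 ⟨l, h⟩ then -1 else 1)
  else if h : last = true ∧ l - a < ρ then
    ((Function.update v.1 ⟨l - a, h.2⟩ false, v.2), (Function.update v.1 ⟨l - a, h.2⟩ true, v.2),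
      if v.1 ⟨l - a, h.2⟩ then -1 else 1)
  else (v, v, 0)

theorem abs_stepP_le (last : Bool) (l : ℕ) (v : (Fin ρ → Bool) × (Fin a → Bool)) :
    |(stepP last l v).2.2| ≤ 1 := by
  unfold stepP
  split_ifs <;> simp

/-- `l` levels -/
def lv (last : Bool) (T : (Fin ρ → Bool) × (Fin a → Bool) → ℤ) :
    ℕ → (Fin ρ → Bool) × (Fin a → Bool) → ℤ
  | 0 => T
  | l + 1 => fun v => lv last T l (stepP last l v).1 +
      (stepP last l v).2.2 * lv last T l (stepP last l v).2.1

theorem lv_succ (last : Bool) (T : (Fin ρ → Bool) × (Fin a → Bool) → ℤ) (l : ℕ)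
    (v : (Fin ρ → Bool) × (Fin a → Bool)) :
    lv last T (l + 1) v = lv last T l (stepP last l v).1 +
      (stepP last l v).2.2 * lv last T l (stepP last l v).2.1 := rfl

theorem abs_lv_le (last : Bool) (T : (Fin ρ → Bool) × (Fin a → Bool) → ℤ) (M : ℤ)
    (hT : ∀ v, |T v| ≤ M) (l : ℕ) (v : (Fin ρ → Bool) × (Fin a → Bool)) :
    |lv last T l v| ≤ 2 ^ l * M := by
  induction l generalizing v with
  | zero => simpa [lv] using hT v
  | succ l ih =>
    rw [lv_succ]
    have h1 := ih (stepP last l v).1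
    have h2 := ih (stepP last l v).2.1
    have h3 := abs_stepP_le last l v
    have h0 := abs_nonneg (lv last T l (stepP last l v).2.1)
    calc |lv last T l (stepP last l v).1 +
        (stepP last l v).2.2 * lv last T l (stepP last l v).2.1|
        ≤ |lv last T l (stepP last l v).1| +
          |(stepP last l v).2.2 * lv last T l (stepP last l v).2.1| := abs_add_le _ _
      _ = |lv last T l (stepP last l v).1| +
          |(stepP last l v).2.2| * |lv last T l (stepP last l v).2.1| := by rw [abs_mul]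
      _ ≤ 2 ^ l * M + 1 * (2 ^ l * M) := by
          have h4 : |(stepP last l v).2.2| * |lv last T l (stepP last l v).2.1| ≤
            1 * |lv last T l (stepP last l v).2.1| := mul_le_mul_of_nonneg_right h3 h0
          linarith
      _ = 2 ^ (l + 1) * M := by rw [pow_succ]; ring

theorem lv_low (last : Bool) (T : (Fin ρ → Bool) × (Fin a → Bool) → ℤ) (l : ℕ) (hl : l ≤ a)
    (v : (Fin ρ → Bool) × (Fin a → Bool)) :
    lv last T l v = bfly (fun j => T (v.1, j)) l v.2 := by
  induction l generalizing v with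
  | zero => rfl
  | succ l ih =>
    have hla : l < a := by omega
    have h1 : stepP last l v = ((v.1, Function.update v.2 ⟨l, hla⟩ false),
        (v.1, Function.update v.2 ⟨l, hla⟩ true), if v.2 ⟨l, hla⟩ then -1 else 1) := by
      unfold stepP; rw [dif_pos hla]
    rw [lv_succ, h1, ih (by omega), ih (by omega)]
    show _ = (if h : l < a then _ else _)
    rw [dif_pos hla]

theorem lv_false (T : (Fin ρ → Bool) × (Fin a → Bool) → ℤ) (l : ℕ)
    (v : (Fin ρ → Bool) × (Fin a → Bool)) :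
    lv false T (a + l) v = lv false T a v := by
  induction l generalizing v with
  | zero => rfl
  | succ l ih =>
    have h1 : stepP false (a + l) v = (v, v, 0) := by
      unfold stepP; rw [dif_neg (by omega), dif_neg (by simp)]
    rw [← add_assoc, lv_succ, h1]
    simp [ih]

theorem lv_true (T : (Fin ρ → Bool) × (Fin a → Bool) → ℤ) (l : ℕ) (hl : l ≤ ρ)
    (v : (Fin ρ → Bool) × (Fin a → Bool)) :
    lv true T (a + l) v = bfly (fun r => lv true T a (r, v.2)) l v.1 := by
  induction l generalizing v with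
  | zero => rfl
  | succ l ih =>
    have hlr : l < ρ := by omega
    have h1 : stepP true (a + l) v = ((Function.update v.1 ⟨l, hlr⟩ false, v.2),
        (Function.update v.1 ⟨l, hlr⟩ true, v.2), if v.1 ⟨l, hlr⟩ then -1 else 1) := by
      unfold stepP
      rw [dif_neg (by omega), dif_pos ⟨rfl, by omega⟩]
      simp only [Nat.add_sub_cancel_left]
    rw [← add_assoc, lv_succ, h1, ih (by omega), ih (by omega)]
    show _ = (if h : l < ρ then _ else _)
    rw [dif_pos hlr]

theorem lv_true_zero (T : (Fin ρ → Bool) × (Fin a → Bool) → ℤ) :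
    lv true T (a + ρ) (fun _ => false, fun _ => false) =
      ∑ r : Fin ρ → Bool, ∑ j : Fin a → Bool, T (r, j) := by
  rw [lv_true T ρ le_rfl, bfly_full_zero]
  apply Finset.sum_congr rfl
  intro r _
  rw [lv_low true T a le_rfl, bfly_full_zero]

/-- the vector at the beginning of stage `s` -/
def bs (g : ℕ → (Fin ρ → Bool) × (Fin a → Bool) → ℤ) :
    ℕ → (Fin ρ → Bool) × (Fin a → Bool) → ℤ
  | 0 => g 0
  | s + 1 => fun v => g (s + 1) v * lv false (bs g s) (a + ρ) v

theorem bs_succ (g : ℕ → (Fin ρ → Bool) × (Fin a → Bool) → ℤ) (s : ℕ)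
    (v : (Fin ρ → Bool) × (Fin a → Bool)) :
    bs g (s + 1) v = g (s + 1) v * lv false (bs g s) (a + ρ) v := rfl

theorem abs_bs_le (g : ℕ → (Fin ρ → Bool) × (Fin a → Bool) → ℤ) (hg : ∀ s v, |g s v| ≤ 1)
    (s : ℕ) (v : (Fin ρ → Bool) × (Fin a → Bool)) : |bs g s v| ≤ 2 ^ (s * (a + ρ)) := by
  induction s generalizing v with
  | zero => simpa [bs] using hg 0 v
  | succ s ih =>
    rw [bs_succ, abs_mul]
    have h1 := abs_lv_le false (bs g s) _ ih (a + ρ) v
    have h2 := hg (s + 1) v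
    have h0 := abs_nonneg (lv false (bs g s) (a + ρ) v)
    calc |g (s + 1) v| * |lv false (bs g s) (a + ρ) v| ≤ 1 * |lv false (bs g s) (a + ρ) v| :=
          mul_le_mul_of_nonneg_right h2 h0
      _ ≤ 2 ^ (a + ρ) * 2 ^ (s * (a + ρ)) := by linarith
      _ = 2 ^ ((s + 1) * (a + ρ)) := by rw [← pow_add]; congr 1; ring

theorem bs_iter (g : ℕ → (Fin ρ → Bool) × (Fin a → Bool) → ℤ) (s : ℕ)
    (r : Fin ρ → Bool) (i : Fin a → Bool) :
    ((bs g s (r, i) : ℤ) : ℝ) =
      (Real.sqrt (2 ^ a)) ^ s * iter (had a) (fun s i => ((g s (r, i) : ℤ) : ℝ)) s i := by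
  induction s generalizing i with
  | zero => simp [bs, iter]
  | succ s ih =>
    rw [bs_succ, lv_false, lv_low false _ a le_rfl]
    push_cast
    rw [bfly_had]
    simp only [iter]
    rw [Finset.sum_congr rfl (fun j _ => by rw [ih j])]
    have : ∑ j, had a j i * ((Real.sqrt (2 ^ a)) ^ s *
        iter (had a) (fun s i => ((g s (r, i) : ℤ) : ℝ)) s j) =
        (Real.sqrt (2 ^ a)) ^ s * ∑ j, had a j i *
          iter (had a) (fun s i => ((g s (r, i) : ℤ) : ℝ)) s j := by
      rw [Finset.mul_sum]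
      apply Finset.sum_congr rfl
      intro j _; ring
    rw [this, pow_succ]; ring

end two

/-! ### assembly -/

section assembly

variable {c κ ρ a : ℕ}

/-- integer sign -/
def sgz (b : Bool) : ℤ := if b then -1 else 1

theorem sgz_cast (b : Bool) : ((sgz b : ℤ) : ℝ) = sg b := by
  cases b <;> simp [sgz, sg]

/-- input signs of the stages -/
def gin (x : (Fin c × (Fin ρ → Bool)) × (Fin κ × (Fin a → Bool)) → Bool) (β : Fin c) (s : ℕ)
    (v : (Fin ρ → Bool) × (Fin a → Bool)) : ℤ :=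
  if h : s < κ then sgz (x ((β, v.1), (⟨s, h⟩, v.2))) else 1

theorem abs_gin_le (x : (Fin c × (Fin ρ → Bool)) × (Fin κ × (Fin a → Bool)) → Bool) (β : Fin c)
    (s : ℕ) (v : (Fin ρ → Bool) × (Fin a → Bool)) : |gin x β s v| ≤ 1 := by
  unfold gin sgz
  split_ifs <;> simp

/-- the final value of the transcript -/
theorem final_value (hκ : 1 ≤ κ)
    (x : (Fin c × (Fin ρ → Bool)) × (Fin κ × (Fin a → Bool)) → Bool) (β : Fin c) :
    ((lv true (bs (gin x β) (κ - 1)) (a + ρ) (fun _ => false, fun _ => false) : ℤ) : ℝ) =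
      ((Real.sqrt (2 ^ a)) ^ (κ - 1) * 2 ^ a * 2 ^ ρ) * meanForr x β := by
  obtain ⟨n, rfl⟩ : ∃ n, κ = n + 1 := ⟨κ - 1, by omega⟩
  rw [lv_true_zero]
  push_cast
  unfold meanForr
  have h1 : ∀ r : Fin ρ → Bool, forr (had a) (fun v => x ((β, r), v)) =
      (1 / (2:ℝ) ^ a) * ∑ j, iter (had a) (fun s i => ((gin x β s (r, i) : ℤ) : ℝ)) n j := by
    intro r
    rw [forr_eq_iter]
    congr 1
    · simp
    · apply Finset.sum_congr rfl
      intro j _
      congr 1
      funext s i
      unfold gin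
      split_ifs
      · rw [sgz_cast]
      · simp
  rw [Finset.sum_congr rfl (fun r _ => h1 r), ← Finset.mul_sum]
  rw [Finset.sum_congr rfl (fun r _ => Finset.sum_congr rfl (fun j _ => bs_iter (gin x β) n r j))]
  rw [Finset.sum_congr rfl (fun r _ => (Finset.mul_sum _ _ _).symm), ← Finset.mul_sum]
  have h2 : (2:ℝ) ^ a ≠ 0 := by positivity
  have h3 : (2:ℝ) ^ ρ ≠ 0 := by positivity
  field_simp

/-- wires -/
abbrev Wire (c κ ρ a : ℕ) : Type :=
  Fin c × Fin κ × Fin (a + ρ + 1) × ((Fin ρ → Bool) × (Fin a → Bool))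

def winp (w : Wire c κ ρ a) : (Fin c × (Fin ρ → Bool)) × (Fin κ × (Fin a → Bool)) :=
  ((w.1, w.2.2.2.1), (w.2.1, w.2.2.2.2))

def wlast (w : Wire c κ ρ a) : Bool := decide (w.2.1.1 + 1 = κ)

def wp1 (w : Wire c κ ρ a) : Wire c κ ρ a :=
  if w.2.2.1.1 = 0 then
    (if w.2.1.1 = 0 then w else (w.1, ⟨w.2.1.1 - 1, by have := w.2.1.2; omega⟩, Fin.last _, w.2.2.2))
  else (w.1, w.2.1, ⟨w.2.2.1.1 - 1, by have := w.2.2.1.2; omega⟩,
    (stepP (wlast w) (w.2.2.1.1 - 1) w.2.2.2).1)

def wp2 (w : Wire c κ ρ a) : Wire c κ ρ a :=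
  if w.2.2.1.1 = 0 then w
  else (w.1, w.2.1, ⟨w.2.2.1.1 - 1, by have := w.2.2.1.2; omega⟩,
    (stepP (wlast w) (w.2.2.1.1 - 1) w.2.2.2).2.1)

def wrule (w : Wire c κ ρ a) (b : Bool) (u v : ℤ) : ℤ :=
  if w.2.2.1.1 = 0 then (if w.2.1.1 = 0 then sgz b else sgz b * u)
  else u + (stepP (wlast w) (w.2.2.1.1 - 1) w.2.2.2).2.2 * v

def wrank (w : Wire c κ ρ a) : ℕ := w.2.1.1 * (a + ρ + 1) + w.2.2.1.1

def wval (x : (Fin c × (Fin ρ → Bool)) × (Fin κ × (Fin a → Bool)) → Bool) (w : Wire c κ ρ a) : ℤ :=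
  lv (wlast w) (bs (gin x w.1) w.2.1.1) w.2.2.1.1 w.2.2.2

theorem wh1 (w : Wire c κ ρ a) : wrank (wp1 w) < wrank w ∨
    ∀ b u u' v, wrule w b u v = wrule w b u' v := by
  obtain ⟨β, ⟨s, hs⟩, ⟨l, hl⟩, v⟩ := w
  rcases Nat.eq_zero_or_pos l with rfl | hl0
  · rcases Nat.eq_zero_or_pos s with rfl | hs0
    · right; intro b u u' v; simp [wrule]
    · left
      obtain ⟨s', rfl⟩ : ∃ s', s = s' + 1 := ⟨s - 1, by omega⟩
      simp only [wrank, wp1, Nat.add_sub_cancel, if_true, Nat.add_eq_zero_iff, one_ne_zero,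
        and_false, if_false, Fin.val_last]
      rw [add_mul]; omega
  · left
    have : l ≠ 0 := by omega
    simp only [wrank, wp1, if_neg this]
    omega

theorem wh2 (w : Wire c κ ρ a) : wrank (wp2 w) < wrank w ∨
    ∀ b u v v', wrule w b u v = wrule w b u v' := by
  obtain ⟨β, ⟨s, hs⟩, ⟨l, hl⟩, v⟩ := w
  rcases Nat.eq_zero_or_pos l with rfl | hl0
  · right; intro b u v v'; simp [wrule]
  · left
    have : l ≠ 0 := by omega
    simp only [wrank, wp2, if_neg this]
    omega

theorem whval (x : (Fin c × (Fin ρ → Bool)) × (Fin κ × (Fin a → Bool)) → Bool)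
    (w : Wire c κ ρ a) : wval x w = wrule w (x (winp w)) (wval x (wp1 w)) (wval x (wp2 w)) := by
  obtain ⟨β, ⟨s, hs⟩, ⟨l, hl⟩, v⟩ := w
  rcases Nat.eq_zero_or_pos l with rfl | hl0
  · rcases Nat.eq_zero_or_pos s with rfl | hs0
    · simp [wval, wrule, lv, bs, gin, winp, hs]
    · obtain ⟨s', rfl⟩ : ∃ s', s = s' + 1 := ⟨s - 1, by omega⟩
      have hne : ¬ (s' + 1 = κ) := by omega
      simp [wval, wrule, wp1, wlast, lv, bs_succ, gin, winp, hs, hne]
  · obtain ⟨l', rfl⟩ : ∃ l', l = l' + 1 := ⟨l - 1, by omega⟩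
    simp [wval, wrule, wp1, wp2, wlast, lv_succ]

theorem wbound (x : (Fin c × (Fin ρ → Bool)) × (Fin κ × (Fin a → Bool)) → Bool)
    (w : Wire c κ ρ a) : |wval x w| < 2 ^ (κ * (ρ + a) + 2 - 1) := by
  obtain ⟨β, ⟨s, hs⟩, ⟨l, hl⟩, v⟩ := w
  have h1 := abs_lv_le (wlast (β, (⟨s, hs⟩ : Fin κ), (⟨l, hl⟩ : Fin (a + ρ + 1)), v))
    (bs (gin x β) s) _ (abs_bs_le (gin x β) (abs_gin_le x β) s) l v
  refine lt_of_le_of_lt h1 ?_
  rw [← pow_add]
  apply pow_lt_pow_right₀ (by norm_num)
  have h2 : s * (a + ρ) + (a + ρ) ≤ κ * (ρ + a) := by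
    calc s * (a + ρ) + (a + ρ) = (s + 1) * (ρ + a) := by ring
      _ ≤ κ * (ρ + a) := Nat.mul_le_mul_right _ hs
  omega

/-- Certificates for `Encodes` with few local checks. -/
theorem transcript_scheme (c κ ρ a : ℕ) (hκ : 1 ≤ κ) (θ : ℝ) :
    ∃ (Y E : Type) (_ : Fintype Y) (_ : DecidableEq Y) (_ : Fintype E) (_ : DecidableEq E)
      (bad : E → (Fin c → Bool) →
        (((Fin c × (Fin ρ → Bool)) × (Fin κ × (Fin a → Bool))) ⊕ Y → Bool) → Bool),
      Fintype.card E ≤ c * (κ * (ρ + a + 1) * 2 ^ (ρ + a) + 1) ∧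
      (∀ e lam, Proc (3 * (κ * (ρ + a) + 2) + 1) (det (bad e lam))) ∧
      (∀ x lam, (∃ y, ∀ e, bad e lam (Sum.elim x y) = false) ↔ Encodes θ x lam) := by
  classical
  obtain ⟨dec, hdec⟩ := exists_decoder (κ * (ρ + a) + 2) (by omega)
  let F : ℝ := (Real.sqrt (2 ^ a)) ^ (κ - 1) * 2 ^ a * 2 ^ ρ
  have hF : 0 < F := by positivity
  let wf : Fin c → Wire c κ ρ a := fun β =>
    (β, ⟨κ - 1, by omega⟩, Fin.last _, (fun _ => false, fun _ => false))
  let bad : Wire c κ ρ a ⊕ Fin c → (Fin c → Bool) →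
        (((Fin c × (Fin ρ → Bool)) × (Fin κ × (Fin a → Bool))) ⊕ (Wire c κ ρ a × Fin (κ * (ρ + a) + 2)) → Bool) →
        Bool := fun e lam xy =>
    match e with
    | Sum.inl w => wcheck dec winp wp1 wp2 wrule w xy
    | Sum.inr β => !decide ((lam β = true → θ * F ≤ (dec (fun b => xy (Sum.inr (wf β, b))) : ℝ)) ∧
        (lam β = false → (dec (fun b => xy (Sum.inr (wf β, b))) : ℝ) ≤ -θ * F))
  refine ⟨Wire c κ ρ a × Fin (κ * (ρ + a) + 2), Wire c κ ρ a ⊕ Fin c, inferInstance, inferInstance, inferInstance,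
    inferInstance, bad, ?_, ?_, ?_⟩
  · simp only [Fintype.card_sum, Fintype.card_prod, Fintype.card_fin, Fintype.card_pi,
      Fintype.card_bool, Finset.prod_const, Finset.card_univ]
    apply le_of_eq
    rw [pow_add]
    ring
  · rintro (w | β) lam
    · exact wcheck_proc dec winp wp1 wp2 wrule w
    · have h := Proc.det_of_vars
        (ι := ((Fin c × (Fin ρ → Bool)) × (Fin κ × (Fin a → Bool))) ⊕ (Wire c κ ρ a × Fin (κ * (ρ + a) + 2)))
        (K := Fin (κ * (ρ + a) + 2)) (m := 3 * (κ * (ρ + a) + 2) + 1) (by simp; omega)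
        (fun b => Sum.inr (wf β, b))
        (fun u => !decide ((lam β = true → θ * F ≤ (dec u : ℝ)) ∧
          (lam β = false → (dec u : ℝ) ≤ -θ * F)))
      exact h
  · intro x lam
    have hw : ∀ y, (∀ w, wcheck dec winp wp1 wp2 wrule w (Sum.elim x y) = false) ↔
        ∀ w, dec (fun b => y (w, b)) = wval x w :=
      wcheck_iff dec winp wp1 wp2 wrule wrank wval wh1 wh2 whval x
    have hfin : ∀ β, ((wval x (wf β) : ℤ) : ℝ) = F * meanForr x β := by
      intro β
      have h1 : wval x (wf β) =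
          lv true (bs (gin x β) (κ - 1)) (a + ρ) (fun _ => false, fun _ => false) := by
        have : wlast (wf β) = true := by
          simp only [wlast, wf, decide_eq_true_eq]; omega
        simp only [wval, this]
        rfl
      rw [h1]
      exact final_value hκ x β
    have hsplit : ∀ y, (∀ e, bad e lam (Sum.elim x y) = false) ↔
        (∀ w, dec (fun b => y (w, b)) = wval x w) ∧
        ∀ β, (lam β = true → θ * F ≤ (dec (fun b => y (wf β, b)) : ℝ)) ∧
          (lam β = false → (dec (fun b => y (wf β, b)) : ℝ) ≤ -θ * F) := by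
      intro y
      rw [← hw y]
      constructor
      · intro h
        refine ⟨fun w => h (Sum.inl w), fun β => ?_⟩
        have h1 := h (Sum.inr β)
        change (!decide _) = false at h1
        rw [Bool.not_eq_false', decide_eq_true_iff] at h1
        exact h1
      · rintro ⟨h1, h2⟩ (w | β)
        · exact h1 w
        · show (!decide _) = false
          rw [Bool.not_eq_false', decide_eq_true_iff]
          exact h2 β
    have hiff : ∀ β, ((lam β = true → θ * F ≤ ((wval x (wf β) : ℤ) : ℝ)) ∧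
        (lam β = false → ((wval x (wf β) : ℤ) : ℝ) ≤ -θ * F)) ↔
        ((lam β = true → θ ≤ meanForr x β) ∧ (lam β = false → meanForr x β ≤ -θ)) := by
      intro β
      rw [hfin β]
      have e1 : θ * F ≤ F * meanForr x β ↔ θ ≤ meanForr x β := by
        rw [mul_comm θ F]; exact mul_le_mul_iff_right₀ hF
      have e2 : F * meanForr x β ≤ -θ * F ↔ meanForr x β ≤ -θ := by
        rw [mul_comm (-θ) F]; exact mul_le_mul_iff_right₀ hF
      rw [e1, e2]
    constructor
    · rintro ⟨y, hy⟩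
      rw [hsplit] at hy
      intro β
      rw [← hiff β, ← hy.1 (wf β)]
      exact hy.2 β
    · intro h
      have hex : ∀ w, ∃ u, dec u = wval x w := fun w => hdec _ (wbound x w)
      choose u hu using hex
      refine ⟨fun wb => u wb.1 wb.2, ?_⟩
      rw [hsplit]
      refine ⟨fun w => hu w, fun β => ?_⟩
      have h1 : dec (fun b => u (wf β) b) = wval x (wf β) := hu (wf β)
      show (lam β = true → θ * F ≤ (dec (fun b => u (wf β) b) : ℝ)) ∧
          (lam β = false → (dec (fun b => u (wf β) b) : ℝ) ≤ -θ * F)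
      rw [h1, hiff β]
      exact h β

end assembly

end Crest.Agent.QG
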